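import Vale.Agent.Lib.P154.Checker

set_option linter.defProp false

namespace Vale.Agent.Lib.P154

private abbrev n0 := Tr.nd 0
private abbrev n1 := Tr.nd 1
private abbrev n2 := Tr.nd 2
private abbrev n3 := Tr.nd 3
private abbrev l := Tr.lf
private abbrev o := Tr.ot

def K2s1 : KCfg where
  W := 272
  room := 13
  roomT := 41
  ns := [6, 4, 6, 4]
  den := 4096
  pp := ⟨856, (-10684), 45037⟩
  p0 := ⟨1696, (-29852), 177222⟩
  pY := ⟨1696, (-29852), 177222⟩
  tn := 64
  E := 1048576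
  q1 := [1048576, (-3145728), 9437184, (-28311552), 85174023, (-266499534), 942313953, (-2617452998), 3132161914]
  q2 := [1048576, (-6291456), 28311552, (-113246208), 418936573, (-1581720273), 6122944282, (-16494035827), 18587286321]
  q3 := [1048576, (-9437184), 56623104, (-283115520), 1325249714, (-6628114076), 30978547857, (-87367912860), 97427914581]
  q4 := [1048576, (-12582912), 94371840, (-566231040), 3251814433, (-20183908299), 102425895966, (-286139782516), 309040941023]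
  q5 := [1048576, (-15728640), 141557760, (-990904320), 7071587724, (-53508244970), 286956025765, (-790953639524), 830231349473]
  lamA := (71, 100)
  lamB := (71, 100)

theorem K2s1_hwf : wfK K2s1 = true := by decide +kernel

def K2s1_Q : QTrees where
  t1 := ((n0 (n0 (n0 (n0 l l) l) (n0 (n0 (n0 l l) l) o)) o), (n0 (n0 (n0 l (n0 (n0 l (n0 (n0 l (n0 l (n0 (n0 l (n0 (n0 (n0 l o) o) o)) o))) o)) o)) o) o))
  t2 := ((n0 (n0 (n0 l (n0 l l)) (n0 (n0 l (n0 (n0 l (n0 l (n0 (n0 l o) o))) o)) o)) o), (n0 (n0 (n0 (n0 l (n0 l l)) l) o) o))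
  t3 := ((n0 (n0 (n0 (n0 l l) l) (n0 (n0 l l) o)) o), (n0 (n0 (n0 l (n0 (n0 l (n0 (n0 l (n0 l (n0 (n0 l (n0 (n0 (n0 l o) o) o)) o))) o)) o)) o) o))
  t4 := ((n0 (n0 (n0 l l) (n0 (n0 l l) o)) o), (n0 (n0 (n0 l (n0 (n0 l (n0 (n0 l (n0 l (n0 (n0 l (n0 (n0 (n0 l o) o) o)) o))) o)) o)) o) o))
  t5 := ((n0 (n0 (n0 l l) (n0 l o)) o), (n0 (n0 (n0 l (n0 (n0 l (n0 (n0 l (n0 l (n0 (n0 l (n0 (n0 (n0 l o) o) o)) o))) o)) o)) o) o))

def K2s1_hq : allQ K2s1 184 K2s1_Q = true := by decide +kernel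

def K2s1_pp_A : Nat := (rootPP K2s1 true true).elim 0 (fun x => x.1)

def K2s1_pp_B : Nat := (rootPP K2s1 true true).elim 0 (fun x => x.2)

def K2s1_pp_root : rootCheck K2s1 true true K2s1_pp_A K2s1_pp_B = true := by decide +kernel

def K2s1_pp_t0 : Tr := (n3 (n3 (n3 (n3 (n0 (n2 (n0 (n1 (n3 (n2 l (n0 (n3 (n2 l o) (n2 l o)) (n3 (n2 (n1 (n0 l (n3 o (n2 l o))) l) o) (n2 (n1 (n3 (n2 l o) l) l) o)))) (n3 (n2 l (n0 (n2 l o) (n2 l o))) l)) (n3 (n3 (n2 l (n1 (n2 l o) l)) (n2 l (n2 l o))) l)) (n2 (n3 (n1 (n2 (n1 (n0 l o) (n0 l o)) (n1 (n0 (n3 (n2 l (n1 o (n0 l o))) l) o) (n0 (n3 (n1 (n0 l o) l) l) o))) (n1 (n2 (n0 l o) (n0 l o)) l)) (n1 (n1 (n3 (n0 l o) l) (n0 l o)) l)) (n1 (n3 (n0 (n2 (n1 (n3 (n0 (n2 (n1 o (n3 o (n0 (n2 l o) o))) o) o) (n2 (n3 (n0 (n1 o (n2 l o)) o) (n1 o (n0 l o))) o)) (n3 (n0 (n1 (n2 (n3 o (n0 l o)) o) (n3 o (n2 l o))) o) (n0 (n2 l o) o))) o) o) (n2 (n0 (n3 (n1 (n3 (n2 l (n0 l o)) l) (n3 (n2 l (n0 l o)) l)) l) o) (n3 o (n0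 l o)))) (n3 (n0 (n2 (n1 (n3 (n1 (n0 l (n2 l o)) l) (n1 (n0 l (n2 l o)) l)) l) o) (n1 o (n2 l o))) (n0 (n3 (n2 l o) l) (n2 (n1 o l) (n1 o (n3 o l)))))))) o) o) (n2 (n0 (n1 l l) o) (n0 (n0 (n1 (n3 (n2 l o) l) (n3 (n3 (n3 (n2 l o) l) l) l)) (n2 (n3 (n0 l (n1 o (n3 (n3 (n1 o l) l) l))) o) o)) o))) o) o) o)

def K2s1_pp_h0 : subCheck K2s1 true true K2s1_pp_A K2s1_pp_B [(0, false), (0, false), (2, false), (2, false), (1, false), (1, false), (1, false), (1, false)] K2s1_pp_t0 = true := by decide +kernel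

def K2s1_pp_t1 : Tr := (n3 (n3 (n3 (n3 (n0 (n2 (n3 l l) o) (n2 (n2 (n3 (n1 (n0 l o) l) (n1 (n1 (n1 (n0 l o) l) l) l)) (n0 (n1 (n2 l (n3 o (n1 (n1 (n3 o l) l) l))) o) o)) o)) (n0 (n2 (n0 o l) (n3 (n0 o (n0 o (n2 l o))) (n0 o (n0 o (n2 o o))))) (n2 (n1 (n2 o (n2 o (n0 l o))) (n2 o (n2 o (n0 o o)))) (n0 (n2 (n1 (n2 (n3 (n0 l (n2 l (n1 (n0 l o) (n3 (n0 l o) o)))) o) (n0 (n3 (n0 l (n3 (n2 l o) (n1 (n2 l o) o))) o) (n3 (n0 (n3 (n2 (n1 (n0 l (n2 l (n0 l o))) (n3 o (n0 o (n2 l (n3 o (n0 (n2 l o) (n1 (n2 l o) o))))))) o) (n2 (n1 (n1 o (n2 o (n0 l (n1 o (n2 (n0 l o) (n3 (n0 l o) o)))))) (n0 o (n2 o (n1 (n3 (n0 (n2 l (n3 (n1 l o) o)) (n2 (n1 (n3 l o) o) (n1 (n3 (n0 (n2 l o) o) o) o))) o) o)))) o)) o) o))) o) o) o)))) o) o) o)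

def K2s1_pp_h1 : subCheck K2s1 true true K2s1_pp_A K2s1_pp_B [(0, false), (0, false), (2, false), (2, false), (1, false), (1, false), (1, false), (1, true)] K2s1_pp_t1 = true := by decide +kernel

def K2s1_pp_t2 : Tr := o

def K2s1_pp_h2 : subCheck K2s1 true true K2s1_pp_A K2s1_pp_B [(0, false), (0, false), (2, false), (2, false), (1, false), (1, false), (1, true)] K2s1_pp_t2 = true := by decide +kernel

def K2s1_pp_t3 : Tr := o

def K2s1_pp_h3 : subCheck K2s1 true true K2s1_pp_A K2s1_pp_B [(0, false), (0, false), (2, false), (2, false), (1, false), (1, true)] K2s1_pp_t3 = true := by decide +kernel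

def K2s1_pp_t4 : Tr := o

def K2s1_pp_h4 : subCheck K2s1 true true K2s1_pp_A K2s1_pp_B [(0, false), (0, false), (2, false), (2, false), (1, true)] K2s1_pp_t4 = true := by decide +kernel

def K2s1_pp_t5 : Tr := o

def K2s1_pp_h5 : subCheck K2s1 true true K2s1_pp_A K2s1_pp_B [(0, false), (0, false), (2, false), (2, true)] K2s1_pp_t5 = true := by decide +kernel

def K2s1_pp_t6 : Tr := o

def K2s1_pp_h6 : subCheck K2s1 true true K2s1_pp_A K2s1_pp_B [(0, false), (0, false), (2, true)] K2s1_pp_t6 = true := by decide +kernel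

def K2s1_pp_t7 : Tr := o

def K2s1_pp_h7 : subCheck K2s1 true true K2s1_pp_A K2s1_pp_B [(0, false), (0, true)] K2s1_pp_t7 = true := by decide +kernel

def K2s1_pp_t8 : Tr := o

def K2s1_pp_h8 : subCheck K2s1 true true K2s1_pp_A K2s1_pp_B [(0, true)] K2s1_pp_t8 = true := by decide +kernel

def K2s1_pp_L : List (Path × Tr) := [([(0, false), (0, false), (2, false), (2, false), (1, false), (1, false), (1, false), (1, false)], K2s1_pp_t0), ([(0, false), (0, false), (2, false), (2, false), (1, false), (1, false), (1, false), (1, true)], K2s1_pp_t1), ([(0, false), (0, false), (2, false), (2, false), (1, false), (1, false), (1, true)], K2s1_pp_t2), ([(0, false), (0, false), (2, false), (2, false), (1, false), (1, true)], K2s1_pp_t3), ([(0, false), (0, false), (2, false), (2, false), (1, true)], K2s1_pp_t4), ([(0, false), (0, false), (2, false), (2, true)], K2s1_pp_t5), ([(0, false), (0, false), (2, true)], K2s1_pp_t6), ([(0, false), (0, true)],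 K2s1_pp_t7), ([(0, true)], K2s1_pp_t8)]

def K2s1_pp_T : Tr := (n0 (n0 (n2 (n2 (n1 (n1 (n1 (n1 l l) l) l) l) l) l) l) l)

theorem K2s1_pp_cov : covers (K2s1_pp_L.map (fun e => pathBox e.1 root4)) K2s1_pp_T root4 = true := by decide +kernel

theorem K2s1_pp_all : AllSub K2s1 true true K2s1_pp_A K2s1_pp_B K2s1_pp_L := allSub_cons K2s1_pp_h0 (allSub_cons K2s1_pp_h1 (allSub_cons K2s1_pp_h2 (allSub_cons K2s1_pp_h3 (allSub_cons K2s1_pp_h4 (allSub_cons K2s1_pp_h5 (allSub_cons K2s1_pp_h6 (allSub_cons K2s1_pp_h7 (allSub_cons K2s1_pp_h8 (allSub_nil)))))))))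

theorem K2s1_hpp : QuadChecked K2s1 true true := quadChecked_intro K2s1_pp_root K2s1_pp_cov K2s1_pp_all

def K2s1_pm_A : Nat := (rootPP K2s1 true false).elim 0 (fun x => x.1)

def K2s1_pm_B : Nat := (rootPP K2s1 true false).elim 0 (fun x => x.2)

def K2s1_pm_root : rootCheck K2s1 true false K2s1_pm_A K2s1_pm_B = true := by decide +kernel

def K2s1_pm_t0 : Tr := (n0 (n0 (n2 (n2 (n1 (n1 (n1 (n1 (n3 (n3 (n3 (n3 (n0 (n2 (n0 (n1 (n3 (n2 (n2 (n0 (n2 (n3 (n0 (n1 (n2 (n0 (n2 (n3 l (n0 (n1 (n2 (n0 (n2 o l) l) l) l) l)) l) l) l) l) l) (n0 (n1 (n2 (n2 o l) l) l) l)) l) l) l) o) (n2 (n2 (n2 o l) l) o)) l) (n2 (n3 (n1 (n2 (n1 (n0 (n1 o (n0 l o)) o) (n0 (n0 l o) o)) (n1 (n0 (n0 (n3 (n2 l (n1 o (n0 l o))) (n2 l (n1 o (n0 l o)))) o) o) (n0 (n0 l o) o))) (n1 (n2 (n0 l o) (n0 l o)) l)) (n1 (n2 (n1 (n0 (n1 o (n0 l o)) o) (n0 (n1 (n0 l o) (n2 o l)) o)) (n0 (n1 (n0 (n3 (n0 l o) l) o) (n0 l o)) o)) (n1 (n2 (n0 l o) (n0 l o)) l))) o)) o) o) (n0 (n2 (n2 o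 o) o) o)) o) o) o) (n3 (n3 (n3 (n3 (n0 (n2 (n3 (n2 l o) (n2 l o)) o) (n0 (n1 (n0 (n2 (n3 (n1 (n2 l o) o) (n1 (n2 l o) o)) o) (n2 (n1 (n2 l o) (n3 l (n2 l o))) o)) o) o)) (n2 (n2 o o) o)) o) o) o)) o) o) o) o) o) o) o)

def K2s1_pm_h0 : subCheck K2s1 true false K2s1_pm_A K2s1_pm_B [] K2s1_pm_t0 = true := by decide +kernel

def K2s1_pm_L : List (Path × Tr) := [([], K2s1_pm_t0)]

def K2s1_pm_T : Tr := l

theorem K2s1_pm_cov : covers (K2s1_pm_L.map (fun e => pathBox e.1 root4)) K2s1_pm_T root4 = true := by decide +kernel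

theorem K2s1_pm_all : AllSub K2s1 true false K2s1_pm_A K2s1_pm_B K2s1_pm_L := allSub_cons K2s1_pm_h0 (allSub_nil)

theorem K2s1_hpm : QuadChecked K2s1 true false := quadChecked_intro K2s1_pm_root K2s1_pm_cov K2s1_pm_all

def K2s1_mp_A : Nat := (rootPP K2s1 false true).elim 0 (fun x => x.1)

def K2s1_mp_B : Nat := (rootPP K2s1 false true).elim 0 (fun x => x.2)

def K2s1_mp_root : rootCheck K2s1 false true K2s1_mp_A K2s1_mp_B = true := by decide +kernel

def K2s1_mp_t0 : Tr := (n0 (n0 (n2 (n2 (n1 (n1 (n1 (n1 (n3 (n3 (n3 (n3 (n2 (n0 (n2 (n3 (n1 (n0 (n0 (n2 (n0 (n1 (n2 (n3 (n0 (n2 (n0 (n1 l (n2 (n3 (n0 (n2 (n0 o l) l) l) l) l)) l) l) l) l) l) (n2 (n3 (n0 (n0 o l) l) l) l)) l) l) l) o) (n0 (n0 (n0 o l) l) o)) l) (n0 (n1 (n3 (n0 (n3 (n2 (n3 o (n2 l o)) o) (n2 (n2 l o) o)) (n3 (n2 (n2 (n1 (n0 l (n3 o (n2 l o))) (n0 l (n3 o (n2 l o)))) o) o) (n2 (n2 l o) o))) (n3 (n0 (n2 l o) (n2 l o)) l)) (n3 (n0 (n3 (n2 (n3 o (n2 l o)) o) (n2 (n3 (n2 l o)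 (n0 o l)) o)) (n2 (n3 (n2 (n1 (n2 l o) l) o) (n2 l o)) o)) (n3 (n0 (n2 l o) (n2 l o)) l))) o)) o) o) (n2 (n0 (n1 (n0 l o) (n0 l o)) o) (n2 (n3 (n2 (n0 (n1 (n3 (n0 l o) o) (n3 (n0 l o) o)) o) (n0 (n3 (n0 l o) (n1 l (n0 l o))) o)) o) o))) o) o) o) (n3 (n3 (n3 (n3 (n2 (n0 (n0 o o) o) o) (n0 (n0 o o) o)) o) o) o)) o) o) o) o) o) o) o)

def K2s1_mp_h0 : subCheck K2s1 false true K2s1_mp_A K2s1_mp_B [] K2s1_mp_t0 = true := by decide +kernel

def K2s1_mp_L : List (Path × Tr) := [([], K2s1_mp_t0)]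

def K2s1_mp_T : Tr := l

theorem K2s1_mp_cov : covers (K2s1_mp_L.map (fun e => pathBox e.1 root4)) K2s1_mp_T root4 = true := by decide +kernel

theorem K2s1_mp_all : AllSub K2s1 false true K2s1_mp_A K2s1_mp_B K2s1_mp_L := allSub_cons K2s1_mp_h0 (allSub_nil)

theorem K2s1_hmp : QuadChecked K2s1 false true := quadChecked_intro K2s1_mp_root K2s1_mp_cov K2s1_mp_all

def K2s1_mm_A : Nat := (rootPP K2s1 false false).elim 0 (fun x => x.1)

def K2s1_mm_B : Nat := (rootPP K2s1 false false).elim 0 (fun x => x.2)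

def K2s1_mm_root : rootCheck K2s1 false false K2s1_mm_A K2s1_mm_B = true := by decide +kernel

def K2s1_mm_t0 : Tr := (n2 (n2 (n0 (n1 (n2 (n3 (n0 (n2 (n0 (n1 (n2 (n3 (n0 (n2 (n0 (n1 l (n2 (n3 l (n0 (n2 (n0 o l) l) l)) l)) l) l) l) (n2 (n0 (n2 o l) l) l)) l) (n2 (n3 (n0 (n2 (n0 o l) l) l) (n0 (n2 (n0 o (n2 o (n1 l o))) (n0 o (n2 (n1 l o) l))) (n2 (n2 o (n0 (n3 l o) l)) (n0 (n2 (n1 l o) l) l)))) l)) (n2 l l)) l) l) (n2 (n0 (n2 o (n0 (n1 l (n2 o l)) (n1 (n2 o l) (n2 o (n3 (n0 l l) o))))) (n2 o (n0 (n1 l (n3 l o)) l))) (n0 (n1 l (n2 (n1 l (n3 l o)) l)) (n0 (n1 l (n2 (n3 l o) l)) l)))) l) (n2 (n3 (n0 (n2 (n0 o (n2 (n3 l (n0 o l)) (n3 (n0 o l) (n0 o (n1 (n2 l l) o))))) (n0 o (n2 (n3 l (n1 l o)) l))) (n2 (n3 l (n0 (n3 l (n1 l o)) l)) (n2 (n3 l (n0 (n1 l o) l)) l))) (n0 (n2 (n0 o (n2 o (n1 (n3 (n0 o (n2 o (n1 (n3 (n1 l o) o) o))) o) o))) (n0 o (n2 (n1 (n1 (n2 (n3 (n0 o l) o) l) o) o) (n1 l o)))) (n2 (n2 o (n0 (n3 (n3 (n0 (n1 (n2 o l) o) l)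 o) o) (n3 l o))) (n0 (n2 (n1 (n3 (n1 l (n3 l (n0 o (n2 o l)))) o) o) (n1 (n1 l (n3 l (n2 o l))) o)) (n2 (n3 (n3 l (n1 l (n0 o l))) o) (n1 l (n3 l (n1 (n3 (n0 o l) o) o)))))))) (n0 l l))) (n2 (n3 l (n2 l l)) l)) l) o)

def K2s1_mm_h0 : subCheck K2s1 false false K2s1_mm_A K2s1_mm_B [(0, false), (0, false), (2, false), (2, false), (1, false), (1, false), (1, false), (1, false), (3, false), (3, false), (3, false), (3, false), (0, false), (2, false), (0, false), (1, false), (3, false), (0, false)] K2s1_mm_t0 = true := by decide +kernel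

def K2s1_mm_t1 : Tr := (n2 l o)

def K2s1_mm_h1 : subCheck K2s1 false false K2s1_mm_A K2s1_mm_B [(0, false), (0, false), (2, false), (2, false), (1, false), (1, false), (1, false), (1, false), (3, false), (3, false), (3, false), (3, false), (0, false), (2, false), (0, false), (1, false), (3, false), (0, true)] K2s1_mm_t1 = true := by decide +kernel

def K2s1_mm_t2 : Tr := (n2 (n2 (n0 (n2 o (n0 (n1 l (n0 l (n2 o l))) (n0 (n1 l (n2 o l)) l))) (n2 o l)) l) o)

def K2s1_mm_h2 : subCheck K2s1 false false K2s1_mm_A K2s1_mm_B [(0, false), (0, false), (2, false), (2, false), (1, false), (1, false), (1, false), (1, false), (3, false), (3, false), (3, false), (3, false), (0, false), (2, false), (0, false), (1, false), (3, true)] K2s1_mm_t2 = true := by decide +kernel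

def K2s1_mm_t3 : Tr := (n0 (n3 (n2 (n2 (n0 o (n2 (n3 l (n2 l (n0 o l))) (n2 (n3 l (n0 o l)) l))) (n0 o l)) o) (n2 (n2 (n0 o (n2 o (n0 o (n2 o l)))) l) o)) (n3 (n2 l o) (n2 (n2 l l) o)))

def K2s1_mm_h3 : subCheck K2s1 false false K2s1_mm_A K2s1_mm_B [(0, false), (0, false), (2, false), (2, false), (1, false), (1, false), (1, false), (1, false), (3, false), (3, false), (3, false), (3, false), (0, false), (2, false), (0, false), (1, true)] K2s1_mm_t3 = true := by decide +kernel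

def K2s1_mm_t4 : Tr := o

def K2s1_mm_h4 : subCheck K2s1 false false K2s1_mm_A K2s1_mm_B [(0, false), (0, false), (2, false), (2, false), (1, false), (1, false), (1, false), (1, false), (3, false), (3, false), (3, false), (3, false), (0, false), (2, false), (0, true)] K2s1_mm_t4 = true := by decide +kernel

def K2s1_mm_t5 : Tr := o

def K2s1_mm_h5 : subCheck K2s1 false false K2s1_mm_A K2s1_mm_B [(0, false), (0, false), (2, false), (2, false), (1, false), (1, false), (1, false), (1, false), (3, false), (3, false), (3, false), (3, false), (0, false), (2, true)] K2s1_mm_t5 = true := by decide +kernel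

def K2s1_mm_t6 : Tr := o

def K2s1_mm_h6 : subCheck K2s1 false false K2s1_mm_A K2s1_mm_B [(0, false), (0, false), (2, false), (2, false), (1, false), (1, false), (1, false), (1, false), (3, false), (3, false), (3, false), (3, false), (0, true)] K2s1_mm_t6 = true := by decide +kernel

def K2s1_mm_t7 : Tr := (n0 (n2 (n0 (n1 (n2 o o) (n2 o o)) o) o) o)

def K2s1_mm_h7 : subCheck K2s1 false false K2s1_mm_A K2s1_mm_B [(0, false), (0, false), (2, false), (2, false), (1, false), (1, false), (1, false), (1, false), (3, false), (3, false), (3, false), (3, true)] K2s1_mm_t7 = true := by decide +kernel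

def K2s1_mm_t8 : Tr := o

def K2s1_mm_h8 : subCheck K2s1 false false K2s1_mm_A K2s1_mm_B [(0, false), (0, false), (2, false), (2, false), (1, false), (1, false), (1, false), (1, false), (3, false), (3, false), (3, true)] K2s1_mm_t8 = true := by decide +kernel

def K2s1_mm_t9 : Tr := o

def K2s1_mm_h9 : subCheck K2s1 false false K2s1_mm_A K2s1_mm_B [(0, false), (0, false), (2, false), (2, false), (1, false), (1, false), (1, false), (1, false), (3, false), (3, true)] K2s1_mm_t9 = true := by decide +kernel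

def K2s1_mm_t10 : Tr := o

def K2s1_mm_h10 : subCheck K2s1 false false K2s1_mm_A K2s1_mm_B [(0, false), (0, false), (2, false), (2, false), (1, false), (1, false), (1, false), (1, false), (3, true)] K2s1_mm_t10 = true := by decide +kernel

def K2s1_mm_t11 : Tr := (n3 (n3 (n3 (n3 (n2 (n0 (n2 (n3 (n0 o o) (n0 o o)) o) o) o) (n0 (n2 (n0 o o) o) o)) o) o) o)

def K2s1_mm_h11 : subCheck K2s1 false false K2s1_mm_A K2s1_mm_B [(0, false), (0, false), (2, false), (2, false), (1, false), (1, false), (1, false), (1, true)] K2s1_mm_t11 = true := by decide +kernel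

def K2s1_mm_t12 : Tr := o

def K2s1_mm_h12 : subCheck K2s1 false false K2s1_mm_A K2s1_mm_B [(0, false), (0, false), (2, false), (2, false), (1, false), (1, false), (1, true)] K2s1_mm_t12 = true := by decide +kernel

def K2s1_mm_t13 : Tr := o

def K2s1_mm_h13 : subCheck K2s1 false false K2s1_mm_A K2s1_mm_B [(0, false), (0, false), (2, false), (2, false), (1, false), (1, true)] K2s1_mm_t13 = true := by decide +kernel

def K2s1_mm_t14 : Tr := o

def K2s1_mm_h14 : subCheck K2s1 false false K2s1_mm_A K2s1_mm_B [(0, false), (0, false), (2, false), (2, false), (1, true)] K2s1_mm_t14 = true := by decide +kernel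

def K2s1_mm_t15 : Tr := o

def K2s1_mm_h15 : subCheck K2s1 false false K2s1_mm_A K2s1_mm_B [(0, false), (0, false), (2, false), (2, true)] K2s1_mm_t15 = true := by decide +kernel

def K2s1_mm_t16 : Tr := o

def K2s1_mm_h16 : subCheck K2s1 false false K2s1_mm_A K2s1_mm_B [(0, false), (0, false), (2, true)] K2s1_mm_t16 = true := by decide +kernel

def K2s1_mm_t17 : Tr := o

def K2s1_mm_h17 : subCheck K2s1 false false K2s1_mm_A K2s1_mm_B [(0, false), (0, true)] K2s1_mm_t17 = true := by decide +kernel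

def K2s1_mm_t18 : Tr := o

def K2s1_mm_h18 : subCheck K2s1 false false K2s1_mm_A K2s1_mm_B [(0, true)] K2s1_mm_t18 = true := by decide +kernel

def K2s1_mm_L : List (Path × Tr) := [([(0, false), (0, false), (2, false), (2, false), (1, false), (1, false), (1, false), (1, false), (3, false), (3, false), (3, false), (3, false), (0, false), (2, false), (0, false), (1, false), (3, false), (0, false)], K2s1_mm_t0), ([(0, false), (0, false), (2, false), (2, false), (1, false), (1, false), (1, false), (1, false), (3, false), (3, false), (3, false), (3, false), (0, false), (2, false), (0, false), (1, false), (3, false), (0, true)], K2s1_mm_t1), ([(0, false), (0, false), (2, false), (2, false), (1, false), (1, false), (1, false), (1, false), (3, false), (3, false), (3, false), (3, false), (0, false), (2, false), (0, false), (1, false), (3, true)], K2s1_mm_t2), ([(0, false), (0, false), (2, false), (2, false), (1, false), (1, false), (1, false),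 (1, false), (3, false), (3, false), (3, false), (3, false), (0, false), (2, false), (0, false), (1, true)], K2s1_mm_t3), ([(0, false), (0, false), (2, false), (2, false), (1, false), (1, false), (1, false), (1, false), (3, false), (3, false), (3, false), (3, false), (0, false), (2, false), (0, true)], K2s1_mm_t4), ([(0, false), (0, false), (2, false), (2, false), (1, false), (1, false), (1, false), (1, false), (3, false), (3, false), (3, false), (3, false), (0, false), (2, true)], K2s1_mm_t5), ([(0, false), (0, false), (2, false), (2, false), (1, false), (1, false), (1, false), (1, false), (3, false), (3, false), (3, false), (3, false), (0, true)], K2s1_mm_t6), ([(0, false), (0, false), (2, false), (2, false), (1, false), (1, false), (1, false), (1, false), (3, false), (3, false), (3, false), (3, true)], K2s1_mm_t7), ([(0, false), (0, false), (2, false), (2, false), (1, false), (1, false), (1, false), (1, false), (3, false), (3, false),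 (3, true)], K2s1_mm_t8), ([(0, false), (0, false), (2, false), (2, false), (1, false), (1, false), (1, false), (1, false), (3, false), (3, true)], K2s1_mm_t9), ([(0, false), (0, false), (2, false), (2, false), (1, false), (1, false), (1, false), (1, false), (3, true)], K2s1_mm_t10), ([(0, false), (0, false), (2, false), (2, false), (1, false), (1, false), (1, false), (1, true)], K2s1_mm_t11), ([(0, false), (0, false), (2, false), (2, false), (1, false), (1, false), (1, true)], K2s1_mm_t12), ([(0, false), (0, false), (2, false), (2, false), (1, false), (1, true)], K2s1_mm_t13), ([(0, false), (0, false), (2, false), (2, false), (1, true)], K2s1_mm_t14), ([(0, false), (0, false), (2, false), (2, true)], K2s1_mm_t15), ([(0, false), (0, false), (2, true)], K2s1_mm_t16), ([(0, false), (0, true)], K2s1_mm_t17), ([(0, true)], K2s1_mm_t18)]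

def K2s1_mm_T : Tr := (n0 (n0 (n2 (n2 (n1 (n1 (n1 (n1 (n3 (n3 (n3 (n3 (n0 (n2 (n0 (n1 (n3 (n0 l l) l) l) l) l) l) l) l) l) l) l) l) l) l) l) l) l) l)

theorem K2s1_mm_cov : covers (K2s1_mm_L.map (fun e => pathBox e.1 root4)) K2s1_mm_T root4 = true := by decide +kernel

theorem K2s1_mm_all : AllSub K2s1 false false K2s1_mm_A K2s1_mm_B K2s1_mm_L := allSub_cons K2s1_mm_h0 (allSub_cons K2s1_mm_h1 (allSub_cons K2s1_mm_h2 (allSub_cons K2s1_mm_h3 (allSub_cons K2s1_mm_h4 (allSub_cons K2s1_mm_h5 (allSub_cons K2s1_mm_h6 (allSub_cons K2s1_mm_h7 (allSub_cons K2s1_mm_h8 (allSub_cons K2s1_mm_h9 (allSub_cons K2s1_mm_h10 (allSub_cons K2s1_mm_h11 (allSub_cons K2s1_mm_h12 (allSub_cons K2s1_mm_h13 (allSub_cons K2s1_mm_h14 (allSub_cons K2s1_mm_h15 (allSub_cons K2s1_mm_h16 (allSub_cons K2s1_mm_h17 (allSub_cons K2s1_mm_h18 (allSub_nil)))))))))))))))))))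

theorem K2s1_hmm : QuadChecked K2s1 false false := quadChecked_intro K2s1_mm_root K2s1_mm_cov K2s1_mm_all

end Vale.Agent.Lib.P154
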