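import Vale.Agent.Lib.P154.Checker

set_option linter.defProp false

namespace Vale.Agent.Lib.P154

private abbrev n0 := Tr.nd 0
private abbrev n1 := Tr.nd 1
private abbrev n2 := Tr.nd 2
private abbrev n3 := Tr.nd 3
private abbrev l := Tr.lf
private abbrev o := Tr.ot

def K3s2 : KCfg where
  W := 280
  room := 13
  roomT := 41
  ns := [6, 4, 6, 4]
  den := 4096
  pp := ⟨864, (-7628), 22685⟩
  p0 := ⟨1271, (-13387), 55756⟩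
  pY := ⟨2580, (-39475), 203059⟩
  tn := 64
  E := 1048576
  q1 := [1048576, (-3145728), 9437184, (-28311552), 85497709, (-277153041), 1040033725, (-2797936246), 3036418755]
  q2 := [1048576, (-6291456), 28311552, (-113246208), 417633358, (-1608439114), 6116913900, (-14990659627), 14833699852]
  q3 := [1048576, (-9437184), 56623104, (-283115520), 1392131935, (-7787697386), 37057049506, (-96049757373), 94637616167]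
  q4 := [1048576, (-12582912), 94371840, (-566231040), 3619282871, (-25782341051), 129566812165, (-327292595011), 310136461619]
  q5 := [1048576, (-15728640), 141557760, (-990904320), 8619165017, (-75311128490), 389174960069, (-958083134057), 877906365001]
  lamA := (1, 1)
  lamB := (37, 64)

theorem K3s2_hwf : wfK K3s2 = true := by decide +kernel

def K3s2_Q : QTrees where
  t1 := ((n0 (n0 (n0 (n0 l l) l) (n0 (n0 l l) l)) o), (n0 (n0 (n0 l (n0 l (n0 (n0 (n0 (n0 l (n0 l (n0 (n0 l o) o))) o) o) o))) o) o))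
  t2 := ((n0 (n0 l (n0 l (n0 (n0 (n0 (n0 l (n0 l o)) o) o) o))) o), (n0 (n0 (n0 (n0 l (n0 l l)) l) o) o))
  t3 := ((n0 (n0 (n0 l l) (n0 l l)) o), (n0 (n0 (n0 l (n0 l (n0 (n0 (n0 (n0 l (n0 l (n0 (n0 (n0 l (n0 l o)) o) o))) o) o) o))) o) o))
  t4 := ((n0 (n0 (n0 l l) (n0 l l)) o), (n0 (n0 (n0 l (n0 l (n0 (n0 (n0 (n0 l (n0 l (n0 (n0 (n0 l (n0 l o)) o) o))) o) o) o))) o) o))
  t5 := ((n0 (n0 (n0 l l) (n0 l l)) o), (n0 (n0 (n0 l (n0 l (n0 (n0 (n0 (n0 l (n0 l (n0 (n0 (n0 l (n0 l o)) o) o))) o) o) o))) o) o))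

def K3s2_hq : allQ K3s2 184 K3s2_Q = true := by decide +kernel

def K3s2_pp_A : Nat := (rootPP K3s2 true true).elim 0 (fun x => x.1)

def K3s2_pp_B : Nat := (rootPP K3s2 true true).elim 0 (fun x => x.2)

def K3s2_pp_root : rootCheck K3s2 true true K3s2_pp_A K3s2_pp_B = true := by decide +kernel

def K3s2_pp_t0 : Tr := (n0 (n2 (n2 (n2 (n1 (n1 (n1 (n3 (n3 (n3 (n3 (n2 (n3 (n0 (n1 (n0 l (n0 (n2 (n1 (n0 (n1 o (n0 l o)) o) (n0 l (n1 o l))) (n0 (n1 (n0 (n1 o l) o) l) (n1 o (n1 o l)))) o)) (n0 l (n1 (n0 l (n1 (n2 l (n0 l o)) l)) l))) (n1 o (n1 (n2 (n0 (n0 (n1 o l) o) o) (n0 (n1 o (n0 (n1 o l) o)) o)) (n2 (n1 (n0 l o) l) (n1 (n0 (n1 (n0 l o) l) o) (n0 l o)))))) (n0 (n1 (n1 (n0 l (n0 (n0 (n3 (n1 o l) l) o) o)) (n0 l (n0 (n0 l (n1 o l)) o))) (n1 (n0 l (n1 (n0 l (n2 l (n1 (n0 l o) l))) l)) l)) (n1 o (n1 (n2 (n0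 (n1 o l) o) (n3 (n0 (n1 o (n0 (n1 o l) o)) o) (n0 (n1 o (n3 (n1 o (n2 o (n0 l o))) o)) o))) (n2 l (n1 (n0 l o) (n0 l o))))))) (n0 (n1 (n0 (n0 (n1 (n3 o l) (n3 o l)) (n0 (n1 (n3 o l) l) (n2 (n3 o l) (n3 o (n1 (n3 o l) l))))) (n3 o (n1 (n0 (n0 (n2 (n3 (n0 (n1 o l) o) (n1 o l)) (n3 o (n0 (n3 o l) o))) o) o) (n0 (n2 (n3 (n0 l (n1 o (n1 (n0 l o) l))) (n0 l (n1 o l))) (n3 o (n0 l (n1 o (n1 (n0 l o) l))))) o)))) (n0 (n3 o l) (n0 (n1 (n1 (n3 o l) l) o) (n3 o (n1 (n3 (n2 (n1 (n0 (n1 (n0 l o) l) o) l) o) (n2 (n1 (n0 l o) l) (n1 (n0 (n1 (n1 o l) l) o) l))) l))))) (n2 (n3 o (n1 o (n0 (n1 (n3 (n1 o (n0 (n1 o (n0 l o)) o)) (n1 o (n0 (n1 o l) o))) (n0 l (n1 (n2 (n1 o l) (n3 o (n1 o l))) l))) o))) (n3 o (n0 (n1 o (n0 (n1 (n3 o (n2 (n1 o (n0 (n1 o l) o)) o)) (n3 o (n2 l o))) (n2 (n1 o (n3 o (n0 (n1 (n2 (n1 o l) (n1 o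 (n0 l o))) l) o))) o))) o))))) (n3 (n2 o (n1 (n0 (n0 l (n1 (n3 (n0 (n1 o (n0 l o)) o) o) (n3 (n0 (n0 l (n1 o l)) o) o))) o) (n0 (n0 l (n1 (n2 o (n3 (n1 (n0 l (n3 (n1 (n0 l o) l) o)) l) o)) l)) (n0 (n2 o (n1 (n3 (n0 (n2 (n1 o (n3 (n0 l o) o)) (n3 (n0 (n1 o l) o) o)) o) o) (n0 (n2 (n1 (n0 l (n3 l o)) o) (n0 (n3 l o) (n3 (n2 (n3 l o) o) o))) (n2 (n1 (n0 (n3 (n2 o (n0 (n3 l o) o)) o) o) (n0 (n3 (n2 o (n3 (n0 l (n2 l (n3 (n0 l o) o))) o)) o) o)) (n0 (n3 (n2 (n1 (n0 (n3 (n2 (n0 l (n3 (n1 o (n2 l (n0 l o))) o)) o) o) o) (n3 (n0 (n2 (n3 l o) o) (n2 (n3 (n0 (n2 (n0 l (n3 l o)) (n3 (n1 (n0 l (n2 (n1 (n0 l o) o) o)) o) (n0 (n1 (n2 l o) o) (n2 (n1 (n3 (n0 (n1 (n2 o o) o) o) o) o) o)))) o) o) o)) o)) o) o) o))))) o)))) o)) o) o) o) (n3 (n3 (n3 (n3 (n2 (n3 (n1 (n2 (n0 o (n3 (n0 o o) l)) (n1 (n0 o (n0 o o)) o)) o)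 (n2 (n1 l o) (n3 l (n1 (n0 o (n1 (n0 o o) o)) o)))) (n3 o (n0 o (n0 o o)))) (n0 o (n1 (n2 o (n2 o (n0 o o))) o))) o) o) o)) o) o) o) o) o) o)

def K3s2_pp_h0 : subCheck K3s2 true true K3s2_pp_A K3s2_pp_B [] K3s2_pp_t0 = true := by decide +kernel

def K3s2_pp_L : List (Path × Tr) := [([], K3s2_pp_t0)]

def K3s2_pp_T : Tr := l

theorem K3s2_pp_cov : covers (K3s2_pp_L.map (fun e => pathBox e.1 root4)) K3s2_pp_T root4 = true := by decide +kernel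

theorem K3s2_pp_all : AllSub K3s2 true true K3s2_pp_A K3s2_pp_B K3s2_pp_L := allSub_cons K3s2_pp_h0 (allSub_nil)

theorem K3s2_hpp : QuadChecked K3s2 true true := quadChecked_intro K3s2_pp_root K3s2_pp_cov K3s2_pp_all

def K3s2_pm_A : Nat := (rootPP K3s2 true false).elim 0 (fun x => x.1)

def K3s2_pm_B : Nat := (rootPP K3s2 true false).elim 0 (fun x => x.2)

def K3s2_pm_root : rootCheck K3s2 true false K3s2_pm_A K3s2_pm_B = true := by decide +kernel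

def K3s2_pm_t0 : Tr := (n0 (n2 (n2 (n2 (n1 (n1 (n1 (n3 (n3 (n3 (n3 (n0 (n1 (n0 (n2 (n3 (n0 (n1 (n2 (n2 (n3 (n0 (n2 (n0 (n1 (n2 (n3 l (n0 (n2 (n0 (n1 (n2 o l) l) l) l) l)) l) l) l) l) l) (n0 (n2 (n0 (n1 (n2 o l) l) l) l) l)) l) l) l) (n1 (n0 l (n2 l (n1 (n2 l o) l))) l)) (n1 (n2 (n1 (n0 (n2 o l) (n2 o l)) (n2 o l)) o) l)) o) (n2 (n3 (n2 (n0 (n1 (n0 (n1 o (n0 l o)) o) (n0 l (n1 o l))) o) (n0 (n1 (n0 (n1 o (n0 (n3 (n1 (n0 l o) l) (n2 l o)) o)) o) (n0 l (n1 o l))) o)) (n2 (n0 (n1 (n0 (n1 o (n2 o (n0 (n1 (n3 (n0 l o) o) (n2 o l)) o))) o) (n1 (n0 (n2 o (n1 (n0 l (n1 (n0 l o) l)) l)) o) (n2 o l))) o) o)) o)) (n2 (n3 (n2 (n1 (n0 l (n1 (n0 l (n1 (n0 l o) l)) l)) l) (n0 l (n1 (n0 l (n1 (n0 l o) l)) l))) (n2 (n1 (n0 l (n1 (n0 l (n1 (n0 l o) l)) l)) l) o)) o)) (n2 (n3 (n2 (n1 o (n1 (n0 (n1 o (n0 (n1 o l) o)) o)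 (n0 l o))) (n1 o (n1 (n0 (n1 o (n0 (n1 o l) o)) o) (n0 (n1 (n1 (n0 l o) l) l) o)))) (n2 (n1 o (n1 (n0 (n2 o (n0 (n1 o (n1 o l)) o)) o) (n0 l o))) o)) o)) (n0 (n1 (n0 (n2 o o) (n2 o o)) (n2 o o)) (n1 o (n2 o o)))) o) o) o) (n3 (n3 (n3 (n3 (n0 o (n1 (n2 (n3 (n2 (n1 (n1 l o) o) (n1 (n1 l o) o)) (n2 (n1 (n1 l o) o) o)) o) o)) (n1 (n2 o o) o)) o) o) o)) o) o) o) o) o) o)

def K3s2_pm_h0 : subCheck K3s2 true false K3s2_pm_A K3s2_pm_B [] K3s2_pm_t0 = true := by decide +kernel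

def K3s2_pm_L : List (Path × Tr) := [([], K3s2_pm_t0)]

def K3s2_pm_T : Tr := l

theorem K3s2_pm_cov : covers (K3s2_pm_L.map (fun e => pathBox e.1 root4)) K3s2_pm_T root4 = true := by decide +kernel

theorem K3s2_pm_all : AllSub K3s2 true false K3s2_pm_A K3s2_pm_B K3s2_pm_L := allSub_cons K3s2_pm_h0 (allSub_nil)

theorem K3s2_hpm : QuadChecked K3s2 true false := quadChecked_intro K3s2_pm_root K3s2_pm_cov K3s2_pm_all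

def K3s2_mp_A : Nat := (rootPP K3s2 false true).elim 0 (fun x => x.1)

def K3s2_mp_B : Nat := (rootPP K3s2 false true).elim 0 (fun x => x.2)

def K3s2_mp_root : rootCheck K3s2 false true K3s2_mp_A K3s2_mp_B = true := by decide +kernel

def K3s2_mp_t0 : Tr := (n0 (n2 (n2 (n2 (n1 (n1 (n1 (n3 (n3 (n3 (n3 (n2 (n3 (n0 (n1 (n0 (n1 (n0 (n2 (n0 (n2 (n3 (n0 (n1 (n2 (n0 (n2 (n3 (n0 (n1 l (n2 (n0 (n2 (n3 (n0 o l) l) l) l) l)) l) l) l) l) l) (n2 (n0 (n2 (n3 (n0 o l) (n0 o l)) l) l) l)) l) l) l) l) l) (n2 l (n1 (n0 l (n2 l (n3 o l))) (n0 l (n2 l (n3 o l)))))) (n0 (n0 (n2 (n0 o (n2 l l)) l) l) (n2 l (n1 (n0 l o) l)))) o) (n0 (n0 o l) o)) o) (n0 (n1 (n0 (n0 l (n0 l (n1 l o))) o) (n0 (n0 o (n0 o o)) o)) o)) (n0 (n1 (n0 (n0 (n1 (n3 o l) (n3 o (n3 (n3 o l) l))) (n2 (n3 o (n0 l (n3 (n1 (n3 o l) o) (n1 l o)))) (n3 o (n3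 o (n0 l (n1 (n3 o l) o)))))) o) (n0 (n0 o (n3 o (n3 (n2 (n0 o o) o) (n0 o o)))) o)) o)) (n0 (n1 (n0 (n1 l (n0 l (n0 l o))) o) (n0 (n0 o (n0 o o)) o)) o)) o) o) o) (n3 (n3 (n3 (n3 (n2 (n3 (n0 o o) (n0 o o)) (n3 o (n0 o o))) (n0 o o)) o) o) o)) o) o) o) o) o) o)

def K3s2_mp_h0 : subCheck K3s2 false true K3s2_mp_A K3s2_mp_B [] K3s2_mp_t0 = true := by decide +kernel

def K3s2_mp_L : List (Path × Tr) := [([], K3s2_mp_t0)]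

def K3s2_mp_T : Tr := l

theorem K3s2_mp_cov : covers (K3s2_mp_L.map (fun e => pathBox e.1 root4)) K3s2_mp_T root4 = true := by decide +kernel

theorem K3s2_mp_all : AllSub K3s2 false true K3s2_mp_A K3s2_mp_B K3s2_mp_L := allSub_cons K3s2_mp_h0 (allSub_nil)

theorem K3s2_hmp : QuadChecked K3s2 false true := quadChecked_intro K3s2_mp_root K3s2_mp_cov K3s2_mp_all

def K3s2_mm_A : Nat := (rootPP K3s2 false false).elim 0 (fun x => x.1)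

def K3s2_mm_B : Nat := (rootPP K3s2 false false).elim 0 (fun x => x.2)

def K3s2_mm_root : rootCheck K3s2 false false K3s2_mm_A K3s2_mm_B = true := by decide +kernel

def K3s2_mm_t0 : Tr := (n0 (n2 (n2 (n2 (n1 (n1 (n1 (n3 (n3 (n3 (n3 (n0 (n1 (n0 (n0 (n1 (n2 (n3 (n2 (n0 (n2 (n3 (n0 (n1 (n2 (n2 (n3 (n0 (n0 (n1 (n2 (n2 (n3 l (n0 (n2 (n0 (n1 l (n2 o l)) l) l) l)) l) l) (n2 (n0 (n2 (n3 (n0 o l) (n0 o l)) l) l) l)) l) l) (n0 (n2 (n0 (n1 (n2 o l) (n2 o l)) l) l) l)) l) l) (n2 (n0 (n2 (n3 (n0 o (n2 (n1 l o) (n1 l o))) (n0 o (n2 (n0 o (n2 o (n3 l o))) (n1 (n0 o (n3 l (n1 l o))) o)))) (n0 o (n1 l o))) (n2 (n3 l (n0 (n2 l (n1 l o)) l)) (n3 l (n1 l (n0 o l))))) (n0 l l))) l) (n0 (n1 (n2 (n2 o (n0 (n0 l (n1 l (n2 o l))) (n1 l (n2 o l)))) l) (n2 (n0 (n2 o (n0 o (n1 (n2 o (n1 l o)) o))) (n2 o (n1 (n3 (n0 (n2 o (n1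 l (n3 l o))) (n2 o (n1 l (n3 l o)))) o) (n3 (n0 o (n2 o (n3 (n1 (n3 l o) o) o))) o)))) (n0 (n2 (n0 o (n1 l o)) l) (n2 (n1 (n3 l o) (n3 (n0 o (n1 (n3 l (n2 o l)) o)) o)) l)))) (n2 (n0 (n1 l (n2 o (n3 (n1 l (n0 (n3 l o) l)) o))) l) (n1 l (n0 (n2 (n1 (n3 l o) (n3 (n0 (n1 l o) l) o)) (n1 l (n3 l (n1 l (n2 o l))))) (n2 (n3 l o) l)))))) l) (n2 l l)) l) (n2 (n2 o (n0 l (n0 l l))) o)) o) (n2 (n3 (n2 (n0 (n2 (n3 (n0 o (n2 (n0 o l) (n0 o (n3 l (n0 (n1 l o) l))))) (n0 o (n2 (n0 o (n2 o (n1 (n3 l o) o))) (n0 o (n1 (n3 (n2 (n0 (n3 l (n1 l o)) l) (n1 l o)) (n2 o (n1 (n1 (n3 l o) o) o))) o))))) (n0 o (n3 (n0 o (n2 (n1 l o) l)) (n2 (n0 o (n1 (n1 l o) o)) (n1 l o))))) (n2 (n3 l (n0 (n1 l o) l)) (n0 (n2 (n3 l (n1 l o)) (n1 l o)) l))) (n0 l l)) (n2 (n0 (n2 o (n0 o (n2 o (n3 (n1 l o) o)))) (n2 o (n0 (n2 o (n3 (n0 (n1 l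 o) l) o)) l))) o)) o)) (n2 (n3 (n2 l (n1 (n0 (n3 l (n2 l o)) (n2 (n1 (n0 l (n3 l (n1 (n0 l o) o))) (n0 l o)) o)) (n2 l o))) (n2 (n1 l l) o)) o)) o) (n0 (n2 (n3 (n0 o (n2 l (n1 (n2 l o) o))) (n0 o (n2 l o))) o) o)) o) (n0 (n1 (n0 (n2 o o) o) (n0 (n2 o o) o)) o)) o) o) o) (n3 (n3 (n3 (n3 (n2 (n3 (n0 o o) (n2 (n1 (n0 o o) o) o)) o) (n2 o o)) o) o) o)) o) o) o) o) o) o)

def K3s2_mm_h0 : subCheck K3s2 false false K3s2_mm_A K3s2_mm_B [] K3s2_mm_t0 = true := by decide +kernel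

def K3s2_mm_L : List (Path × Tr) := [([], K3s2_mm_t0)]

def K3s2_mm_T : Tr := l

theorem K3s2_mm_cov : covers (K3s2_mm_L.map (fun e => pathBox e.1 root4)) K3s2_mm_T root4 = true := by decide +kernel

theorem K3s2_mm_all : AllSub K3s2 false false K3s2_mm_A K3s2_mm_B K3s2_mm_L := allSub_cons K3s2_mm_h0 (allSub_nil)

theorem K3s2_hmm : QuadChecked K3s2 false false := quadChecked_intro K3s2_mm_root K3s2_mm_cov K3s2_mm_all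

end Vale.Agent.Lib.P154
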