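import Vale.Agent.Lib.P154.Checker

set_option linter.defProp false

namespace Vale.Agent.Lib.P154

private abbrev n0 := Tr.nd 0
private abbrev n1 := Tr.nd 1
private abbrev n2 := Tr.nd 2
private abbrev n3 := Tr.nd 3
private abbrev l := Tr.lf
private abbrev o := Tr.ot

def K4s1 : KCfg where
  W := 400
  room := 13
  roomT := 41
  ns := [6, 4, 6, 4]
  den := 4096
  pp := ⟨1475, (-15722), 78029⟩
  p0 := ⟨2954, (-49457), 287072⟩
  pY := ⟨2954, (-49457), 287072⟩
  tn := 64
  E := 1048576
  q1 := [1048576, (-3145728), 9437184, (-28311552), 84882285, (-254992324), 787506136, (-2342971680), 4157299908]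
  q2 := [1048576, (-6291456), 28311552, (-113246208), 424205252, (-1532270331), 5562141765, (-18397917839), 33769431282]
  q3 := [1048576, (-9437184), 56623104, (-283115520), 1274840833, (-5412121387), 22702499457, (-81947965243), 154090609107]
  q4 := [1048576, (-12582912), 94371840, (-566231040), 2977612704, (-14566492945), 69210002099, (-267008109922), 508961795059]
  q5 := [1048576, (-15728640), 141557760, (-990904320), 5966833679, (-33211304519), 176064067601, (-715336284312), 1373399184417]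
  lamA := (1, 2)
  lamB := (1, 2)

theorem K4s1_hwf : wfK K4s1 = true := by decide +kernel

def K4s1_Q : QTrees where
  t1 := ((n0 (n0 (n0 (n0 l (n0 l l)) (n0 (n0 l (n0 (n0 l (n0 l o)) o)) o)) o) o), (n0 (n0 (n0 (n0 (n0 l (n0 l l)) l) o) o) o))
  t2 := ((n0 (n0 (n0 (n0 l (n0 l l)) (n0 (n0 l (n0 (n0 l (n0 l o)) o)) o)) o) o), (n0 (n0 (n0 (n0 (n0 l (n0 l l)) l) o) o) o))
  t3 := ((n0 (n0 (n0 (n0 (n0 l l) l) (n0 (n0 l l) o)) o) o), (n0 (n0 (n0 (n0 l (n0 (n0 l (n0 (n0 l (n0 l (n0 (n0 (n0 l (n0 l o)) o) o))) o)) o)) o) o) o))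
  t4 := ((n0 (n0 (n0 (n0 (n0 l l) l) (n0 (n0 l l) o)) o) o), (n0 (n0 (n0 (n0 l (n0 (n0 l (n0 (n0 l (n0 l (n0 (n0 (n0 l (n0 l o)) o) o))) o)) o)) o) o) o))
  t5 := ((n0 (n0 (n0 (n0 (n0 l l) l) (n0 (n0 l l) o)) o) o), (n0 (n0 (n0 (n0 l (n0 (n0 l (n0 (n0 l (n0 l (n0 (n0 (n0 l (n0 l o)) o) o))) o)) o)) o) o) o))

def K4s1_hq : allQ K4s1 176 K4s1_Q = true := by decide +kernel

def K4s1_pp_A : Nat := (rootPP K4s1 true true).elim 0 (fun x => x.1)

def K4s1_pp_B : Nat := (rootPP K4s1 true true).elim 0 (fun x => x.2)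

def K4s1_pp_root : rootCheck K4s1 true true K4s1_pp_A K4s1_pp_B = true := by decide +kernel

def K4s1_pp_t0 : Tr := (n0 (n0 (n0 (n2 (n2 (n2 (n1 (n1 (n1 (n1 (n3 (n3 (n3 (n3 (n0 (n1 (n3 (n2 (n1 (n3 (n0 (n2 l (n2 l o)) (n2 (n0 l o) (n0 (n3 o (n2 l o)) o))) (n2 l (n0 (n3 (n2 l o) (n2 l o)) (n2 (n1 o (n0 l o)) o)))) (n3 (n0 l (n2 (n1 (n0 l o) (n0 l o)) (n0 (n3 o (n2 l o)) o))) (n0 (n2 l (n3 (n2 l o) (n2 l o))) (n2 (n1 (n0 l o) (n0 l o)) (n0 (n3 (n2 l o) (n2 l o)) o))))) o) (n2 (n1 (n3 (n2 l (n0 l (n3 (n2 (n0 l o) (n1 o (n0 (n2 l o) o))) (n2 l (n3 (n0 l o) l))))) l) (n3 (n2 l (n0 l (n1 (n3 (n2 (n0 l o) (n0 (n2 l o) o)) (n2 l (n0 l o))) (n3 (n2 (n0 l o) (n0 (n2 l o) o)) (n0 l o))))) l)) (n3 (n0 (n2 (n3 o (n2 (n1 l (n3 o l)) o)) o) (n2 (n1 (n2 (n3 o (n3 o (n1 o (n0 l o)))) o) (n3 o (n2 (n1 (n3 o (n0 l o)) (n0 (n3 o (n3 o l)) o)) o))) o)) (n2 (n1 (n3 (n3 (n0 l (n2 l o)) l) l) (n3 (n0 l (n3 (n2 (n1 l (n0 l o)) o) l)) l)) o)))) (n3 (n2 (n3 (n1 (n0 l (n2 l (n1 (n0 (n2 l o)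 (n3 o (n2 (n0 l o) o))) (n0 l (n1 (n2 l o) l))))) l) (n1 (n0 l (n2 l (n3 (n1 (n0 (n2 l o) (n2 (n0 l o) o)) (n0 l (n2 l o))) (n1 (n0 (n2 l o) (n2 (n0 l o) o)) (n2 l o))))) l)) o) (n2 (n1 (n3 (n0 l (n2 l (n1 (n3 (n0 (n2 l (n2 l o)) (n2 (n0 l o) (n0 (n2 (n1 (n3 (n0 (n2 l o) o) (n0 l o)) (n2 l (n0 l (n1 o l)))) o) o))) (n0 l (n2 l (n3 (n0 (n2 l (n1 (n3 (n0 l o) l) l)) o) (n0 l o))))) (n3 (n2 l (n0 l (n1 (n2 (n0 l (n3 (n1 (n2 l o) l) l)) o) (n2 l o)))) (n0 l (n2 l (n1 (n3 (n0 l (n2 l (n1 (n3 (n0 l o) l) l))) l) l))))))) l) l) (n3 (n0 (n3 o (n2 (n1 (n2 (n3 o l) o) o) o)) (n2 (n1 (n3 o (n2 (n1 (n0 (n3 o (n3 o l)) (n3 o (n3 o (n0 (n2 l o) o)))) (n0 (n3 o l) (n3 o (n3 o (n1 (n2 l o) l))))) o)) (n3 o (n1 (n2 (n1 (n3 o l) o) o) o))) o)) (n0 (n3 (n3 (n2 l o) l) l) (n2 (n1 (n3 (n3 (n1 (n2 l o) (n2 l o)) l) l) l) o)))))) (n2 (n3 (n1 o (n1 (n2 (n0 (n1 o (n0 (n3 l (n1 o l)) o)) o) (n0 (n3 (n0 (n1 o (n1 o (n3 o (n2 l o)))) o) (n1 o (n0 (n3 (n1 o (n2 l o)) (n2 (n1 o (n1 o l)) o))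 o))) o)) (n0 (n3 (n1 (n1 (n2 l (n0 l o)) l) l) (n1 (n2 l (n1 (n0 (n3 l (n2 l o)) o) l)) l)) o))) (n1 o (n1 (n2 (n1 o (n0 (n3 (n0 (n1 o l) o) o) o)) (n0 (n3 (n1 o (n0 (n3 (n2 (n1 o (n1 o l)) (n1 o (n1 o (n2 (n0 l o) o)))) (n2 (n1 o l) (n1 o (n1 o (n3 (n0 l o) l))))) o)) (n1 o (n3 (n0 (n3 (n1 o l) o) o) o))) o)) (n2 (n1 (n1 (n0 l o) l) l) (n0 (n3 (n1 (n1 (n3 (n0 l o) (n0 l o)) l) l) l) o))))) (n0 (n1 o (n3 o (n2 (n1 (n3 (n0 (n3 o (n1 o (n2 (n1 o (n3 o (n1 o (n3 o (n0 l o))))) o))) o) (n3 (n2 (n1 o (n0 (n3 (n3 (n1 o l) (n1 o l)) l) o)) (n0 (n1 o (n3 o l)) o)) (n1 o (n3 (n0 l o) l)))) (n3 (n1 (n0 (n3 o (n2 (n1 (n1 (n3 o l) (n3 o l)) l) o)) (n2 (n3 o (n1 o l)) o)) (n3 o (n1 (n2 l o) l))) (n0 (n3 (n1 (n3 (n1 (n2 l o) l) l) o) l) (n2 (n1 (n3 (n1 o l) o) l) (n1 (n3 (n1 o (n3 o l)) l) l))))) o))) o))) (n1 (n2 o (n2 o o)) (n2 o (n2 o o)))) o) o) o) (n3 (n3 (n3 (n3 (n3 (n0 o (n0 o o)) (n0 o (n0 o o))) (n0 o (n2 o (n0 o o)))) o) o) o)) o) o) o) o) o) o) o) o) o)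

def K4s1_pp_h0 : subCheck K4s1 true true K4s1_pp_A K4s1_pp_B [] K4s1_pp_t0 = true := by decide +kernel

def K4s1_pp_L : List (Path × Tr) := [([], K4s1_pp_t0)]

def K4s1_pp_T : Tr := l

theorem K4s1_pp_cov : covers (K4s1_pp_L.map (fun e => pathBox e.1 root4)) K4s1_pp_T root4 = true := by decide +kernel

theorem K4s1_pp_all : AllSub K4s1 true true K4s1_pp_A K4s1_pp_B K4s1_pp_L := allSub_cons K4s1_pp_h0 (allSub_nil)

theorem K4s1_hpp : QuadChecked K4s1 true true := quadChecked_intro K4s1_pp_root K4s1_pp_cov K4s1_pp_all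

def K4s1_pm_A : Nat := (rootPP K4s1 true false).elim 0 (fun x => x.1)

def K4s1_pm_B : Nat := (rootPP K4s1 true false).elim 0 (fun x => x.2)

def K4s1_pm_root : rootCheck K4s1 true false K4s1_pm_A K4s1_pm_B = true := by decide +kernel

def K4s1_pm_t0 : Tr := (n0 (n0 (n0 (n2 (n2 (n2 (n1 (n1 (n1 (n1 (n3 (n3 (n3 (n3 (n0 (n1 (n3 (n2 (n2 (n1 (n0 (n2 (n3 (n0 (n2 (n0 (n2 (n3 (n0 (n1 (n2 (n0 (n2 (n3 (n0 (n1 (n2 (n0 (n2 (n3 (n0 (n1 (n2 (n0 (n2 (n3 (n0 (n1 (n2 (n0 (n2 (n3 l (n0 (n1 (n2 (n0 (n2 o l) l) l) l) l)) l) l) l) l) l) (n0 (n1 (n2 (n0 (n2 o l) l) l) (n2 (n0 (n2 o l) l) l)) l)) l) l) l) l) l) (n0 (n1 (n2 (n0 (n2 o l) l) l) (n2 (n0 (n2 o l) l) l)) l)) l) l) l) l) l) (n0 (n1 (n2 (n0 (n2 o l) l) l) (n2 (n0 (n2 o l) l) l)) l)) l) l) l) l) l) (n0 (n1 (n2 (n0 (n2 o l) l) l) (n2 (n2 o l) l)) l)) l) l) l) l) (n0 (n2 (n2 o l) l) l)) l) (n0 l o)) (n2 (n3 l (n2 (n0 (n2 o l) l) l)) (n0 l (n1 (n0 l o) l)))) o) o) (n2 (n2 (n2 o l) o) o)) (n3 (n2 l o) l)) (n2 (n3 (n1 o (n1 (n0 (n2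 (n1 o (n0 l o)) o) o) (n0 l o))) (n1 o (n1 (n2 (n0 (n2 o (n1 o l)) o) o) (n2 (n1 (n0 l o) l) o)))) o)) (n2 o o)) o) o) o) (n3 (n3 (n3 (n3 (n3 (n2 l o) (n1 (n2 l o) o)) (n2 o o)) o) o) o)) o) o) o) o) o) o) o) o) o)

def K4s1_pm_h0 : subCheck K4s1 true false K4s1_pm_A K4s1_pm_B [] K4s1_pm_t0 = true := by decide +kernel

def K4s1_pm_L : List (Path × Tr) := [([], K4s1_pm_t0)]

def K4s1_pm_T : Tr := l

theorem K4s1_pm_cov : covers (K4s1_pm_L.map (fun e => pathBox e.1 root4)) K4s1_pm_T root4 = true := by decide +kernel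

theorem K4s1_pm_all : AllSub K4s1 true false K4s1_pm_A K4s1_pm_B K4s1_pm_L := allSub_cons K4s1_pm_h0 (allSub_nil)

theorem K4s1_hpm : QuadChecked K4s1 true false := quadChecked_intro K4s1_pm_root K4s1_pm_cov K4s1_pm_all

def K4s1_mp_A : Nat := (rootPP K4s1 false true).elim 0 (fun x => x.1)

def K4s1_mp_B : Nat := (rootPP K4s1 false true).elim 0 (fun x => x.2)

def K4s1_mp_root : rootCheck K4s1 false true K4s1_mp_A K4s1_mp_B = true := by decide +kernel

def K4s1_mp_t0 : Tr := (n0 (n0 (n0 (n2 (n2 (n2 (n1 (n1 (n1 (n1 (n3 (n3 (n3 (n3 (n2 (n3 (n1 (n0 (n0 (n3 (n2 (n0 (n1 (n2 (n0 (n2 (n0 (n1 (n2 (n3 (n0 (n2 (n0 (n1 (n2 (n3 (n0 (n2 (n0 (n1 (n2 (n3 (n0 (n2 (n0 (n1 (n2 (n3 (n0 (n2 (n0 (n1 l (n2 (n3 (n0 (n2 (n0 o l) l) l) l) l)) l) l) l) l) l) (n2 (n3 (n0 (n2 (n0 o l) l) l) (n0 (n2 (n0 o l) l) l)) l)) l) l) l) l) l) (n2 (n3 (n0 (n2 (n0 o l) l) l) (n0 (n2 (n0 o l) l) l)) l)) l) l) l) l) l) (n2 (n3 (n0 (n2 (n0 o l) l) l) (n0 (n2 (n0 o l) l) l)) l)) l) l) l) l) l) (n2 (n3 (n0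 (n2 (n0 o l) l) l) (n0 (n0 o l) l)) l)) l) l) l) l) (n2 (n0 (n0 o l) l) l)) l) (n2 l o)) (n0 (n1 l (n0 (n2 (n0 o l) l) l)) (n2 l (n3 (n2 l o) l)))) o) o) (n0 (n0 (n0 o l) o) o)) (n1 (n0 l o) l)) (n0 (n1 (n3 o (n3 (n2 (n0 (n3 o (n2 l o)) o) o) (n2 l o))) (n3 o (n3 (n0 (n2 (n0 o (n3 o l)) o) o) (n0 (n3 (n2 l o) l) o)))) o)) (n1 (n0 l o) (n3 (n0 l o) o))) o) o) o) (n3 (n3 (n3 (n3 (n0 o o) (n0 o o)) o) o) o)) o) o) o) o) o) o) o) o) o)

def K4s1_mp_h0 : subCheck K4s1 false true K4s1_mp_A K4s1_mp_B [] K4s1_mp_t0 = true := by decide +kernel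

def K4s1_mp_L : List (Path × Tr) := [([], K4s1_mp_t0)]

def K4s1_mp_T : Tr := l

theorem K4s1_mp_cov : covers (K4s1_mp_L.map (fun e => pathBox e.1 root4)) K4s1_mp_T root4 = true := by decide +kernel

theorem K4s1_mp_all : AllSub K4s1 false true K4s1_mp_A K4s1_mp_B K4s1_mp_L := allSub_cons K4s1_mp_h0 (allSub_nil)

theorem K4s1_hmp : QuadChecked K4s1 false true := quadChecked_intro K4s1_mp_root K4s1_mp_cov K4s1_mp_all

def K4s1_mm_A : Nat := (rootPP K4s1 false false).elim 0 (fun x => x.1)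

def K4s1_mm_B : Nat := (rootPP K4s1 false false).elim 0 (fun x => x.2)

def K4s1_mm_root : rootCheck K4s1 false false K4s1_mm_A K4s1_mm_B = true := by decide +kernel

def K4s1_mm_t0 : Tr := (n1 (n2 (n3 (n0 (n2 (n0 (n1 (n2 (n3 (n0 (n2 (n0 (n1 (n2 (n3 (n0 (n2 (n0 (n1 (n2 (n3 (n0 (n2 (n0 (n1 (n2 (n3 (n0 (n2 (n0 (n1 (n2 (n3 l (n2 (n0 (n2 o l) l) l)) l) (n2 (n3 (n0 (n2 (n0 o l) l) l) (n0 (n2 (n0 o l) l) l)) l)) l) l) l) (n2 (n0 (n2 o l) l) l)) l) (n2 (n3 (n0 (n2 (n0 o l) l) l) (n0 (n2 (n0 o l) l) l)) l)) l) l) l) (n2 (n0 (n2 o l) l) l)) l) (n2 (n3 (n0 (n2 (n0 o l) l) l) (n0 (n2 (n0 o l) l) l)) l)) l) l) l) (n2 (n0 (n2 o l) l) l)) l) (n2 (n3 (n0 (n2 (n0 o l) l) l) (n0 (n2 (n0 o l) l) l)) l)) l) l) l) (n2 (n0 (n2 o l) l) l)) l) (n2 (n3 (n0 (n2 (n0 o l) l) l) (n0 (n2 (n0 o l) l) l)) l)) l) l) l) (n2 (n0 (n2 o (n0 (n1 l (n3 l o)) (n2 o l))) (n2 o l)) (n0 l l))) l) (n2 (n3 (n0 (n2 (n0 o (n2 (n3 l (n1 l o)) (n0 o l))) (n0 o l)) (n2 l l)) (n0 (n2 (n0 o (n2 o (n1 (n3 (n0 o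 (n2 o l)) o) o))) (n0 o (n2 (n1 (n2 (n3 l o) l) o) (n1 l o)))) (n2 (n2 o (n0 (n3 (n0 (n1 l o) l) o) (n3 l o))) (n0 (n2 (n1 (n3 l o) o) (n1 l o)) (n2 (n3 l o) (n1 l (n3 l (n1 (n3 l o) o)))))))) (n0 l (n3 l (n2 (n1 l (n0 o (n2 (n3 l (n1 l o)) l))) l)))))

def K4s1_mm_h0 : subCheck K4s1 false false K4s1_mm_A K4s1_mm_B [(0, false), (0, false), (0, false), (2, false), (2, false), (2, false), (1, false), (1, false), (1, false), (1, false), (3, false), (3, false), (3, false), (3, false), (0, false), (1, false), (3, false), (0, false), (2, false), (2, false), (0, false), (1, false), (2, false), (3, false), (0, false), (2, false), (0, false)] K4s1_mm_t0 = true := by decide +kernel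

def K4s1_mm_t1 : Tr := (n2 (n3 l (n2 l (n1 l (n0 (n3 l (n2 o (n0 (n1 l (n3 l o)) l))) l)))) (n0 (n1 l (n2 (n3 l (n1 l (n3 l (n0 (n2 (n1 l o) l) l)))) l)) l))

def K4s1_mm_h1 : subCheck K4s1 false false K4s1_mm_A K4s1_mm_B [(0, false), (0, false), (0, false), (2, false), (2, false), (2, false), (1, false), (1, false), (1, false), (1, false), (3, false), (3, false), (3, false), (3, false), (0, false), (1, false), (3, false), (0, false), (2, false), (2, false), (0, false), (1, false), (2, false), (3, false), (0, false), (2, false), (0, true)] K4s1_mm_t1 = true := by decide +kernel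

def K4s1_mm_t2 : Tr := l

def K4s1_mm_h2 : subCheck K4s1 false false K4s1_mm_A K4s1_mm_B [(0, false), (0, false), (0, false), (2, false), (2, false), (2, false), (1, false), (1, false), (1, false), (1, false), (3, false), (3, false), (3, false), (3, false), (0, false), (1, false), (3, false), (0, false), (2, false), (2, false), (0, false), (1, false), (2, false), (3, false), (0, false), (2, true)] K4s1_mm_t2 = true := by decide +kernel

def K4s1_mm_t3 : Tr := l

def K4s1_mm_h3 : subCheck K4s1 false false K4s1_mm_A K4s1_mm_B [(0, false), (0, false), (0, false), (2, false), (2, false), (2, false), (1, false), (1, false), (1, false), (1, false), (3, false), (3, false), (3, false), (3, false), (0, false), (1, false), (3, false), (0, false), (2, false), (2, false), (0, false), (1, false), (2, false), (3, false), (0, true)] K4s1_mm_t3 = true := by decide +kernel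

def K4s1_mm_t4 : Tr := (n2 (n0 (n2 o (n0 (n1 l (n2 o l)) (n2 o (n1 l (n0 (n1 l (n3 (n2 (n1 l (n3 l o)) l) o)) (n1 l (n3 (n3 l o) o))))))) (n2 o (n0 (n2 o (n1 l (n3 l o))) l))) (n0 l l))

def K4s1_mm_h4 : subCheck K4s1 false false K4s1_mm_A K4s1_mm_B [(0, false), (0, false), (0, false), (2, false), (2, false), (2, false), (1, false), (1, false), (1, false), (1, false), (3, false), (3, false), (3, false), (3, false), (0, false), (1, false), (3, false), (0, false), (2, false), (2, false), (0, false), (1, false), (2, false), (3, true)] K4s1_mm_t4 = true := by decide +kernel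

def K4s1_mm_t5 : Tr := l

def K4s1_mm_h5 : subCheck K4s1 false false K4s1_mm_A K4s1_mm_B [(0, false), (0, false), (0, false), (2, false), (2, false), (2, false), (1, false), (1, false), (1, false), (1, false), (3, false), (3, false), (3, false), (3, false), (0, false), (1, false), (3, false), (0, false), (2, false), (2, false), (0, false), (1, false), (2, true)] K4s1_mm_t5 = true := by decide +kernel

def K4s1_mm_t6 : Tr := (n2 (n3 (n0 (n2 (n0 o (n2 (n3 l (n0 o l)) (n0 o (n3 l (n2 (n3 l (n1 (n0 (n3 l (n1 l o)) l) o)) (n3 l (n1 (n1 l o) o))))))) (n0 o (n2 (n0 o (n3 l (n1 l o))) l))) (n2 l l)) (n0 (n2 (n0 o (n2 o (n0 o (n2 o (n1 (n3 (n1 (n3 (n0 (n2 (n1 l o) l) l) o) o) o) o))))) (n0 o (n2 (n1 (n2 (n0 o (n3 (n1 l o) o)) l) o) l))) (n2 (n2 o (n0 (n3 (n0 (n2 o (n1 (n3 l o) o)) l) o) l)) (n0 (n2 (n1 (n2 (n3 (n1 l (n3 l o)) o) l) o) l) l)))) l)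

def K4s1_mm_h6 : subCheck K4s1 false false K4s1_mm_A K4s1_mm_B [(0, false), (0, false), (0, false), (2, false), (2, false), (2, false), (1, false), (1, false), (1, false), (1, false), (3, false), (3, false), (3, false), (3, false), (0, false), (1, false), (3, false), (0, false), (2, false), (2, false), (0, false), (1, true)] K4s1_mm_t6 = true := by decide +kernel

def K4s1_mm_t7 : Tr := (n2 l l)

def K4s1_mm_h7 : subCheck K4s1 false false K4s1_mm_A K4s1_mm_B [(0, false), (0, false), (0, false), (2, false), (2, false), (2, false), (1, false), (1, false), (1, false), (1, false), (3, false), (3, false), (3, false), (3, false), (0, false), (1, false), (3, false), (0, false), (2, false), (2, false), (0, true)] K4s1_mm_t7 = true := by decide +kernel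

def K4s1_mm_t8 : Tr := o

def K4s1_mm_h8 : subCheck K4s1 false false K4s1_mm_A K4s1_mm_B [(0, false), (0, false), (0, false), (2, false), (2, false), (2, false), (1, false), (1, false), (1, false), (1, false), (3, false), (3, false), (3, false), (3, false), (0, false), (1, false), (3, false), (0, false), (2, false), (2, true)] K4s1_mm_t8 = true := by decide +kernel

def K4s1_mm_t9 : Tr := o

def K4s1_mm_h9 : subCheck K4s1 false false K4s1_mm_A K4s1_mm_B [(0, false), (0, false), (0, false), (2, false), (2, false), (2, false), (1, false), (1, false), (1, false), (1, false), (3, false), (3, false), (3, false), (3, false), (0, false), (1, false), (3, false), (0, false), (2, true)] K4s1_mm_t9 = true := by decide +kernel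

def K4s1_mm_t10 : Tr := o

def K4s1_mm_h10 : subCheck K4s1 false false K4s1_mm_A K4s1_mm_B [(0, false), (0, false), (0, false), (2, false), (2, false), (2, false), (1, false), (1, false), (1, false), (1, false), (3, false), (3, false), (3, false), (3, false), (0, false), (1, false), (3, false), (0, true)] K4s1_mm_t10 = true := by decide +kernel

def K4s1_mm_t11 : Tr := (n2 (n2 (n0 (n2 o (n0 l l)) o) o) o)

def K4s1_mm_h11 : subCheck K4s1 false false K4s1_mm_A K4s1_mm_B [(0, false), (0, false), (0, false), (2, false), (2, false), (2, false), (1, false), (1, false), (1, false), (1, false), (3, false), (3, false), (3, false), (3, false), (0, false), (1, false), (3, true)] K4s1_mm_t11 = true := by decide +kernel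

def K4s1_mm_t12 : Tr := (n0 (n3 (n2 (n2 (n0 o (n2 l l)) o) o) (n2 (n2 (n0 o (n2 o l)) o) o)) o)

def K4s1_mm_h12 : subCheck K4s1 false false K4s1_mm_A K4s1_mm_B [(0, false), (0, false), (0, false), (2, false), (2, false), (2, false), (1, false), (1, false), (1, false), (1, false), (3, false), (3, false), (3, false), (3, false), (0, false), (1, true)] K4s1_mm_t12 = true := by decide +kernel

def K4s1_mm_t13 : Tr := o

def K4s1_mm_h13 : subCheck K4s1 false false K4s1_mm_A K4s1_mm_B [(0, false), (0, false), (0, false), (2, false), (2, false), (2, false), (1, false), (1, false), (1, false), (1, false), (3, false), (3, false), (3, false), (3, false), (0, true)] K4s1_mm_t13 = true := by decide +kernel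

def K4s1_mm_t14 : Tr := (n0 (n1 (n2 o o) (n2 o o)) o)

def K4s1_mm_h14 : subCheck K4s1 false false K4s1_mm_A K4s1_mm_B [(0, false), (0, false), (0, false), (2, false), (2, false), (2, false), (1, false), (1, false), (1, false), (1, false), (3, false), (3, false), (3, false), (3, true)] K4s1_mm_t14 = true := by decide +kernel

def K4s1_mm_t15 : Tr := o

def K4s1_mm_h15 : subCheck K4s1 false false K4s1_mm_A K4s1_mm_B [(0, false), (0, false), (0, false), (2, false), (2, false), (2, false), (1, false), (1, false), (1, false), (1, false), (3, false), (3, false), (3, true)] K4s1_mm_t15 = true := by decide +kernel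

def K4s1_mm_t16 : Tr := o

def K4s1_mm_h16 : subCheck K4s1 false false K4s1_mm_A K4s1_mm_B [(0, false), (0, false), (0, false), (2, false), (2, false), (2, false), (1, false), (1, false), (1, false), (1, false), (3, false), (3, true)] K4s1_mm_t16 = true := by decide +kernel

def K4s1_mm_t17 : Tr := o

def K4s1_mm_h17 : subCheck K4s1 false false K4s1_mm_A K4s1_mm_B [(0, false), (0, false), (0, false), (2, false), (2, false), (2, false), (1, false), (1, false), (1, false), (1, false), (3, true)] K4s1_mm_t17 = true := by decide +kernel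

def K4s1_mm_t18 : Tr := (n3 (n3 (n3 (n3 (n2 (n3 (n0 o o) (n0 o o)) o) (n0 o o)) o) o) o)

def K4s1_mm_h18 : subCheck K4s1 false false K4s1_mm_A K4s1_mm_B [(0, false), (0, false), (0, false), (2, false), (2, false), (2, false), (1, false), (1, false), (1, false), (1, true)] K4s1_mm_t18 = true := by decide +kernel

def K4s1_mm_t19 : Tr := o

def K4s1_mm_h19 : subCheck K4s1 false false K4s1_mm_A K4s1_mm_B [(0, false), (0, false), (0, false), (2, false), (2, false), (2, false), (1, false), (1, false), (1, true)] K4s1_mm_t19 = true := by decide +kernel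

def K4s1_mm_t20 : Tr := o

def K4s1_mm_h20 : subCheck K4s1 false false K4s1_mm_A K4s1_mm_B [(0, false), (0, false), (0, false), (2, false), (2, false), (2, false), (1, false), (1, true)] K4s1_mm_t20 = true := by decide +kernel

def K4s1_mm_t21 : Tr := o

def K4s1_mm_h21 : subCheck K4s1 false false K4s1_mm_A K4s1_mm_B [(0, false), (0, false), (0, false), (2, false), (2, false), (2, false), (1, true)] K4s1_mm_t21 = true := by decide +kernel

def K4s1_mm_t22 : Tr := o

def K4s1_mm_h22 : subCheck K4s1 false false K4s1_mm_A K4s1_mm_B [(0, false), (0, false), (0, false), (2, false), (2, false), (2, true)] K4s1_mm_t22 = true := by decide +kernel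

def K4s1_mm_t23 : Tr := o

def K4s1_mm_h23 : subCheck K4s1 false false K4s1_mm_A K4s1_mm_B [(0, false), (0, false), (0, false), (2, false), (2, true)] K4s1_mm_t23 = true := by decide +kernel

def K4s1_mm_t24 : Tr := o

def K4s1_mm_h24 : subCheck K4s1 false false K4s1_mm_A K4s1_mm_B [(0, false), (0, false), (0, false), (2, true)] K4s1_mm_t24 = true := by decide +kernel

def K4s1_mm_t25 : Tr := o

def K4s1_mm_h25 : subCheck K4s1 false false K4s1_mm_A K4s1_mm_B [(0, false), (0, false), (0, true)] K4s1_mm_t25 = true := by decide +kernel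

def K4s1_mm_t26 : Tr := o

def K4s1_mm_h26 : subCheck K4s1 false false K4s1_mm_A K4s1_mm_B [(0, false), (0, true)] K4s1_mm_t26 = true := by decide +kernel

def K4s1_mm_t27 : Tr := o

def K4s1_mm_h27 : subCheck K4s1 false false K4s1_mm_A K4s1_mm_B [(0, true)] K4s1_mm_t27 = true := by decide +kernel

def K4s1_mm_L : List (Path × Tr) := [([(0, false), (0, false), (0, false), (2, false), (2, false), (2, false), (1, false), (1, false), (1, false), (1, false), (3, false), (3, false), (3, false), (3, false), (0, false), (1, false), (3, false), (0, false), (2, false), (2, false), (0, false), (1, false), (2, false), (3, false), (0, false), (2, false), (0, false)], K4s1_mm_t0), ([(0, false), (0, false), (0, false), (2, false), (2, false), (2, false), (1, false), (1, false), (1, false), (1, false), (3, false), (3, false), (3, false), (3, false), (0, false), (1, false), (3, false), (0, false), (2, false), (2, false), (0, false), (1, false), (2, false), (3, false), (0, false),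 (2, false), (0, true)], K4s1_mm_t1), ([(0, false), (0, false), (0, false), (2, false), (2, false), (2, false), (1, false), (1, false), (1, false), (1, false), (3, false), (3, false), (3, false), (3, false), (0, false), (1, false), (3, false), (0, false), (2, false), (2, false), (0, false), (1, false), (2, false), (3, false), (0, false), (2, true)], K4s1_mm_t2), ([(0, false), (0, false), (0, false), (2, false), (2, false), (2, false), (1, false), (1, false), (1, false), (1, false), (3, false), (3, false), (3, false), (3, false), (0, false), (1, false), (3, false), (0, false), (2, false), (2, false), (0, false), (1, false), (2, false), (3, false), (0, true)], K4s1_mm_t3), ([(0, false), (0, false), (0, false), (2, false), (2, false), (2, false), (1, false), (1, false), (1, false), (1, false), (3, false), (3, false), (3, false), (3, false), (0, false), (1, false), (3, false), (0, false), (2, false), (2, false), (0, false), (1, false), (2, false), (3, true)], K4s1_mm_t4),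 ([(0, false), (0, false), (0, false), (2, false), (2, false), (2, false), (1, false), (1, false), (1, false), (1, false), (3, false), (3, false), (3, false), (3, false), (0, false), (1, false), (3, false), (0, false), (2, false), (2, false), (0, false), (1, false), (2, true)], K4s1_mm_t5), ([(0, false), (0, false), (0, false), (2, false), (2, false), (2, false), (1, false), (1, false), (1, false), (1, false), (3, false), (3, false), (3, false), (3, false), (0, false), (1, false), (3, false), (0, false), (2, false), (2, false), (0, false), (1, true)], K4s1_mm_t6), ([(0, false), (0, false), (0, false), (2, false), (2, false), (2, false), (1, false), (1, false), (1, false), (1, false), (3, false), (3, false), (3, false), (3, false), (0, false), (1, false), (3, false), (0, false), (2, false), (2, false), (0, true)], K4s1_mm_t7), ([(0, false), (0, false), (0, false), (2, false), (2, false), (2, false), (1, false), (1, false), (1, false), (1, false), (3, false), (3, false),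 (3, false), (3, false), (0, false), (1, false), (3, false), (0, false), (2, false), (2, true)], K4s1_mm_t8), ([(0, false), (0, false), (0, false), (2, false), (2, false), (2, false), (1, false), (1, false), (1, false), (1, false), (3, false), (3, false), (3, false), (3, false), (0, false), (1, false), (3, false), (0, false), (2, true)], K4s1_mm_t9), ([(0, false), (0, false), (0, false), (2, false), (2, false), (2, false), (1, false), (1, false), (1, false), (1, false), (3, false), (3, false), (3, false), (3, false), (0, false), (1, false), (3, false), (0, true)], K4s1_mm_t10), ([(0, false), (0, false), (0, false), (2, false), (2, false), (2, false), (1, false), (1, false), (1, false), (1, false), (3, false), (3, false), (3, false), (3, false), (0, false), (1, false), (3, true)], K4s1_mm_t11), ([(0, false), (0, false), (0, false), (2, false), (2, false), (2, false), (1, false), (1, false), (1, false), (1, false), (3, false), (3, false), (3, false), (3, false), (0,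 false), (1, true)], K4s1_mm_t12), ([(0, false), (0, false), (0, false), (2, false), (2, false), (2, false), (1, false), (1, false), (1, false), (1, false), (3, false), (3, false), (3, false), (3, false), (0, true)], K4s1_mm_t13), ([(0, false), (0, false), (0, false), (2, false), (2, false), (2, false), (1, false), (1, false), (1, false), (1, false), (3, false), (3, false), (3, false), (3, true)], K4s1_mm_t14), ([(0, false), (0, false), (0, false), (2, false), (2, false), (2, false), (1, false), (1, false), (1, false), (1, false), (3, false), (3, false), (3, true)], K4s1_mm_t15), ([(0, false), (0, false), (0, false), (2, false), (2, false), (2, false), (1, false), (1, false), (1, false), (1, false), (3, false), (3, true)], K4s1_mm_t16), ([(0, false), (0, false), (0, false), (2, false), (2, false), (2, false), (1, false), (1, false), (1, false), (1, false), (3, true)], K4s1_mm_t17), ([(0, false), (0, false), (0, false), (2, false), (2, false), (2, false), (1, false),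 (1, false), (1, false), (1, true)], K4s1_mm_t18), ([(0, false), (0, false), (0, false), (2, false), (2, false), (2, false), (1, false), (1, false), (1, true)], K4s1_mm_t19), ([(0, false), (0, false), (0, false), (2, false), (2, false), (2, false), (1, false), (1, true)], K4s1_mm_t20), ([(0, false), (0, false), (0, false), (2, false), (2, false), (2, false), (1, true)], K4s1_mm_t21), ([(0, false), (0, false), (0, false), (2, false), (2, false), (2, true)], K4s1_mm_t22), ([(0, false), (0, false), (0, false), (2, false), (2, true)], K4s1_mm_t23), ([(0, false), (0, false), (0, false), (2, true)], K4s1_mm_t24), ([(0, false), (0, false), (0, true)], K4s1_mm_t25), ([(0, false), (0, true)], K4s1_mm_t26), ([(0, true)], K4s1_mm_t27)]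

def K4s1_mm_T : Tr := (n0 (n0 (n0 (n2 (n2 (n2 (n1 (n1 (n1 (n1 (n3 (n3 (n3 (n3 (n0 (n1 (n3 (n0 (n2 (n2 (n0 (n1 (n2 (n3 (n0 (n2 (n0 l l) l) l) l) l) l) l) l) l) l) l) l) l) l) l) l) l) l) l) l) l) l) l) l) l) l) l)

theorem K4s1_mm_cov : covers (K4s1_mm_L.map (fun e => pathBox e.1 root4)) K4s1_mm_T root4 = true := by decide +kernel

theorem K4s1_mm_all : AllSub K4s1 false false K4s1_mm_A K4s1_mm_B K4s1_mm_L := allSub_cons K4s1_mm_h0 (allSub_cons K4s1_mm_h1 (allSub_cons K4s1_mm_h2 (allSub_cons K4s1_mm_h3 (allSub_cons K4s1_mm_h4 (allSub_cons K4s1_mm_h5 (allSub_cons K4s1_mm_h6 (allSub_cons K4s1_mm_h7 (allSub_cons K4s1_mm_h8 (allSub_cons K4s1_mm_h9 (allSub_cons K4s1_mm_h10 (allSub_cons K4s1_mm_h11 (allSub_cons K4s1_mm_h12 (allSub_cons K4s1_mm_h13 (allSub_cons K4s1_mm_h14 (allSub_cons K4s1_mm_h15 (allSub_cons K4s1_mm_h16 (allSub_cons K4s1_mm_h17 (allSub_cons K4s1_mm_h18 (allSub_cons K4s1_mm_h19 (allSub_cons K4s1_mm_h20 (allSub_cons K4s1_mm_h21 (allSub_cons K4s1_mm_h22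 (allSub_cons K4s1_mm_h23 (allSub_cons K4s1_mm_h24 (allSub_cons K4s1_mm_h25 (allSub_cons K4s1_mm_h26 (allSub_cons K4s1_mm_h27 (allSub_nil))))))))))))))))))))))))))))

theorem K4s1_hmm : QuadChecked K4s1 false false := quadChecked_intro K4s1_mm_root K4s1_mm_cov K4s1_mm_all

end Vale.Agent.Lib.P154
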