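import Vale.Agent.Lib.P154.Checker

set_option linter.defProp false

namespace Vale.Agent.Lib.P154

private abbrev n0 := Tr.nd 0
private abbrev n1 := Tr.nd 1
private abbrev n2 := Tr.nd 2
private abbrev n3 := Tr.nd 3
private abbrev l := Tr.lf
private abbrev o := Tr.ot

def K4s3 : KCfg where
  W := 224
  room := 11
  roomT := 33
  ns := [5, 3, 5, 3]
  den := 4096
  pp := ⟨740, (-6182), 17943⟩
  p0 := ⟨1102, (-8948), 26000⟩
  pY := ⟨2954, (-49457), 287072⟩
  tn := 64
  E := 1048576
  q1 := [1048576, (-3145728), 9437184, (-28311552), 85162342, (-266066221), 937920274, (-2609517548), 3140222427]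
  q2 := [1048576, (-6291456), 28311552, (-113246208), 419038971, (-1580297938), 6118666953, (-16561711547), 18800022262]
  q3 := [1048576, (-9437184), 56623104, (-283115520), 1498456964, (-8060183072), 27189431647, (-35299250675)]
  q4 := [1048576, (-12582912), 94371840, (-566231040), 5396983647, (-26720043609), 43392066333]
  q5 := [1048576, (-15728640), 141557760, (-990904320), 21719584951, (-52010262177)]
  lamA := (1, 1)
  lamB := (1, 2)

theorem K4s3_hwf : wfK K4s3 = true := by decide +kernel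

def K4s3_Q : QTrees where
  t1 := ((n0 (n0 (n0 (n0 (n0 l l) l) l) (n0 (n0 (n0 l l) l) o)) o), (n0 (n0 (n0 l (n0 (n0 l (n0 (n0 l (n0 (n0 l (n0 l (n0 l (n0 l o)))) o)) o)) o)) o) o))
  t2 := ((n0 (n0 (n0 l (n0 l l)) (n0 (n0 l (n0 (n0 l (n0 l o)) o)) o)) o), (n0 (n0 (n0 (n0 l (n0 l l)) l) o) o))
  t3 := ((n0 (n0 (n0 l l) (n0 (n0 l (n0 (n0 l (n0 l o)) o)) o)) o), (n0 (n0 (n0 l (n0 (n0 l (n0 (n0 l (n0 (n0 l (n0 l (n0 l (n0 l o)))) o)) o)) o)) o) o))
  t4 := ((n0 (n0 l l) o), (n0 (n0 (n0 l (n0 (n0 l (n0 (n0 l (n0 l o)) o)) o)) o) o))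
  t5 := ((n0 (n0 l (n0 l o)) o), (n0 (n0 (n0 l (n0 (n0 l (n0 l o)) o)) o) o))

def K4s3_hq : allQ K4s3 128 K4s3_Q = true := by decide +kernel

def K4s3_pp_A : Nat := (rootPP K4s3 true true).elim 0 (fun x => x.1)

def K4s3_pp_B : Nat := (rootPP K4s3 true true).elim 0 (fun x => x.2)

def K4s3_pp_root : rootCheck K4s3 true true K4s3_pp_A K4s3_pp_B = true := by decide +kernel

def K4s3_pp_t0 : Tr := (n0 (n2 (n2 (n2 (n1 (n1 (n1 (n3 (n3 (n3 (n3 (n0 (n1 (n0 (n3 (n0 l (n2 l o)) (n0 l (n2 l (n1 (n3 (n0 l (n2 l o)) l) l)))) (n2 (n3 (n2 (n1 (n0 (n0 (n1 o l) o) o) (n0 (n1 (n0 l o) l) o)) (n0 (n1 (n0 (n3 (n1 o (n0 l o)) (n1 o l)) o) (n3 (n1 (n0 l o) l) (n1 (n0 l o) l))) o)) (n1 (n0 (n0 (n1 o l) o) o) (n0 l o))) (n1 (n0 (n3 o (n0 (n2 (n3 (n1 o l) l) o) o)) o) (n3 o (n0 (n2 (n3 (n0 l (n1 o l)) (n0 l (n1 o l))) o) o))))) (n0 (n3 l l) (n2 (n3 (n1 (n0 l (n1 (n0 l o) l)) l) (n1 (n0 l (n1 (n2 l (n0 l o)) l)) l)) (n3 o (n0 (n1 (n1 (n0 l (n2 l o)) l) o) (n2 (n1 (n1 (n3 (n0 (n1 (n0 l o) l)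 o) (n2 (n0 l o) (n0 l o))) (n3 (n2 l o) (n2 l (n0 l (n1 (n3 (n0 l o) (n2 l o)) l))))) l) o)))))) (n2 (n3 (n1 o (n2 (n1 (n2 (n3 (n0 (n1 o (n0 l o)) o) (n0 (n1 o (n1 o l)) o)) (n0 (n1 o (n0 (n1 o l) o)) o)) (n1 (n0 l o) (n0 l o))) (n1 (n0 (n1 o (n0 (n1 o (n0 l o)) o)) o) (n0 (n1 (n2 (n0 l (n1 o (n0 l o))) o) (n2 l o)) o)))) (n1 o (n2 (n1 (n0 (n1 o (n0 l o)) o) (n1 (n0 l o) (n0 l o))) (n1 (n0 (n2 (n1 o (n0 (n1 o l) o)) (n1 o (n0 (n0 (n1 o l) o) o))) o) (n0 (n1 (n2 (n0 l (n1 o (n0 l o))) (n0 (n0 l (n1 (n0 l o) l)) (n1 o (n2 (n0 (n3 (n0 l o) o) o) (n0 (n3 (n1 o (n0 l o)) (n0 (n1 o (n3 l o)) o)) o))))) (n2 (n0 o (n1 (n0 l o) l)) (n3 (n0 o (n2 (n1 (n0 l o) l) (n1 (n0 l o) (n0 o o)))) (n1 (n0 o (n2 o (n0 (n0 l (n1 (n3 (n0 l o) o) o)) o))) (n2 o (n0 o (n0 o o))))))) o))))) (n2 (n3 o (n1 o (n0 (n1 (n0 (n2 (n1 o (n0 (n3 (n1 o (n0 l o)) (n1 o (n2 (n0 l o) (n0 l o)))) o)) (n1 o (n3 o (n0 (n2 (n1 o (n3 (n0 (n1 o l) o) (n0 (n1 o l) o))) o) o)))) o) (n0 (n2 (n1 (n3 (n1 (n0 l (n2 (n1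 o (n0 l o)) o)) (n2 l o)) (n2 (n0 l (n1 (n0 (n1 o l) o) (n0 l (n1 (n3 (n1 o l) o) l)))) (n0 l (n1 (n3 (n1 o (n0 l o)) o) (n1 (n3 (n0 l (n2 (n1 o l) (n1 o l))) o) l))))) o) (n3 o (n0 l (n1 (n2 (n1 (n3 (n0 (n1 o l) o) (n0 (n1 o l) o)) l) o) o)))) (n2 (n1 (n3 (n2 (n1 o (n0 (n1 o (n3 o (n0 (n1 (n2 l o) l) o))) o)) o) (n2 (n0 (n1 o (n3 (n1 o (n0 (n2 (n1 (n0 l o) l) (n1 (n0 l o) l)) o)) o)) o) (n0 (n1 o (n3 (n2 (n1 o (n0 (n1 (n0 l o) l) o)) (n1 o (n0 (n1 (n3 o l) l) o))) o)) o))) (n3 (n2 (n0 (n1 (n1 (n3 o (n0 l (n2 (n1 (n0 l o) l) o))) o) o) o) o) (n2 (n1 (n0 (n3 (n1 (n2 (n0 l (n1 (n0 (n3 l o) o) (n0 l o))) (n0 l (n1 (n0 (n1 (n3 l (n0 l o)) l) o) (n0 l o)))) o) o) o) (n0 o o)) (n0 (n1 (n3 (n1 (n1 (n0 l (n2 (n3 (n1 (n0 l o) l) (n1 (n2 (n0 l o) l) l)) l)) l) o) o) o) o)))) (n3 o (n0 (n1 (n2 (n1 o (n3 (n1 o l) l)) o) l) o))))) o))) o))) (n0 (n1 (n0 l (n2 o (n1 (n0 (n3 (n0 l o) o) o) (n3 (n0 l o) o)))) (n0 l (n2 o (n1 (n2 o o) (n0 o l))))) (n2 o (n1 o (n1 (n0 (n2 o o) o) (n0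 (n1 (n2 o o) (n2 o o)) o)))))) o) o) o) (n3 (n3 (n3 (n3 (n2 (n3 (n2 (n0 o (n1 (n1 (n1 (n0 o o) o) o) o)) (n0 o (n1 (n3 (n1 (n0 o o) o) (n1 (n0 o o) o)) o))) (n1 (n2 (n1 (n1 (n0 o (n0 o o)) o) o) (n0 o (n1 (n2 (n1 (n0 o o) o) (n0 o o)) o))) o)) (n0 o (n3 o (n0 o o)))) (n0 o (n2 o (n0 o o)))) o) o) o)) o) o) o) o) o) o)

def K4s3_pp_h0 : subCheck K4s3 true true K4s3_pp_A K4s3_pp_B [] K4s3_pp_t0 = true := by decide +kernel

def K4s3_pp_L : List (Path × Tr) := [([], K4s3_pp_t0)]

def K4s3_pp_T : Tr := l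

theorem K4s3_pp_cov : covers (K4s3_pp_L.map (fun e => pathBox e.1 root4)) K4s3_pp_T root4 = true := by decide +kernel

theorem K4s3_pp_all : AllSub K4s3 true true K4s3_pp_A K4s3_pp_B K4s3_pp_L := allSub_cons K4s3_pp_h0 (allSub_nil)

theorem K4s3_hpp : QuadChecked K4s3 true true := quadChecked_intro K4s3_pp_root K4s3_pp_cov K4s3_pp_all

def K4s3_pm_A : Nat := (rootPP K4s3 true false).elim 0 (fun x => x.1)

def K4s3_pm_B : Nat := (rootPP K4s3 true false).elim 0 (fun x => x.2)

def K4s3_pm_root : rootCheck K4s3 true false K4s3_pm_A K4s3_pm_B = true := by decide +kernel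

def K4s3_pm_t0 : Tr := (n0 (n2 (n2 (n2 (n1 (n1 (n1 (n3 (n3 (n3 (n3 (n0 (n1 (n0 (n0 (n1 (n2 (n3 (n2 (n2 (n3 l (n2 (n0 (n2 o l) l) l)) l) o) (n2 (n2 o l) o)) o) l) (n1 (n3 (n0 (n2 l o) (n2 l o)) (n0 (n2 (n2 l o) o) (n2 (n2 l o) o))) l)) (n2 (n3 (n2 (n0 (n0 (n1 (n1 o (n3 l (n2 l (n0 l o)))) l) (n1 o (n1 o l))) o) o) (n2 (n0 (n1 (n0 (n2 o (n1 o (n3 (n0 l o) o))) o) (n2 o (n0 l (n1 o l)))) o) o)) o)) (n0 (n2 l o) (n0 (n3 (n2 l o) (n2 l o)) (n2 (n3 (n2 (n1 (n1 (n0 l o) l) l) o) (n2 (n1 (n1 (n2 o (n0 l o)) l) l) o)) o)))) (n2 (n3 (n2 (n1 o (n1 (n2 (n3 (n0 (n1 o (n0 (n1 o l) o)) o) (n0 (n1 o (n0 (n1 o l) o)) o)) (n0 (n1 o (n0 (n1 o l) o)) o)) (n1 (n0 (n1 (n0 l o) l) o) (n0 l o)))) o) (n2 (n2 o (n1 o (n1 (n0 (n1 o (n0 (n1 o l) o)) o) (n1 (n0 (n1 (n0 l o) l) o) (n1 (n0 l o) l))))) o)) o)) (n0 (n1 (n0 (n0 (n1 (n2 o o) (n2 o o)) (n0 (n1 (n2 o o) (n2 o o)) (n1 (n2 o o) (n2 o o)))) (n2 o o)) (n2 o o)) (n1 o (n2 o o)))) o) o) o) (n3 (n3 (n3 (n3 (n1 (n2 (n3 (n2 (n0 o (n1 (n1 (n2 (n3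 (n1 l (n0 o o)) (n1 l (n0 o o))) (n0 o o)) o) o)) o) (n2 (n0 o (n1 (n1 (n2 o (n1 l (n0 o o))) o) o)) o)) o) o) (n1 (n1 (n2 o o) o) o)) o) o) o)) o) o) o) o) o) o)

def K4s3_pm_h0 : subCheck K4s3 true false K4s3_pm_A K4s3_pm_B [] K4s3_pm_t0 = true := by decide +kernel

def K4s3_pm_L : List (Path × Tr) := [([], K4s3_pm_t0)]

def K4s3_pm_T : Tr := l

theorem K4s3_pm_cov : covers (K4s3_pm_L.map (fun e => pathBox e.1 root4)) K4s3_pm_T root4 = true := by decide +kernel

theorem K4s3_pm_all : AllSub K4s3 true false K4s3_pm_A K4s3_pm_B K4s3_pm_L := allSub_cons K4s3_pm_h0 (allSub_nil)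

theorem K4s3_hpm : QuadChecked K4s3 true false := quadChecked_intro K4s3_pm_root K4s3_pm_cov K4s3_pm_all

def K4s3_mp_A : Nat := (rootPP K4s3 false true).elim 0 (fun x => x.1)

def K4s3_mp_B : Nat := (rootPP K4s3 false true).elim 0 (fun x => x.2)

def K4s3_mp_root : rootCheck K4s3 false true K4s3_mp_A K4s3_mp_B = true := by decide +kernel

def K4s3_mp_t0 : Tr := (n0 (n2 (n3 (n0 (n1 (n2 (n0 (n2 (n3 (n0 (n1 l (n2 (n0 (n2 (n3 (n0 o l) (n0 o l)) l) l) l)) l) l) l) l) l) (n3 (n0 (n2 (n0 o (n2 (n3 (n1 l o) (n1 l o)) (n3 (n1 l o) (n1 l o)))) (n3 o l)) (n2 (n0 (n2 l (n1 l o)) l) (n3 o (n1 l (n0 o (n2 l o)))))) (n0 (n2 (n0 o l) l) l))) (n2 l (n0 (n1 l (n3 (n2 l o) l)) (n1 (n3 (n2 (n0 l (n1 l o)) o) (n0 l (n1 l o))) o)))) (n0 l (n1 l (n0 l o)))) (n0 (n1 (n3 o l) (n3 o (n3 (n3 o l) l))) (n3 o (n2 (n1 (n3 (n0 l (n3 o l)) l) (n0 l o)) o)))) o)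

def K4s3_mp_h0 : subCheck K4s3 false true K4s3_mp_A K4s3_mp_B [(0, false), (2, false), (2, false), (2, false), (1, false), (1, false), (1, false), (3, false), (3, false), (3, false), (3, false), (0, false), (1, false)] K4s3_mp_t0 = true := by decide +kernel

def K4s3_mp_t1 : Tr := o

def K4s3_mp_h1 : subCheck K4s3 false true K4s3_mp_A K4s3_mp_B [(0, false), (2, false), (2, false), (2, false), (1, false), (1, false), (1, false), (3, false), (3, false), (3, false), (3, false), (0, false), (1, true), (0, false), (0, false)] K4s3_mp_t1 = true := by decide +kernel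

def K4s3_mp_t2 : Tr := (n0 o o)

def K4s3_mp_h2 : subCheck K4s3 false true K4s3_mp_A K4s3_mp_B [(0, false), (2, false), (2, false), (2, false), (1, false), (1, false), (1, false), (3, false), (3, false), (3, false), (3, false), (0, false), (1, true), (0, false), (0, true), (2, false), (3, false)] K4s3_mp_t2 = true := by decide +kernel

def K4s3_mp_t3 : Tr := (n0 o o)

def K4s3_mp_h3 : subCheck K4s3 false true K4s3_mp_A K4s3_mp_B [(0, false), (2, false), (2, false), (2, false), (1, false), (1, false), (1, false), (3, false), (3, false), (3, false), (3, false), (0, false), (1, true), (0, false), (0, true), (2, false), (3, true)] K4s3_mp_t3 = true := by decide +kernel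

def K4s3_mp_t4 : Tr := o

def K4s3_mp_h4 : subCheck K4s3 false true K4s3_mp_A K4s3_mp_B [(0, false), (2, false), (2, false), (2, false), (1, false), (1, false), (1, false), (3, false), (3, false), (3, false), (3, false), (0, false), (1, true), (0, false), (0, true), (2, true), (3, false)] K4s3_mp_t4 = true := by decide +kernel

def K4s3_mp_t5 : Tr := o

def K4s3_mp_h5 : subCheck K4s3 false true K4s3_mp_A K4s3_mp_B [(0, false), (2, false), (2, false), (2, false), (1, false), (1, false), (1, false), (3, false), (3, false), (3, false), (3, false), (0, false), (1, true), (0, false), (0, true), (2, true), (3, true), (0, false)] K4s3_mp_t5 = true := by decide +kernel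

def K4s3_mp_t6 : Tr := o

def K4s3_mp_h6 : subCheck K4s3 false true K4s3_mp_A K4s3_mp_B [(0, false), (2, false), (2, false), (2, false), (1, false), (1, false), (1, false), (3, false), (3, false), (3, false), (3, false), (0, false), (1, true), (0, false), (0, true), (2, true), (3, true), (0, true)] K4s3_mp_t6 = true := by decide +kernel

def K4s3_mp_t7 : Tr := o

def K4s3_mp_h7 : subCheck K4s3 false true K4s3_mp_A K4s3_mp_B [(0, false), (2, false), (2, false), (2, false), (1, false), (1, false), (1, false), (3, false), (3, false), (3, false), (3, false), (0, false), (1, true), (0, true)] K4s3_mp_t7 = true := by decide +kernel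

def K4s3_mp_t8 : Tr := o

def K4s3_mp_h8 : subCheck K4s3 false true K4s3_mp_A K4s3_mp_B [(0, false), (2, false), (2, false), (2, false), (1, false), (1, false), (1, false), (3, false), (3, false), (3, false), (3, false), (0, true)] K4s3_mp_t8 = true := by decide +kernel

def K4s3_mp_t9 : Tr := (n0 (n1 (n0 (n0 l (n1 l (n0 l o))) o) (n0 (n0 o (n0 o o)) o)) o)

def K4s3_mp_h9 : subCheck K4s3 false true K4s3_mp_A K4s3_mp_B [(0, false), (2, false), (2, false), (2, false), (1, false), (1, false), (1, false), (3, false), (3, false), (3, false), (3, true)] K4s3_mp_t9 = true := by decide +kernel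

def K4s3_mp_t10 : Tr := o

def K4s3_mp_h10 : subCheck K4s3 false true K4s3_mp_A K4s3_mp_B [(0, false), (2, false), (2, false), (2, false), (1, false), (1, false), (1, false), (3, false), (3, false), (3, true)] K4s3_mp_t10 = true := by decide +kernel

def K4s3_mp_t11 : Tr := o

def K4s3_mp_h11 : subCheck K4s3 false true K4s3_mp_A K4s3_mp_B [(0, false), (2, false), (2, false), (2, false), (1, false), (1, false), (1, false), (3, false), (3, true)] K4s3_mp_t11 = true := by decide +kernel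

def K4s3_mp_t12 : Tr := o

def K4s3_mp_h12 : subCheck K4s3 false true K4s3_mp_A K4s3_mp_B [(0, false), (2, false), (2, false), (2, false), (1, false), (1, false), (1, false), (3, true)] K4s3_mp_t12 = true := by decide +kernel

def K4s3_mp_t13 : Tr := o

def K4s3_mp_h13 : subCheck K4s3 false true K4s3_mp_A K4s3_mp_B [(0, false), (2, false), (2, false), (2, false), (1, false), (1, false), (1, true), (3, false), (3, false), (3, false), (3, false), (2, false), (3, false), (0, false)] K4s3_mp_t13 = true := by decide +kernel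

def K4s3_mp_t14 : Tr := o

def K4s3_mp_h14 : subCheck K4s3 false true K4s3_mp_A K4s3_mp_B [(0, false), (2, false), (2, false), (2, false), (1, false), (1, false), (1, true), (3, false), (3, false), (3, false), (3, false), (2, false), (3, false), (0, true)] K4s3_mp_t14 = true := by decide +kernel

def K4s3_mp_t15 : Tr := (n0 o o)

def K4s3_mp_h15 : subCheck K4s3 false true K4s3_mp_A K4s3_mp_B [(0, false), (2, false), (2, false), (2, false), (1, false), (1, false), (1, true), (3, false), (3, false), (3, false), (3, false), (2, false), (3, true)] K4s3_mp_t15 = true := by decide +kernel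

def K4s3_mp_t16 : Tr := (n0 o o)

def K4s3_mp_h16 : subCheck K4s3 false true K4s3_mp_A K4s3_mp_B [(0, false), (2, false), (2, false), (2, false), (1, false), (1, false), (1, true), (3, false), (3, false), (3, false), (3, false), (2, true)] K4s3_mp_t16 = true := by decide +kernel

def K4s3_mp_t17 : Tr := (n0 o o)

def K4s3_mp_h17 : subCheck K4s3 false true K4s3_mp_A K4s3_mp_B [(0, false), (2, false), (2, false), (2, false), (1, false), (1, false), (1, true), (3, false), (3, false), (3, false), (3, true)] K4s3_mp_t17 = true := by decide +kernel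

def K4s3_mp_t18 : Tr := o

def K4s3_mp_h18 : subCheck K4s3 false true K4s3_mp_A K4s3_mp_B [(0, false), (2, false), (2, false), (2, false), (1, false), (1, false), (1, true), (3, false), (3, false), (3, true)] K4s3_mp_t18 = true := by decide +kernel

def K4s3_mp_t19 : Tr := o

def K4s3_mp_h19 : subCheck K4s3 false true K4s3_mp_A K4s3_mp_B [(0, false), (2, false), (2, false), (2, false), (1, false), (1, false), (1, true), (3, false), (3, true)] K4s3_mp_t19 = true := by decide +kernel

def K4s3_mp_t20 : Tr := o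

def K4s3_mp_h20 : subCheck K4s3 false true K4s3_mp_A K4s3_mp_B [(0, false), (2, false), (2, false), (2, false), (1, false), (1, false), (1, true), (3, true)] K4s3_mp_t20 = true := by decide +kernel

def K4s3_mp_t21 : Tr := o

def K4s3_mp_h21 : subCheck K4s3 false true K4s3_mp_A K4s3_mp_B [(0, false), (2, false), (2, false), (2, false), (1, false), (1, true)] K4s3_mp_t21 = true := by decide +kernel

def K4s3_mp_t22 : Tr := o

def K4s3_mp_h22 : subCheck K4s3 false true K4s3_mp_A K4s3_mp_B [(0, false), (2, false), (2, false), (2, false), (1, true)] K4s3_mp_t22 = true := by decide +kernel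

def K4s3_mp_t23 : Tr := o

def K4s3_mp_h23 : subCheck K4s3 false true K4s3_mp_A K4s3_mp_B [(0, false), (2, false), (2, false), (2, true)] K4s3_mp_t23 = true := by decide +kernel

def K4s3_mp_t24 : Tr := o

def K4s3_mp_h24 : subCheck K4s3 false true K4s3_mp_A K4s3_mp_B [(0, false), (2, false), (2, true)] K4s3_mp_t24 = true := by decide +kernel

def K4s3_mp_t25 : Tr := o

def K4s3_mp_h25 : subCheck K4s3 false true K4s3_mp_A K4s3_mp_B [(0, false), (2, true)] K4s3_mp_t25 = true := by decide +kernel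

def K4s3_mp_t26 : Tr := o

def K4s3_mp_h26 : subCheck K4s3 false true K4s3_mp_A K4s3_mp_B [(0, true)] K4s3_mp_t26 = true := by decide +kernel

def K4s3_mp_L : List (Path × Tr) := [([(0, false), (2, false), (2, false), (2, false), (1, false), (1, false), (1, false), (3, false), (3, false), (3, false), (3, false), (0, false), (1, false)], K4s3_mp_t0), ([(0, false), (2, false), (2, false), (2, false), (1, false), (1, false), (1, false), (3, false), (3, false), (3, false), (3, false), (0, false), (1, true), (0, false), (0, false)], K4s3_mp_t1), ([(0, false), (2, false), (2, false), (2, false), (1, false), (1, false), (1, false), (3, false), (3, false), (3, false), (3, false), (0, false), (1, true), (0, false), (0, true), (2, false), (3, false)], K4s3_mp_t2), ([(0, false), (2, false), (2, false), (2, false), (1, false), (1, false), (1, false), (3, false), (3, false), (3, false), (3, false), (0, false), (1, true), (0, false), (0, true), (2, false), (3, true)], K4s3_mp_t3),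 ([(0, false), (2, false), (2, false), (2, false), (1, false), (1, false), (1, false), (3, false), (3, false), (3, false), (3, false), (0, false), (1, true), (0, false), (0, true), (2, true), (3, false)], K4s3_mp_t4), ([(0, false), (2, false), (2, false), (2, false), (1, false), (1, false), (1, false), (3, false), (3, false), (3, false), (3, false), (0, false), (1, true), (0, false), (0, true), (2, true), (3, true), (0, false)], K4s3_mp_t5), ([(0, false), (2, false), (2, false), (2, false), (1, false), (1, false), (1, false), (3, false), (3, false), (3, false), (3, false), (0, false), (1, true), (0, false), (0, true), (2, true), (3, true), (0, true)], K4s3_mp_t6), ([(0, false), (2, false), (2, false), (2, false), (1, false), (1, false), (1, false), (3, false), (3, false), (3, false), (3, false), (0, false), (1, true), (0, true)], K4s3_mp_t7), ([(0, false), (2, false), (2, false), (2, false), (1, false), (1, false), (1, false), (3, false), (3, false), (3, false), (3,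 false), (0, true)], K4s3_mp_t8), ([(0, false), (2, false), (2, false), (2, false), (1, false), (1, false), (1, false), (3, false), (3, false), (3, false), (3, true)], K4s3_mp_t9), ([(0, false), (2, false), (2, false), (2, false), (1, false), (1, false), (1, false), (3, false), (3, false), (3, true)], K4s3_mp_t10), ([(0, false), (2, false), (2, false), (2, false), (1, false), (1, false), (1, false), (3, false), (3, true)], K4s3_mp_t11), ([(0, false), (2, false), (2, false), (2, false), (1, false), (1, false), (1, false), (3, true)], K4s3_mp_t12), ([(0, false), (2, false), (2, false), (2, false), (1, false), (1, false), (1, true), (3, false), (3, false), (3, false), (3, false), (2, false), (3, false), (0, false)], K4s3_mp_t13), ([(0, false), (2, false), (2, false), (2, false), (1, false), (1, false), (1, true), (3, false), (3, false), (3, false), (3, false), (2, false), (3, false), (0, true)], K4s3_mp_t14), ([(0, false), (2, false), (2, false), (2, false), (1, false),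 (1, false), (1, true), (3, false), (3, false), (3, false), (3, false), (2, false), (3, true)], K4s3_mp_t15), ([(0, false), (2, false), (2, false), (2, false), (1, false), (1, false), (1, true), (3, false), (3, false), (3, false), (3, false), (2, true)], K4s3_mp_t16), ([(0, false), (2, false), (2, false), (2, false), (1, false), (1, false), (1, true), (3, false), (3, false), (3, false), (3, true)], K4s3_mp_t17), ([(0, false), (2, false), (2, false), (2, false), (1, false), (1, false), (1, true), (3, false), (3, false), (3, true)], K4s3_mp_t18), ([(0, false), (2, false), (2, false), (2, false), (1, false), (1, false), (1, true), (3, false), (3, true)], K4s3_mp_t19), ([(0, false), (2, false), (2, false), (2, false), (1, false), (1, false), (1, true), (3, true)], K4s3_mp_t20), ([(0, false), (2, false), (2, false), (2, false), (1, false), (1, true)], K4s3_mp_t21), ([(0, false), (2, false), (2, false), (2, false), (1, true)], K4s3_mp_t22), ([(0, false), (2, false), (2, false),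 (2, true)], K4s3_mp_t23), ([(0, false), (2, false), (2, true)], K4s3_mp_t24), ([(0, false), (2, true)], K4s3_mp_t25), ([(0, true)], K4s3_mp_t26)]

def K4s3_mp_T : Tr := (n0 (n2 (n2 (n2 (n1 (n1 (n1 (n3 (n3 (n3 (n3 (n0 (n1 l (n0 (n0 l (n2 (n3 l l) (n3 l (n0 l l)))) l)) l) l) l) l) l) (n3 (n3 (n3 (n3 (n2 (n3 (n0 l l) l) l) l) l) l) l)) l) l) l) l) l) l)

theorem K4s3_mp_cov : covers (K4s3_mp_L.map (fun e => pathBox e.1 root4)) K4s3_mp_T root4 = true := by decide +kernel

theorem K4s3_mp_all : AllSub K4s3 false true K4s3_mp_A K4s3_mp_B K4s3_mp_L := allSub_cons K4s3_mp_h0 (allSub_cons K4s3_mp_h1 (allSub_cons K4s3_mp_h2 (allSub_cons K4s3_mp_h3 (allSub_cons K4s3_mp_h4 (allSub_cons K4s3_mp_h5 (allSub_cons K4s3_mp_h6 (allSub_cons K4s3_mp_h7 (allSub_cons K4s3_mp_h8 (allSub_cons K4s3_mp_h9 (allSub_cons K4s3_mp_h10 (allSub_cons K4s3_mp_h11 (allSub_cons K4s3_mp_h12 (allSub_cons K4s3_mp_h13 (allSub_cons K4s3_mp_h14 (allSub_cons K4s3_mp_h15 (allSub_cons K4s3_mp_h16 (allSub_cons K4s3_mp_h17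 (allSub_cons K4s3_mp_h18 (allSub_cons K4s3_mp_h19 (allSub_cons K4s3_mp_h20 (allSub_cons K4s3_mp_h21 (allSub_cons K4s3_mp_h22 (allSub_cons K4s3_mp_h23 (allSub_cons K4s3_mp_h24 (allSub_cons K4s3_mp_h25 (allSub_cons K4s3_mp_h26 (allSub_nil)))))))))))))))))))))))))))

theorem K4s3_hmp : QuadChecked K4s3 false true := quadChecked_intro K4s3_mp_root K4s3_mp_cov K4s3_mp_all

def K4s3_mm_A : Nat := (rootPP K4s3 false false).elim 0 (fun x => x.1)

def K4s3_mm_B : Nat := (rootPP K4s3 false false).elim 0 (fun x => x.2)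

def K4s3_mm_root : rootCheck K4s3 false false K4s3_mm_A K4s3_mm_B = true := by decide +kernel

def K4s3_mm_t0 : Tr := (n2 (n3 (n0 (n2 (n0 (n1 (n2 (n3 (n0 (n2 (n0 (n1 l (n2 (n3 (n0 (n2 (n0 o l) l) l) (n0 (n2 (n0 o l) l) l)) l)) l) l) l) (n0 (n2 (n0 (n1 (n2 o l) (n2 o l)) l) l) l)) l) (n2 (n3 (n0 (n2 (n0 o l) (n0 o l)) l) (n0 (n2 (n0 o (n1 (n2 o l) o)) (n0 o (n1 l o))) (n2 (n1 l (n0 o l)) (n1 l (n0 o (n3 l (n1 l o))))))) (n0 (n2 (n3 l (n1 l o)) l) (n1 l (n3 l (n2 (n0 o (n1 l o)) l)))))) l) (n0 l l)) l) (n0 (n2 (n0 (n1 (n2 o l) (n2 o (n0 (n2 o l) (n1 (n2 o (n1 l (n3 l o))) (n2 o (n3 (n1 (n0 o (n3 l o)) o) o)))))) (n2 o (n1 l (n0 (n1 (n3 l o) (n3 (n1 (n2 o (n0 (n3 l o) l)) (n2 o (n3 (n0 o l) o))) o)) (n3 (n1 l (n1 l (n3 l o))) o))))) (n0 (n1 l (n0 l (n1 l (n2 (n3 (n1 l o) o) l)))) (n1 l (n2 (n1 l (n0 (n3 (n1 l (n2 (n3 l o) l)) o) (n3 (n1 l (n3 l (n2 o l))) o))) (n1 l (n0 l (n1 l (n3 l (n2 o l))))))))) (n2 (n1 l (n0 (n3 l o) l)) (n0 (n1 l (n2 (n1 l (n0 (n3 l o) l)) (n1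 l (n0 (n3 l (n1 l (n3 l o))) l)))) l)))) (n0 l l))

def K4s3_mm_h0 : subCheck K4s3 false false K4s3_mm_A K4s3_mm_B [(0, false), (2, false), (2, false), (2, false), (1, false), (1, false), (1, false), (3, false), (3, false), (3, false), (3, false), (0, false), (1, false), (0, false), (2, false), (3, false), (2, false), (0, false), (1, false)] K4s3_mm_t0 = true := by decide +kernel

def K4s3_mm_t1 : Tr := (n2 (n3 (n0 o (n2 (n0 o (n3 (n2 l (n1 l o)) (n2 l (n1 (n1 (n3 l (n1 l o)) o) o)))) (n1 (n3 (n0 o (n1 l o)) (n0 o (n1 (n2 (n1 l o) (n1 l o)) o))) o))) (n0 o (n2 (n2 o (n0 o (n1 (n3 (n1 (n3 (n1 (n2 o (n0 (n3 l o) l)) o) o) o) o) o))) (n1 (n2 (n0 o (n1 (n3 (n1 (n3 (n2 (n0 (n1 l o) l) (n0 (n1 l o) l)) (n2 o (n1 (n0 (n3 (n1 l o) o) (n3 l o)) (n0 o (n3 (n1 l o) o))))) o) o) o)) (n1 (n3 (n0 o (n1 (n3 l (n1 l (n2 (n0 o (n3 l (n1 (n3 l (n1 l (n2 o l))) o))) l))) o)) (n0 o (n1 (n1 (n2 o (n0 l (n3 l o))) (n2 o (n3 (n0 o (n1 l o)) o))) o))) o)) o)))) (n3 (n0 o (n3 (n1 (n2 (n0 o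 (n1 l o)) l) o) (n1 (n2 (n1 l o) l) o))) (n0 o (n2 (n1 (n3 (n1 (n0 o (n1 l o)) o) (n1 (n2 (n0 o (n1 l o)) l) o)) o) o))))

def K4s3_mm_h1 : subCheck K4s3 false false K4s3_mm_A K4s3_mm_B [(0, false), (2, false), (2, false), (2, false), (1, false), (1, false), (1, false), (3, false), (3, false), (3, false), (3, false), (0, false), (1, false), (0, false), (2, false), (3, false), (2, false), (0, false), (1, true), (0, false)] K4s3_mm_t1 = true := by decide +kernel

def K4s3_mm_t2 : Tr := (n3 (n0 (n2 l (n1 (n3 l (n0 (n1 l o) l)) o)) l) (n0 (n2 (n2 o (n1 (n3 (n0 (n3 l o) l) o) o)) (n1 (n3 (n0 (n1 (n2 (n3 (n1 l (n3 l (n0 (n1 l o) l))) (n1 l (n0 (n3 (n1 (n1 l o) o) o) (n3 l o)))) (n1 l (n3 (n1 l (n3 l (n0 o l))) (n1 (n0 (n2 (n3 (n1 l o) (n1 (n3 l (n0 o l)) o)) (n3 l (n1 l o))) l) (n0 o (n3 l (n2 (n0 o l) (n1 (n3 l (n0 o l)) o)))))))) o) (n1 l (n2 (n3 l (n0 (n3 l o) l)) (n3 (n1 l o) (n1 (n0 (n3 (n1 l o) (n1 (n2 l (n0 o l)) o)) l) o))))) (n1 (n2 o (n0 (n1 (n3 (n1 (n2 o l) (n2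 o (n0 (n3 l o) (n3 l o)))) o) (n3 (n1 (n2 o (n0 (n3 (n1 (n3 (n1 l (n2 o l)) o) o) o) (n3 (n1 l (n3 l o)) o))) (n3 (n0 o (n2 o (n1 (n3 (n0 o l) o) o))) o)) o)) (n1 (n3 l o) (n3 (n0 (n1 l (n3 (n2 o (n1 l (n0 (n3 l o) l))) o)) l) o)))) (n0 o (n2 o (n3 (n1 (n0 (n3 (n1 (n2 o (n0 o (n1 l o))) o) o) (n3 (n1 l (n2 o (n0 o l))) o)) o) o))))) o)) (n2 l (n1 (n3 l (n0 (n2 o (n1 l (n3 (n0 (n1 l (n3 l o)) l) o))) l)) (n3 (n0 o l) (n0 o l))))))

def K4s3_mm_h2 : subCheck K4s3 false false K4s3_mm_A K4s3_mm_B [(0, false), (2, false), (2, false), (2, false), (1, false), (1, false), (1, false), (3, false), (3, false), (3, false), (3, false), (0, false), (1, false), (0, false), (2, false), (3, false), (2, false), (0, false), (1, true), (0, true), (2, false)] K4s3_mm_t2 = true := by decide +kernel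

def K4s3_mm_t3 : Tr := (n0 (n3 (n1 l o) (n1 (n2 (n1 l (n0 o l)) l) o)) (n3 (n1 l (n1 l o)) (n1 l (n2 (n0 o l) (n0 o (n1 l o))))))

def K4s3_mm_h3 : subCheck K4s3 false false K4s3_mm_A K4s3_mm_B [(0, false), (2, false), (2, false), (2, false), (1, false), (1, false), (1, false), (3, false), (3, false), (3, false), (3, false), (0, false), (1, false), (0, false), (2, false), (3, false), (2, false), (0, false), (1, true), (0, true), (2, true), (3, false)] K4s3_mm_t3 = true := by decide +kernel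

def K4s3_mm_t4 : Tr := (n1 (n2 (n3 (n1 (n0 (n1 l (n3 l (n2 (n1 l (n0 o (n2 (n3 l (n1 l o)) l))) l))) l) (n0 o (n1 (n2 (n3 l (n1 (n0 (n3 l (n2 (n1 l o) l)) l) (n0 o l))) (n1 l (n3 l (n0 o l)))) o))) (n1 (n2 (n0 (n1 l (n1 (n2 (n3 (n0 (n1 l o) (n1 l (n3 l (n2 o l)))) o) l) (n3 (n0 o (n2 (n3 (n1 (n3 (n1 l (n2 (n0 o l) l)) (n1 (n2 (n0 o l) l) (n2 (n0 o l) l))) o) (n1 (n3 (n1 (n2 o l) (n2 o (n0 o l))) o) o)) (n1 l o))) o))) (n1 l (n3 (n1 l (n0 (n2 (n3 l (n1 (n3 l o) (n3 (n0 (n1 (n3 l o) (n2 o (n3 l o))) l) o))) l) l)) o))) l) (n0 o (n2 (n1 (n3 (n1 (n0 (n3 (n2 (n1 (n3 (n0 o l) (n0 o l)) o) (n1 l o)) (n2 (n1 (n3 (n0 o (n1 l (n0 o l))) o) o) (n1 (n1 (n2 (n3 l o) l) (n2 (n3 (n0 o l) o) l)) o))) (n3 l (n2 (n1 l (n0 (n3 l o) l)) (n1 l (n0 (n3 l (n1 l (n0 o l))) l))))) (n0 o (n3 (n2 (n0 o l) (n1 l o)) (n2 (n0 o (n1 l o)) (n1 (n0 o l) o))))) o) o) (n1 (n3 (n1 l (n0 o (n2 (n1 l o) l))) (n1 (n2 (n0 (n1 l o) (n1 l (n2 (n3 l o) l))) o) (n2 (n0 o (n1 (n3 (n2 (n1 (n0 o l) (n0 o l)) l)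 o) o)) o))) o))))) o) o)

def K4s3_mm_h4 : subCheck K4s3 false false K4s3_mm_A K4s3_mm_B [(0, false), (2, false), (2, false), (2, false), (1, false), (1, false), (1, false), (3, false), (3, false), (3, false), (3, false), (0, false), (1, false), (0, false), (2, false), (3, false), (2, false), (0, false), (1, true), (0, true), (2, true), (3, true), (0, false)] K4s3_mm_t4 = true := by decide +kernel

def K4s3_mm_t5 : Tr := (n1 (n2 (n3 l (n1 l (n0 (n2 (n1 (n3 l o) (n3 (n0 (n3 (n1 l o) (n1 (n0 o l) o)) l) o)) (n1 (n1 l (n3 l (n0 (n2 (n1 l (n3 l o)) o) l))) (n3 (n1 (n0 (n3 l (n2 (n1 l o) o)) l) (n0 o l)) (n1 (n0 (n2 (n3 (n1 (n0 o l) o) o) o) l) (n0 o (n3 l (n2 o o))))))) l))) o) (n3 (n2 (n0 o (n0 o l)) o) (n2 (n0 o (n1 (n2 (n0 o l) (n0 o l)) o)) o)))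

def K4s3_mm_h5 : subCheck K4s3 false false K4s3_mm_A K4s3_mm_B [(0, false), (2, false), (2, false), (2, false), (1, false), (1, false), (1, false), (3, false), (3, false), (3, false), (3, false), (0, false), (1, false), (0, false), (2, false), (3, false), (2, false), (0, false), (1, true), (0, true), (2, true), (3, true), (0, true)] K4s3_mm_t5 = true := by decide +kernel

def K4s3_mm_t6 : Tr := l

def K4s3_mm_h6 : subCheck K4s3 false false K4s3_mm_A K4s3_mm_B [(0, false), (2, false), (2, false), (2, false), (1, false), (1, false), (1, false), (3, false), (3, false), (3, false), (3, false), (0, false), (1, false), (0, false), (2, false), (3, false), (2, false), (0, true)] K4s3_mm_t6 = true := by decide +kernel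

def K4s3_mm_t7 : Tr := o

def K4s3_mm_h7 : subCheck K4s3 false false K4s3_mm_A K4s3_mm_B [(0, false), (2, false), (2, false), (2, false), (1, false), (1, false), (1, false), (3, false), (3, false), (3, false), (3, false), (0, false), (1, false), (0, false), (2, false), (3, false), (2, true)] K4s3_mm_t7 = true := by decide +kernel

def K4s3_mm_t8 : Tr := (n2 (n0 (n1 (n2 o (n0 l (n3 (n0 l l) o))) (n2 o (n0 (n3 (n2 o o) o) (n3 (n0 (n2 o o) (n2 o o)) o)))) (n1 (n2 o l) (n2 o (n3 (n0 (n1 l (n2 o o)) o) o)))) o)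

def K4s3_mm_h8 : subCheck K4s3 false false K4s3_mm_A K4s3_mm_B [(0, false), (2, false), (2, false), (2, false), (1, false), (1, false), (1, false), (3, false), (3, false), (3, false), (3, false), (0, false), (1, false), (0, false), (2, false), (3, true)] K4s3_mm_t8 = true := by decide +kernel

def K4s3_mm_t9 : Tr := o

def K4s3_mm_h9 : subCheck K4s3 false false K4s3_mm_A K4s3_mm_B [(0, false), (2, false), (2, false), (2, false), (1, false), (1, false), (1, false), (3, false), (3, false), (3, false), (3, false), (0, false), (1, false), (0, false), (2, true)] K4s3_mm_t9 = true := by decide +kernel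

def K4s3_mm_t10 : Tr := o

def K4s3_mm_h10 : subCheck K4s3 false false K4s3_mm_A K4s3_mm_B [(0, false), (2, false), (2, false), (2, false), (1, false), (1, false), (1, false), (3, false), (3, false), (3, false), (3, false), (0, false), (1, false), (0, true)] K4s3_mm_t10 = true := by decide +kernel

def K4s3_mm_t11 : Tr := (n0 (n2 (n3 (n0 o (n2 (n1 (n3 l (n0 o o)) o) o)) (n2 (n0 o (n2 o (n1 (n3 (n0 o o) o) o))) o)) o) o)

def K4s3_mm_h11 : subCheck K4s3 false false K4s3_mm_A K4s3_mm_B [(0, false), (2, false), (2, false), (2, false), (1, false), (1, false), (1, false), (3, false), (3, false), (3, false), (3, false), (0, false), (1, true)] K4s3_mm_t11 = true := by decide +kernel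

def K4s3_mm_t12 : Tr := o

def K4s3_mm_h12 : subCheck K4s3 false false K4s3_mm_A K4s3_mm_B [(0, false), (2, false), (2, false), (2, false), (1, false), (1, false), (1, false), (3, false), (3, false), (3, false), (3, false), (0, true)] K4s3_mm_t12 = true := by decide +kernel

def K4s3_mm_t13 : Tr := (n1 (n0 (n0 (n2 o o) o) o) (n0 (n2 o o) o))

def K4s3_mm_h13 : subCheck K4s3 false false K4s3_mm_A K4s3_mm_B [(0, false), (2, false), (2, false), (2, false), (1, false), (1, false), (1, false), (3, false), (3, false), (3, false), (3, true)] K4s3_mm_t13 = true := by decide +kernel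

def K4s3_mm_t14 : Tr := o

def K4s3_mm_h14 : subCheck K4s3 false false K4s3_mm_A K4s3_mm_B [(0, false), (2, false), (2, false), (2, false), (1, false), (1, false), (1, false), (3, false), (3, false), (3, true)] K4s3_mm_t14 = true := by decide +kernel

def K4s3_mm_t15 : Tr := o

def K4s3_mm_h15 : subCheck K4s3 false false K4s3_mm_A K4s3_mm_B [(0, false), (2, false), (2, false), (2, false), (1, false), (1, false), (1, false), (3, false), (3, true)] K4s3_mm_t15 = true := by decide +kernel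

def K4s3_mm_t16 : Tr := o

def K4s3_mm_h16 : subCheck K4s3 false false K4s3_mm_A K4s3_mm_B [(0, false), (2, false), (2, false), (2, false), (1, false), (1, false), (1, false), (3, true)] K4s3_mm_t16 = true := by decide +kernel

def K4s3_mm_t17 : Tr := (n3 (n3 (n3 (n3 (n3 (n0 o o) (n2 (n0 o o) o)) (n2 o o)) o) o) o)

def K4s3_mm_h17 : subCheck K4s3 false false K4s3_mm_A K4s3_mm_B [(0, false), (2, false), (2, false), (2, false), (1, false), (1, false), (1, true)] K4s3_mm_t17 = true := by decide +kernel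

def K4s3_mm_t18 : Tr := o

def K4s3_mm_h18 : subCheck K4s3 false false K4s3_mm_A K4s3_mm_B [(0, false), (2, false), (2, false), (2, false), (1, false), (1, true)] K4s3_mm_t18 = true := by decide +kernel

def K4s3_mm_t19 : Tr := o

def K4s3_mm_h19 : subCheck K4s3 false false K4s3_mm_A K4s3_mm_B [(0, false), (2, false), (2, false), (2, false), (1, true)] K4s3_mm_t19 = true := by decide +kernel

def K4s3_mm_t20 : Tr := o

def K4s3_mm_h20 : subCheck K4s3 false false K4s3_mm_A K4s3_mm_B [(0, false), (2, false), (2, false), (2, true)] K4s3_mm_t20 = true := by decide +kernel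

def K4s3_mm_t21 : Tr := o

def K4s3_mm_h21 : subCheck K4s3 false false K4s3_mm_A K4s3_mm_B [(0, false), (2, false), (2, true)] K4s3_mm_t21 = true := by decide +kernel

def K4s3_mm_t22 : Tr := o

def K4s3_mm_h22 : subCheck K4s3 false false K4s3_mm_A K4s3_mm_B [(0, false), (2, true)] K4s3_mm_t22 = true := by decide +kernel

def K4s3_mm_t23 : Tr := o

def K4s3_mm_h23 : subCheck K4s3 false false K4s3_mm_A K4s3_mm_B [(0, true)] K4s3_mm_t23 = true := by decide +kernel

def K4s3_mm_L : List (Path × Tr) := [([(0, false), (2, false), (2, false), (2, false), (1, false), (1, false), (1, false), (3, false), (3, false), (3, false), (3, false), (0, false), (1, false), (0, false), (2, false), (3, false), (2, false), (0, false), (1, false)], K4s3_mm_t0), ([(0, false), (2, false), (2, false), (2, false), (1, false), (1, false), (1, false), (3, false), (3, false), (3, false), (3, false), (0, false), (1, false), (0, false), (2, false), (3, false), (2, false), (0, false), (1, true), (0,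 false)], K4s3_mm_t1), ([(0, false), (2, false), (2, false), (2, false), (1, false), (1, false), (1, false), (3, false), (3, false), (3, false), (3, false), (0, false), (1, false), (0, false), (2, false), (3, false), (2, false), (0, false), (1, true), (0, true), (2, false)], K4s3_mm_t2), ([(0, false), (2, false), (2, false), (2, false), (1, false), (1, false), (1, false), (3, false), (3, false), (3, false), (3, false), (0, false), (1, false), (0, false), (2, false), (3, false), (2, false), (0, false), (1, true), (0, true), (2, true), (3, false)], K4s3_mm_t3), ([(0, false), (2, false), (2, false), (2, false), (1, false), (1, false), (1, false), (3, false), (3, false), (3, false), (3, false), (0, false), (1, false), (0, false), (2, false), (3, false), (2, false), (0, false), (1, true), (0, true), (2, true), (3, true), (0, false)], K4s3_mm_t4), ([(0, false), (2, false), (2, false), (2, false), (1, false), (1, false), (1, false), (3, false), (3, false), (3, false), (3, false),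 (0, false), (1, false), (0, false), (2, false), (3, false), (2, false), (0, false), (1, true), (0, true), (2, true), (3, true), (0, true)], K4s3_mm_t5), ([(0, false), (2, false), (2, false), (2, false), (1, false), (1, false), (1, false), (3, false), (3, false), (3, false), (3, false), (0, false), (1, false), (0, false), (2, false), (3, false), (2, false), (0, true)], K4s3_mm_t6), ([(0, false), (2, false), (2, false), (2, false), (1, false), (1, false), (1, false), (3, false), (3, false), (3, false), (3, false), (0, false), (1, false), (0, false), (2, false), (3, false), (2, true)], K4s3_mm_t7), ([(0, false), (2, false), (2, false), (2, false), (1, false), (1, false), (1, false), (3, false), (3, false), (3, false), (3, false), (0, false), (1, false), (0, false), (2, false), (3, true)], K4s3_mm_t8), ([(0, false), (2, false), (2, false), (2, false), (1, false), (1, false), (1, false), (3, false), (3, false), (3, false), (3, false), (0, false), (1, false), (0, false),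 (2, true)], K4s3_mm_t9), ([(0, false), (2, false), (2, false), (2, false), (1, false), (1, false), (1, false), (3, false), (3, false), (3, false), (3, false), (0, false), (1, false), (0, true)], K4s3_mm_t10), ([(0, false), (2, false), (2, false), (2, false), (1, false), (1, false), (1, false), (3, false), (3, false), (3, false), (3, false), (0, false), (1, true)], K4s3_mm_t11), ([(0, false), (2, false), (2, false), (2, false), (1, false), (1, false), (1, false), (3, false), (3, false), (3, false), (3, false), (0, true)], K4s3_mm_t12), ([(0, false), (2, false), (2, false), (2, false), (1, false), (1, false), (1, false), (3, false), (3, false), (3, false), (3, true)], K4s3_mm_t13), ([(0, false), (2, false), (2, false), (2, false), (1, false), (1, false), (1, false), (3, false), (3, false), (3, true)], K4s3_mm_t14), ([(0, false), (2, false), (2, false), (2, false), (1, false), (1, false), (1, false), (3, false), (3, true)], K4s3_mm_t15), ([(0, false), (2, false), (2, false),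 (2, false), (1, false), (1, false), (1, false), (3, true)], K4s3_mm_t16), ([(0, false), (2, false), (2, false), (2, false), (1, false), (1, false), (1, true)], K4s3_mm_t17), ([(0, false), (2, false), (2, false), (2, false), (1, false), (1, true)], K4s3_mm_t18), ([(0, false), (2, false), (2, false), (2, false), (1, true)], K4s3_mm_t19), ([(0, false), (2, false), (2, false), (2, true)], K4s3_mm_t20), ([(0, false), (2, false), (2, true)], K4s3_mm_t21), ([(0, false), (2, true)], K4s3_mm_t22), ([(0, true)], K4s3_mm_t23)]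

def K4s3_mm_T : Tr := (n0 (n2 (n2 (n2 (n1 (n1 (n1 (n3 (n3 (n3 (n3 (n0 (n1 (n0 (n2 (n3 (n2 (n0 (n1 l (n0 l (n2 l (n3 l (n0 l l))))) l) l) l) l) l) l) l) l) l) l) l) l) l) l) l) l) l) l)

theorem K4s3_mm_cov : covers (K4s3_mm_L.map (fun e => pathBox e.1 root4)) K4s3_mm_T root4 = true := by decide +kernel

theorem K4s3_mm_all : AllSub K4s3 false false K4s3_mm_A K4s3_mm_B K4s3_mm_L := allSub_cons K4s3_mm_h0 (allSub_cons K4s3_mm_h1 (allSub_cons K4s3_mm_h2 (allSub_cons K4s3_mm_h3 (allSub_cons K4s3_mm_h4 (allSub_cons K4s3_mm_h5 (allSub_cons K4s3_mm_h6 (allSub_cons K4s3_mm_h7 (allSub_cons K4s3_mm_h8 (allSub_cons K4s3_mm_h9 (allSub_cons K4s3_mm_h10 (allSub_cons K4s3_mm_h11 (allSub_cons K4s3_mm_h12 (allSub_cons K4s3_mm_h13 (allSub_cons K4s3_mm_h14 (allSub_cons K4s3_mm_h15 (allSub_cons K4s3_mm_h16 (allSub_cons K4s3_mm_h17 (allSub_cons K4s3_mm_h18 (allSub_cons K4s3_mm_h19 (allSub_cons K4s3_mm_h20 (allSub_cons K4s3_mm_h21 (allSub_cons K4s3_mm_h22 (allSub_cons K4s3_mm_h23 (allSub_nil))))))))))))))))))))))))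

theorem K4s3_hmm : QuadChecked K4s3 false false := quadChecked_intro K4s3_mm_root K4s3_mm_cov K4s3_mm_all

end Vale.Agent.Lib.P154
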