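import Vale.Agent.Lib.P154.Checker

set_option linter.defProp false

namespace Vale.Agent.Lib.P154

private abbrev n0 := Tr.nd 0
private abbrev n1 := Tr.nd 1
private abbrev n2 := Tr.nd 2
private abbrev n3 := Tr.nd 3
private abbrev l := Tr.lf
private abbrev o := Tr.ot

def K5s1 : KCfg where
  W := 336
  room := 11
  roomT := 33
  ns := [5, 3, 5, 3]
  den := 4096
  pp := ⟨1475, (-13998), 79992⟩
  p0 := ⟨3148, (-66807), 521191⟩
  pY := ⟨3148, (-66807), 521191⟩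
  tn := 64
  E := 1048576
  q1 := [1048576, (-3145728), 9437184, (-28311552), 84914951, (-254883898), 777597927, (-2326695366), 4509358594]
  q2 := [1048576, (-6291456), 28311552, (-113246208), 424489175, (-1530236476), 5475554454, (-18435239654), 37578891168]
  q3 := [1048576, (-9437184), 56623104, (-283115520), 1279096119, (-5521210956), 21916384757, (-51085242550)]
  q4 := [1048576, (-12582912), 94371840, (-566231040), 3111378610, (-15481439086), 43343642300]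
  q5 := [1048576, (-15728640), 141557760, (-990904320), 7332600530, (-28710284556)]
  lamA := (115, 256)
  lamB := (115, 256)

theorem K5s1_hwf : wfK K5s1 = true := by decide +kernel

def K5s1_Q : QTrees where
  t1 := ((n0 (n0 (n0 (n0 l (n0 l l)) (n0 (n0 (n0 (n0 l (n0 (n0 l (n0 l o)) o)) o) o) o)) o) o), (n0 (n0 (n0 (n0 (n0 l (n0 l l)) l) o) o) o))
  t2 := ((n0 (n0 (n0 (n0 l (n0 l l)) (n0 (n0 (n0 (n0 l (n0 (n0 l (n0 l o)) o)) o) o) o)) o) o), (n0 (n0 (n0 (n0 (n0 l (n0 l l)) l) o) o) o))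
  t3 := ((n0 (n0 (n0 (n0 (n0 l l) l) (n0 (n0 (n0 (n0 l (n0 (n0 l (n0 l o)) o)) o) o) o)) o) o), (n0 (n0 (n0 (n0 l (n0 (n0 (n0 (n0 l (n0 l o)) o) o) o)) o) o) o))
  t4 := ((n0 (n0 (n0 (n0 l (n0 l l)) l) o) o), (n0 (n0 (n0 (n0 l (n0 (n0 (n0 (n0 l (n0 l o)) o) o) o)) o) o) o))
  t5 := ((n0 (n0 (n0 l (n0 (n0 (n0 (n0 l (n0 l o)) o) o) o)) o) o), (n0 (n0 (n0 (n0 l (n0 (n0 (n0 (n0 l (n0 l o)) o) o) o)) o) o) o))

def K5s1_hq : allQ K5s1 112 K5s1_Q = true := by decide +kernel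

def K5s1_pp_A : Nat := (rootPP K5s1 true true).elim 0 (fun x => x.1)

def K5s1_pp_B : Nat := (rootPP K5s1 true true).elim 0 (fun x => x.2)

def K5s1_pp_root : rootCheck K5s1 true true K5s1_pp_A K5s1_pp_B = true := by decide +kernel

def K5s1_pp_t0 : Tr := (n3 (n3 (n3 (n3 (n3 (n1 (n3 (n0 (n3 (n2 l o) (n2 l o)) o) (n2 (n1 (n0 (n3 l l) o) (n0 (n3 l l) o)) (n0 (n3 (n0 (n3 o (n2 (n1 l (n2 l o)) o)) (n2 (n1 (n3 o (n2 (n1 l (n0 l (n2 l o))) o)) (n3 o (n2 (n1 (n0 l (n2 l o)) (n0 l (n2 (n0 l (n3 (n1 (n2 l o) (n2 l o)) (n1 l (n2 l o)))) o))) o))) o)) (n2 (n1 (n3 (n0 l (n2 l o)) l) (n3 (n0 l (n2 (n1 (n0 l (n2 l (n3 o l))) (n0 l (n2 l (n3 o (n0 l (n1 l (n3 o l))))))) o)) (n0 l (n1 (n2 l o) (n2 l o))))) o)) o))) (n3 (n0 (n3 (n2 (n1 l l) o) (n2 (n1 l l) o)) (n2 (n1 (n2 (n1 o (n0 (n3 l (n0 l o)) o)) (n0 (n3 (n1 o (n0 (n3 l (n2 l (n0 l o))) o)) (n1 o (n0 (n3 (n2 l (n0 l o)) (n2 l (n0 (n2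 l (n1 (n3 (n0 l o) (n0 l o)) (n3 l (n0 l o)))) o))) o))) o)) (n0 (n3 (n1 (n2 l (n0 l o)) l) (n1 (n2 l (n0 (n3 (n2 l (n0 l (n1 o l))) (n2 l (n0 l (n1 o (n2 l (n3 l (n1 o l))))))) o)) (n2 l (n3 (n0 l o) (n0 l o))))) o)) o)) (n0 (n3 (n2 (n1 l l) (n0 (n3 o (n2 l o)) (n1 (n2 (n3 o (n2 (n1 (n0 l (n2 (n0 l (n3 (n1 (n2 l o) (n2 l o)) (n1 (n2 l o) (n2 l o)))) o)) (n0 l (n2 (n0 l (n3 (n1 (n2 l o) (n2 l o)) (n1 (n2 l o) (n2 l o)))) o))) o)) o) (n2 (n3 o (n2 (n1 (n0 l (n2 l o)) (n0 l (n2 l o))) o)) o)))) (n2 (n1 l l) (n1 (n3 (n2 (n0 l (n2 (n1 (n0 l (n2 l (n3 o (n0 l (n1 (n2 l o) (n2 (n0 l (n3 o l)) o)))))) (n0 l (n2 l (n3 o (n0 l (n1 (n2 (n0 l (n3 o l)) o) (n2 (n0 l (n3 o l)) o))))))) o)) o) (n2 (n0 l (n1 (n2 l o) (n0 l (n2 l o)))) o)) (n3 (n2 (n0 l (n2 (n1 (n0 l (n2 l (n3 o (n0 l (n1 (n2 l o) (n2 l o)))))) (n0 l (n2 l (n0 l (n1 (n2 l o) l))))) o)) o) (n0 (n2 l o) (n2 (n1 (n0 l (n2 l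 o)) (n2 l o)) o)))))) (n2 (n1 (n2 (n1 o (n0 l o)) (n3 (n0 (n1 o (n0 (n3 (n2 l (n0 (n2 l (n1 (n3 (n0 l o) (n0 l o)) (n3 (n0 l o) (n0 l o)))) o)) (n2 l (n0 (n2 l (n1 (n3 (n0 l o) (n0 l o)) (n3 (n0 l o) (n0 l o)))) o))) o)) o) (n0 (n1 o (n0 (n3 (n2 l (n0 l o)) (n2 l (n0 l o))) o)) o))) (n3 (n1 (n0 (n2 l (n0 (n3 (n2 l (n0 l (n1 o (n2 l (n3 (n0 l o) (n0 (n2 l (n1 o l)) o)))))) (n2 l (n0 l (n1 o (n2 l (n3 (n0 (n2 l (n1 o l)) o) (n0 (n2 l (n1 o l)) o))))))) o)) o) (n0 (n2 l (n3 (n0 l o) (n2 l (n0 l o)))) o)) (n1 (n0 (n2 l (n0 (n3 (n2 l (n0 l (n1 o (n2 l (n3 (n0 l o) (n0 l o)))))) (n2 l (n0 l (n2 l (n3 (n0 l o) l))))) o)) o) (n2 (n0 l o) (n0 (n3 (n2 l (n0 l o)) (n0 l o)) o))))) (n1 (n3 (n0 (n2 (n0 (n1 o (n3 o (n2 (n0 (n2 (n1 (n3 (n0 (n2 (n0 (n2 l o) o) o) o) (n0 (n2 (n2 l (n0 l o)) o) o)) (n3 (n2 (n0 (n0 l (n2 l o)) o) o) (n0 (n2 (n0 l (n2 l (n1 o (n2 l o)))) o) o))) o) o) o))) o)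 o) o) (n0 (n2 (n3 (n1 o (n0 (n2 (n0 (n2 (n1 (n3 (n0 (n2 l (n3 (n2 (n0 l o) o) (n0 (n2 l o) o))) o) (n0 (n2 l (n3 (n0 l o) l)) o)) (n3 (n0 (n2 l (n2 (n0 l (n3 (n1 o (n0 l o)) l)) o)) o) (n0 (n2 l (n3 (n0 l (n2 l (n1 o l))) l)) o))) (n3 o (n1 (n0 (n2 (n3 o (n0 (n3 o l) o)) o) o) (n0 (n2 (n3 o (n0 (n2 l o) (n2 (n3 o l) o))) o) o)))) o) o) o)) (n1 o (n0 (n2 (n0 (n3 (n2 (n1 (n0 l o) (n0 l o)) (n1 (n3 (n0 (n2 l o) o) (n0 (n2 l o) o)) (n0 (n3 (n2 l o) (n2 l o)) o))) (n2 l (n1 (n3 (n0 l o) l) (n3 (n0 l o) l)))) o) o) o))) o) o)) (n3 (n2 (n0 (n1 (n3 o (n2 (n0 (n2 (n0 (n3 (n1 (n2 (n0 l (n1 (n0 (n2 l o) o) (n2 (n0 l o) o))) o) (n2 (n0 l (n1 (n2 l o) l)) o)) (n1 (n2 (n0 l (n0 (n2 l (n1 (n3 o (n2 l o)) l)) o)) o) (n2 (n0 l (n1 (n2 l (n0 l (n3 o l))) l)) o))) (n1 o (n3 (n2 (n0 (n1 o (n2 (n1 o l) o)) o) o) (n2 (n0 (n1 o (n2 (n0 l o) (n0 (n1 o l) o))) o) o)))) o) o) o)) (n3 o (n2 (n0 (n2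 (n1 (n0 (n3 (n2 l o) (n2 l o)) (n3 (n1 (n2 (n0 l o) o) (n2 (n0 l o) o)) (n2 (n1 (n0 l o) (n0 l o)) o))) (n0 l (n3 (n1 (n2 l o) l) (n1 (n2 l o) l)))) o) o) o))) o) o) (n0 (n2 (n1 (n3 (n0 (n2 (n0 (n2 (n1 (n3 (n0 (n2 l (n2 l o)) (n2 (n0 l o) (n0 (n2 (n1 (n3 (n0 (n2 l o) o) (n3 (n0 l o) (n0 l o))) (n3 (n1 (n2 l o) (n2 l o)) l)) o) o))) (n0 l (n2 l (n3 (n0 (n2 l (n1 (n3 (n0 (n2 l o) o) (n0 l o)) (n3 (n0 l (n2 l o)) l))) o) (n0 l o))))) (n3 (n2 l (n0 l (n1 (n2 (n0 l (n3 (n1 (n2 (n0 l o) o) (n2 l o)) (n1 (n2 l (n0 l o)) l))) o) (n2 l o)))) (n0 l (n2 l (n1 (n3 (n0 l (n2 l (n1 (n3 (n0 (n2 l o) o) (n0 l o)) (n3 (n2 l o) l)))) l) l))))) (n3 o (n1 (n0 (n2 (n3 o (n0 l (n2 l o))) o) (n2 (n3 o (n0 (n2 (n1 (n3 o (n0 l o)) (n3 o l)) o) o)) o)) (n2 (n0 (n3 o l) (n3 o (n0 (n2 l o) (n2 (n1 (n3 o (n0 l o)) (n3 o l)) o)))) o)))) (n2 (n1 o (n3 (n2 (n0 (n1 o (n2 l (n0 l o))) o) (n0 (n1 o (n2 (n0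 (n3 (n1 o (n2 l o)) (n1 o l)) o) o)) o)) (n0 (n2 (n1 o l) (n1 o (n2 (n0 l o) (n0 (n3 (n1 o (n2 l o)) (n1 o l)) o)))) o))) (n1 o (n3 o (n0 (n2 (n1 o (n3 o (n0 (n2 (n1 o (n3 o (n0 l o))) o) o))) o) o))))) o) o) (n0 (n2 (n0 (n2 l (n3 (n1 (n0 (n2 l o) (n2 (n3 (n0 (n2 l o) o) (n0 l o)) o)) (n0 (n2 l o) (n2 (n3 (n0 l (n2 l o)) l) o))) (n1 (n3 (n0 l (n2 l (n3 (n0 l o) (n0 l o)))) l) (n3 (n0 l (n2 l (n3 (n0 l (n2 l o)) l))) l)))) (n2 (n1 o (n3 (n0 (n2 l (n3 (n0 l o) (n0 l o))) o) (n0 l o))) (n1 o (n3 (n0 (n2 (n3 (n0 (n2 (n1 o (n3 (n1 o l) l)) o) o) (n0 (n2 l (n3 (n1 o (n1 o l)) (n1 o l))) o)) o) o) (n0 (n3 (n2 (n0 l o) (n3 (n0 (n2 (n1 o (n3 o l)) o) o) (n0 (n2 l o) o))) (n2 l (n3 (n0 (n2 l o) o) (n0 l o)))) o))))) o) o)) (n3 (n2 (n0 (n2 (n0 l (n1 (n3 (n2 (n0 l o) (n0 (n1 (n2 (n0 l o) o) (n2 l o)) o)) (n2 (n0 l o) (n0 (n1 (n2 l (n0 l o)) l) o))) (n3 (n1 (n2 l (n0 l (n1 (n2 l o) (n2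 l o)))) l) (n1 (n2 l (n0 l (n1 (n2 l (n0 l o)) l))) l)))) (n0 (n3 o (n1 (n2 (n0 l (n1 (n2 l o) (n2 l o))) o) (n2 l o))) (n3 o (n1 (n2 (n0 (n1 (n2 (n0 (n3 o (n1 (n3 o l) l)) o) o) (n2 (n0 l (n1 (n3 o (n3 o l)) (n3 o l))) o)) o) o) (n2 (n1 (n0 (n2 l o) (n1 (n2 (n0 (n3 o (n1 o l)) o) o) (n2 (n0 l o) o))) (n0 l (n1 (n2 (n0 l o) o) (n2 l o)))) o))))) o) o) (n0 (n2 (n0 (n3 (n2 l (n1 (n2 l o) l)) l) (n2 (n1 (n3 (n0 l o) l) l) (n1 (n3 (n0 (n2 (n1 (n3 (n0 (n2 l o) o) (n0 l o)) (n3 (n2 l o) l)) o) o) (n0 (n3 (n2 l (n1 (n3 (n0 (n2 l o) o) (n0 l o)) (n3 (n0 l (n2 l o)) l))) l) o)) (n3 (n2 (n1 (n0 l (n3 (n1 (n2 (n0 l o) o) (n2 l o)) (n1 (n2 l (n0 l o)) l))) l) o) (n0 l (n2 l (n1 (n3 (n0 (n2 l o) o) (n3 (n0 l o) l)) (n3 (n1 (n2 l o) l) l)))))))) o) o))) o) o))))))) (n1 (n3 (n2 (n1 l (n0 l o)) (n0 (n3 (n1 (n3 (n2 l o) l) (n3 (n0 l (n2 l o)) l)) l) o)) l) (n3 (n2 (n1 (n0 l (n3 (n1 o (n0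 (n2 o (n0 l o)) o)) o)) (n0 l (n3 (n1 (n0 (n2 o (n3 (n0 l o) o)) o) (n0 (n2 o (n0 l o)) o)) o))) (n0 (n3 (n1 (n3 (n0 l (n2 (n1 l (n0 l (n3 (n2 l (n0 l (n3 (n2 l o) l))) l))) o)) l) (n3 (n0 l (n2 l o)) l)) l) (n1 (n3 (n0 (n3 (n2 (n1 o (n0 (n2 (n3 (n0 l o) l) (n3 (n0 (n3 (n2 (n1 (n0 l o) (n0 l o)) o) (n2 l o)) o) (n0 l o))) o)) o) (n2 (n1 o (n0 l o)) (n1 o (n3 o (n0 (n3 o l) o))))) o) (n3 (n0 (n3 (n1 o (n0 l o)) l) o) (n0 l o))) (n3 (n0 (n3 (n2 (n1 (n0 (n2 (n3 (n0 l (n1 o (n2 l (n3 (n0 l o) (n0 l o))))) l) (n3 (n0 (n3 (n2 (n1 (n0 l (n2 l o)) (n0 l (n2 l o))) o) (n2 l o)) (n2 (n1 o (n3 (n0 (n2 (n3 o (n0 l o)) o) o) (n0 (n3 (n2 l o) l) o))) o)) (n0 l (n3 (n1 o (n2 (n0 l o) o)) (n1 o (n2 l o)))))) o) (n0 (n2 (n3 (n0 l (n2 l (n3 (n1 (n0 l o) l) l))) l) (n3 (n0 (n2 l o) (n2 (n1 (n3 (n0 (n2 (n3 o l) o) o) (n0 l o)) (n3 (n0 (n2 l o) (n2 (n1 (n3 o l) l) o)) (n0 l (n2 l o)))) o)) (n0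 l (n3 (n1 (n2 (n0 l o) o) (n2 l o)) (n1 (n2 l o) l))))) o)) o) (n2 (n1 (n0 l o) (n0 l o)) (n1 (n3 o (n0 (n3 o l) o)) (n3 o (n0 (n3 o l) o))))) o) (n3 (n0 (n3 (n1 (n0 l o) (n0 l o)) l) o) (n0 l o)))))) (n2 o (n1 l l))))) o) o) o) o)

def K5s1_pp_h0 : subCheck K5s1 true true K5s1_pp_A K5s1_pp_B [(0, false), (0, false), (0, false), (0, false), (2, false), (2, false), (2, false), (2, false), (1, false), (1, false), (1, false), (1, false), (1, false)] K5s1_pp_t0 = true := by decide +kernel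

def K5s1_pp_t1 : Tr := (n1 (n0 (n3 l (n2 l o)) (n2 (n1 (n3 (n1 (n0 l o) l) (n1 (n2 l (n0 l o)) l)) l) o)) l)

def K5s1_pp_h1 : subCheck K5s1 true true K5s1_pp_A K5s1_pp_B [(0, false), (0, false), (0, false), (0, false), (2, false), (2, false), (2, false), (2, false), (1, false), (1, false), (1, false), (1, false), (1, true), (3, false), (3, false), (3, false), (3, false), (3, false), (3, false)] K5s1_pp_t1 = true := by decide +kernel

def K5s1_pp_t2 : Tr := (n3 (n2 l (n1 (n3 o (n2 (n0 o (n2 l o)) o)) o)) (n2 l (n1 (n3 (n2 (n0 o (n1 (n2 l o) o)) o) (n2 (n0 o (n2 l o)) o)) o)))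

def K5s1_pp_h2 : subCheck K5s1 true true K5s1_pp_A K5s1_pp_B [(0, false), (0, false), (0, false), (0, false), (2, false), (2, false), (2, false), (2, false), (1, false), (1, false), (1, false), (1, false), (1, true), (3, false), (3, false), (3, false), (3, false), (3, false), (3, true), (1, false), (0, false)] K5s1_pp_t2 = true := by decide +kernel

def K5s1_pp_t3 : Tr := (n2 (n1 (n3 (n1 (n2 l (n0 (n3 l (n2 l (n1 (n0 l (n2 l (n1 (n0 l o) l))) l))) o)) l) (n1 (n2 l (n0 l o)) l)) l) (n3 (n1 (n2 (n1 (n0 (n3 o (n2 (n0 (n1 (n2 l o) l) (n1 (n2 (n1 (n0 (n3 (n2 l o) (n2 l o)) o) (n0 l o)) o) (n2 l o))) o)) o) (n0 (n3 o (n2 l o)) (n3 o (n1 o (n2 (n1 o l) o))))) o) (n1 (n2 (n1 (n3 o (n2 l o)) l) o) (n2 l o))) (n1 (n2 (n1 (n0 (n3 (n2 (n0 (n1 (n2 l (n3 o (n0 l (n1 (n2 l o) (n2 l o))))) l) (n1 (n2 (n1 (n0 (n3 (n2 l (n0 l o)) (n2 l (n0 l o))) o) (n0 l o)) (n0 (n3 o (n1 (n2 (n0 (n1 o (n2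 l o)) o) o) (n2 (n1 (n0 l o) l) o))) o)) (n2 l (n1 (n3 o (n0 (n2 l o) o)) (n3 o (n0 l o)))))) o) (n2 (n0 (n1 (n2 l (n0 l (n1 (n3 (n2 l o) l) l))) l) (n1 (n2 (n0 l o) (n0 (n3 (n1 (n2 (n0 (n1 o l) o) o) (n2 l o)) (n1 (n2 (n0 l o) (n0 (n3 (n1 o l) l) o)) (n2 l (n0 l o)))) o)) (n2 l (n1 (n3 (n0 (n2 l o) o) (n0 l o)) (n3 (n0 l o) l))))) o)) o) (n0 (n3 (n2 l o) (n2 l o)) (n3 (n1 o (n2 (n1 o l) o)) (n1 o (n2 (n1 o l) o))))) o) (n1 (n2 (n1 (n3 (n2 l o) (n2 l o)) l) o) (n2 l o)))))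

def K5s1_pp_h3 : subCheck K5s1 true true K5s1_pp_A K5s1_pp_B [(0, false), (0, false), (0, false), (0, false), (2, false), (2, false), (2, false), (2, false), (1, false), (1, false), (1, false), (1, false), (1, true), (3, false), (3, false), (3, false), (3, false), (3, false), (3, true), (1, false), (0, true)] K5s1_pp_t3 = true := by decide +kernel

def K5s1_pp_t4 : Tr := (n0 o (n3 l l))

def K5s1_pp_h4 : subCheck K5s1 true true K5s1_pp_A K5s1_pp_B [(0, false), (0, false), (0, false), (0, false), (2, false), (2, false), (2, false), (2, false), (1, false), (1, false), (1, false), (1, false), (1, true), (3, false), (3, false), (3, false), (3, false), (3, false), (3, true), (1, true)] K5s1_pp_t4 = true := by decide +kernel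

def K5s1_pp_t5 : Tr := (n1 (n3 (n1 (n3 (n0 (n2 l (n3 (n0 o (n2 l o)) l)) (n2 (n1 (n2 o (n0 l o)) l) (n1 (n3 (n0 (n2 (n0 (n2 l (n3 (n1 (n2 (n0 l (n3 (n1 (n2 l o) l) l)) o) (n2 l o)) l)) (n2 (n1 (n3 (n0 (n2 l (n1 (n3 (n0 l o) l) l)) o) (n0 l o)) l) (n1 (n3 (n0 (n2 (n1 (n3 (n0 (n2 (n1 o l) o) o) (n0 (n2 l o) o)) (n3 (n2 (n0 l o) o) (n0 l o))) o) o) (n0 (n3 (n2 (n1 (n0 l o) l) o) (n2 l o)) o)) (n3 (n2 (n1 (n0 (n3 (n2 l o) l) o) (n0 l o)) o) (n0 (n2 l o) o))))) o) o) (n0 (n2 (n0 l (n3 (n2 l (n1 (n0 l o) l)) l)) (n3 o (n0 l (n3 o (n0 l o))))) o)) (n3 (n2 (n0 (n2 l (n1 (n0 l (n3 (n2 l o) l)) l)) (n1 o (n2 l (n1 o (n2 l o))))) o) (n0 (n2 l (n3 o (n3 o l))) (n2 (n1 o (n1 o l)) (n1 o (n3 o (n0 (n3 o l) o))))))))) (n2 o (n0 l (n3 (n1 (n0 l o) (n0 l (n3 (n1 o l) l))) l)))) (n0 o (n3 (n2 l (n1 (n3 (n2 l o) (n2 l (n1 (n3 o l) l))) l)) l))) l) l)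

def K5s1_pp_h5 : subCheck K5s1 true true K5s1_pp_A K5s1_pp_B [(0, false), (0, false), (0, false), (0, false), (2, false), (2, false), (2, false), (2, false), (1, false), (1, false), (1, false), (1, false), (1, true), (3, false), (3, false), (3, false), (3, false), (3, true)] K5s1_pp_t5 = true := by decide +kernel

def K5s1_pp_t6 : Tr := o

def K5s1_pp_h6 : subCheck K5s1 true true K5s1_pp_A K5s1_pp_B [(0, false), (0, false), (0, false), (0, false), (2, false), (2, false), (2, false), (2, false), (1, false), (1, false), (1, false), (1, false), (1, true), (3, false), (3, false), (3, false), (3, true)] K5s1_pp_t6 = true := by decide +kernel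

def K5s1_pp_t7 : Tr := o

def K5s1_pp_h7 : subCheck K5s1 true true K5s1_pp_A K5s1_pp_B [(0, false), (0, false), (0, false), (0, false), (2, false), (2, false), (2, false), (2, false), (1, false), (1, false), (1, false), (1, false), (1, true), (3, false), (3, false), (3, true)] K5s1_pp_t7 = true := by decide +kernel

def K5s1_pp_t8 : Tr := o

def K5s1_pp_h8 : subCheck K5s1 true true K5s1_pp_A K5s1_pp_B [(0, false), (0, false), (0, false), (0, false), (2, false), (2, false), (2, false), (2, false), (1, false), (1, false), (1, false), (1, false), (1, true), (3, false), (3, true)] K5s1_pp_t8 = true := by decide +kernel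

def K5s1_pp_t9 : Tr := o

def K5s1_pp_h9 : subCheck K5s1 true true K5s1_pp_A K5s1_pp_B [(0, false), (0, false), (0, false), (0, false), (2, false), (2, false), (2, false), (2, false), (1, false), (1, false), (1, false), (1, false), (1, true), (3, true)] K5s1_pp_t9 = true := by decide +kernel

def K5s1_pp_t10 : Tr := o

def K5s1_pp_h10 : subCheck K5s1 true true K5s1_pp_A K5s1_pp_B [(0, false), (0, false), (0, false), (0, false), (2, false), (2, false), (2, false), (2, false), (1, false), (1, false), (1, false), (1, true)] K5s1_pp_t10 = true := by decide +kernel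

def K5s1_pp_t11 : Tr := o

def K5s1_pp_h11 : subCheck K5s1 true true K5s1_pp_A K5s1_pp_B [(0, false), (0, false), (0, false), (0, false), (2, false), (2, false), (2, false), (2, false), (1, false), (1, false), (1, true)] K5s1_pp_t11 = true := by decide +kernel

def K5s1_pp_t12 : Tr := o

def K5s1_pp_h12 : subCheck K5s1 true true K5s1_pp_A K5s1_pp_B [(0, false), (0, false), (0, false), (0, false), (2, false), (2, false), (2, false), (2, false), (1, false), (1, true)] K5s1_pp_t12 = true := by decide +kernel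

def K5s1_pp_t13 : Tr := o

def K5s1_pp_h13 : subCheck K5s1 true true K5s1_pp_A K5s1_pp_B [(0, false), (0, false), (0, false), (0, false), (2, false), (2, false), (2, false), (2, false), (1, true)] K5s1_pp_t13 = true := by decide +kernel

def K5s1_pp_t14 : Tr := (n2 (n1 (n1 (n1 (n1 (n1 (n3 (n3 (n3 (n3 (n3 o (n3 o l)) o) o) o) o) (n3 (n3 (n3 (n3 (n3 o (n3 o l)) o) o) o) o)) o) o) o) o) o)

def K5s1_pp_h14 : subCheck K5s1 true true K5s1_pp_A K5s1_pp_B [(0, false), (0, false), (0, false), (0, false), (2, false), (2, false), (2, false), (2, true)] K5s1_pp_t14 = true := by decide +kernel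

def K5s1_pp_t15 : Tr := o

def K5s1_pp_h15 : subCheck K5s1 true true K5s1_pp_A K5s1_pp_B [(0, false), (0, false), (0, false), (0, false), (2, false), (2, false), (2, true)] K5s1_pp_t15 = true := by decide +kernel

def K5s1_pp_t16 : Tr := o

def K5s1_pp_h16 : subCheck K5s1 true true K5s1_pp_A K5s1_pp_B [(0, false), (0, false), (0, false), (0, false), (2, false), (2, true)] K5s1_pp_t16 = true := by decide +kernel

def K5s1_pp_t17 : Tr := o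

def K5s1_pp_h17 : subCheck K5s1 true true K5s1_pp_A K5s1_pp_B [(0, false), (0, false), (0, false), (0, false), (2, true)] K5s1_pp_t17 = true := by decide +kernel

def K5s1_pp_t18 : Tr := (n0 (n2 (n2 (n2 (n2 (n1 (n1 (n1 (n1 (n1 o (n3 (n3 (n3 (n3 (n3 (n1 o l) (n1 o l)) o) o) o) o)) o) o) o) o) (n2 (n1 (n1 (n1 (n1 (n1 o (n3 (n3 (n3 (n3 (n3 o (n1 o (n1 (n3 o l) l))) o) o) o) o)) o) o) o) o) o)) o) o) o) o)

def K5s1_pp_h18 : subCheck K5s1 true true K5s1_pp_A K5s1_pp_B [(0, false), (0, false), (0, false), (0, true)] K5s1_pp_t18 = true := by decide +kernel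

def K5s1_pp_t19 : Tr := o

def K5s1_pp_h19 : subCheck K5s1 true true K5s1_pp_A K5s1_pp_B [(0, false), (0, false), (0, true)] K5s1_pp_t19 = true := by decide +kernel

def K5s1_pp_t20 : Tr := o

def K5s1_pp_h20 : subCheck K5s1 true true K5s1_pp_A K5s1_pp_B [(0, false), (0, true)] K5s1_pp_t20 = true := by decide +kernel

def K5s1_pp_t21 : Tr := o

def K5s1_pp_h21 : subCheck K5s1 true true K5s1_pp_A K5s1_pp_B [(0, true)] K5s1_pp_t21 = true := by decide +kernel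

def K5s1_pp_L : List (Path × Tr) := [([(0, false), (0, false), (0, false), (0, false), (2, false), (2, false), (2, false), (2, false), (1, false), (1, false), (1, false), (1, false), (1, false)], K5s1_pp_t0), ([(0, false), (0, false), (0, false), (0, false), (2, false), (2, false), (2, false), (2, false), (1, false), (1, false), (1, false), (1, false), (1, true), (3, false), (3, false), (3, false), (3, false), (3, false), (3, false)], K5s1_pp_t1), ([(0, false), (0, false), (0, false), (0, false), (2, false), (2, false), (2, false), (2, false), (1, false), (1, false), (1, false), (1, false), (1, true), (3, false), (3, false), (3, false), (3, false), (3, false), (3, true), (1, false), (0, false)], K5s1_pp_t2), ([(0, false), (0, false), (0, false), (0, false), (2, false), (2, false), (2, false), (2, false), (1, false), (1, false), (1, false), (1, false), (1, true), (3, false),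 (3, false), (3, false), (3, false), (3, false), (3, true), (1, false), (0, true)], K5s1_pp_t3), ([(0, false), (0, false), (0, false), (0, false), (2, false), (2, false), (2, false), (2, false), (1, false), (1, false), (1, false), (1, false), (1, true), (3, false), (3, false), (3, false), (3, false), (3, false), (3, true), (1, true)], K5s1_pp_t4), ([(0, false), (0, false), (0, false), (0, false), (2, false), (2, false), (2, false), (2, false), (1, false), (1, false), (1, false), (1, false), (1, true), (3, false), (3, false), (3, false), (3, false), (3, true)], K5s1_pp_t5), ([(0, false), (0, false), (0, false), (0, false), (2, false), (2, false), (2, false), (2, false), (1, false), (1, false), (1, false), (1, false), (1, true), (3, false), (3, false), (3, false), (3, true)], K5s1_pp_t6), ([(0, false), (0, false), (0, false), (0, false), (2, false), (2, false), (2, false), (2,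 false), (1, false), (1, false), (1, false), (1, false), (1, true), (3, false), (3, false), (3, true)], K5s1_pp_t7), ([(0, false), (0, false), (0, false), (0, false), (2, false), (2, false), (2, false), (2, false), (1, false), (1, false), (1, false), (1, false), (1, true), (3, false), (3, true)], K5s1_pp_t8), ([(0, false), (0, false), (0, false), (0, false), (2, false), (2, false), (2, false), (2, false), (1, false), (1, false), (1, false), (1, false), (1, true), (3, true)], K5s1_pp_t9), ([(0, false), (0, false), (0, false), (0, false), (2, false), (2, false), (2, false), (2, false), (1, false), (1, false), (1, false), (1, true)], K5s1_pp_t10), ([(0, false), (0, false), (0, false), (0, false), (2, false), (2, false), (2, false), (2, false), (1, false), (1, false), (1, true)], K5s1_pp_t11), ([(0, false), (0, false), (0, false), (0, false), (2, false), (2, false), (2, false),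 (2, false), (1, false), (1, true)], K5s1_pp_t12), ([(0, false), (0, false), (0, false), (0, false), (2, false), (2, false), (2, false), (2, false), (1, true)], K5s1_pp_t13), ([(0, false), (0, false), (0, false), (0, false), (2, false), (2, false), (2, false), (2, true)], K5s1_pp_t14), ([(0, false), (0, false), (0, false), (0, false), (2, false), (2, false), (2, true)], K5s1_pp_t15), ([(0, false), (0, false), (0, false), (0, false), (2, false), (2, true)], K5s1_pp_t16), ([(0, false), (0, false), (0, false), (0, false), (2, true)], K5s1_pp_t17), ([(0, false), (0, false), (0, false), (0, true)], K5s1_pp_t18), ([(0, false), (0, false), (0, true)], K5s1_pp_t19), ([(0, false), (0, true)], K5s1_pp_t20), ([(0, true)], K5s1_pp_t21)]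

def K5s1_pp_T : Tr := (n0 (n0 (n0 (n0 (n2 (n2 (n2 (n2 (n1 (n1 (n1 (n1 (n1 l (n3 (n3 (n3 (n3 (n3 (n3 l (n1 (n0 l l) l)) l) l) l) l) l)) l) l) l) l) l) l) l) l) l) l) l) l)

theorem K5s1_pp_cov : covers (K5s1_pp_L.map (fun e => pathBox e.1 root4)) K5s1_pp_T root4 = true := by decide +kernel

theorem K5s1_pp_all : AllSub K5s1 true true K5s1_pp_A K5s1_pp_B K5s1_pp_L := allSub_cons K5s1_pp_h0 (allSub_cons K5s1_pp_h1 (allSub_cons K5s1_pp_h2 (allSub_cons K5s1_pp_h3 (allSub_cons K5s1_pp_h4 (allSub_cons K5s1_pp_h5 (allSub_cons K5s1_pp_h6 (allSub_cons K5s1_pp_h7 (allSub_cons K5s1_pp_h8 (allSub_cons K5s1_pp_h9 (allSub_cons K5s1_pp_h10 (allSub_cons K5s1_pp_h11 (allSub_cons K5s1_pp_h12 (allSub_cons K5s1_pp_h13 (allSub_cons K5s1_pp_h14 (allSub_cons K5s1_pp_h15 (allSub_cons K5s1_pp_h16 (allSub_cons K5s1_pp_h17 (allSub_cons K5s1_pp_h18 (allSub_cons K5s1_pp_h19 (allSub_cons K5s1_pp_h20 (allSub_cons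 K5s1_pp_h21 (allSub_nil))))))))))))))))))))))

theorem K5s1_hpp : QuadChecked K5s1 true true := quadChecked_intro K5s1_pp_root K5s1_pp_cov K5s1_pp_all

def K5s1_pm_A : Nat := (rootPP K5s1 true false).elim 0 (fun x => x.1)

def K5s1_pm_B : Nat := (rootPP K5s1 true false).elim 0 (fun x => x.2)

def K5s1_pm_root : rootCheck K5s1 true false K5s1_pm_A K5s1_pm_B = true := by decide +kernel

def K5s1_pm_t0 : Tr := (n2 (n2 (n2 (n2 (n1 (n1 (n1 (n1 (n1 (n3 (n3 (n3 (n3 (n3 (n1 (n3 (n0 (n2 (n2 (n0 (n2 (n0 (n2 (n3 (n0 (n1 (n2 (n0 (n2 (n3 (n0 (n1 (n2 (n0 (n2 (n3 (n0 (n1 (n2 (n0 (n2 (n3 (n0 (n1 (n2 (n0 (n2 (n3 l (n0 (n1 (n2 (n0 (n2 o l) l) l) l) l)) l) l) l) l) l) (n0 (n1 (n2 (n0 (n2 o l) l) l) (n2 (n0 (n2 o l) l) l)) l)) l) l) l) l) l) (n0 (n1 (n2 (n0 (n2 o l) l) l) (n2 (n0 (n2 o l) l) l)) l)) l) l) l) l) l) (n0 (n1 (n2 (n0 (n2 o l) l) l) (n2 (n0 (n2 o l) l) l)) l)) l) l) l) l) l) (n0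 (n1 (n2 (n0 (n2 o l) l) l) (n2 (n2 o l) l)) l)) l) l) l) l) l) o) o) (n2 (n1 (n2 (n0 (n2 (n0 (n2 o l) l) l) o) (n0 l o)) (n2 (n0 (n2 (n0 (n2 o l) l) l) o) (n0 l o))) o)) (n3 (n0 (n1 l l) (n2 (n1 (n0 (n1 o (n3 (n0 l o) l)) o) (n0 l o)) o)) (n2 (n1 (n2 (n0 (n2 (n2 o l) l) (n1 o (n0 l o))) (n0 l (n0 l o))) (n2 (n0 l (n0 l o)) (n0 l (n0 l o)))) o))) (n2 (n1 (n2 o (n1 l (n0 l o))) (n2 o (n1 (n0 l (n1 o l)) l))) o)) o) o) o) o) (n3 (n3 (n3 (n3 (n3 (n1 (n3 (n2 l o) l) l) l) o) o) o) o)) o) o) o) o) o) o) o) o)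

def K5s1_pm_h0 : subCheck K5s1 true false K5s1_pm_A K5s1_pm_B [(0, false), (0, false), (0, false), (0, false)] K5s1_pm_t0 = true := by decide +kernel

def K5s1_pm_t1 : Tr := (n0 (n2 (n2 (n2 (n2 (n1 (n1 (n1 (n1 (n1 o (n3 (n3 (n3 (n3 (n3 (n1 o l) (n2 (n1 o l) o)) o) o) o) o)) o) o) o) o) o) o) o) o) o)

def K5s1_pm_h1 : subCheck K5s1 true false K5s1_pm_A K5s1_pm_B [(0, false), (0, false), (0, false), (0, true)] K5s1_pm_t1 = true := by decide +kernel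

def K5s1_pm_t2 : Tr := o

def K5s1_pm_h2 : subCheck K5s1 true false K5s1_pm_A K5s1_pm_B [(0, false), (0, false), (0, true)] K5s1_pm_t2 = true := by decide +kernel

def K5s1_pm_t3 : Tr := o

def K5s1_pm_h3 : subCheck K5s1 true false K5s1_pm_A K5s1_pm_B [(0, false), (0, true)] K5s1_pm_t3 = true := by decide +kernel

def K5s1_pm_t4 : Tr := o

def K5s1_pm_h4 : subCheck K5s1 true false K5s1_pm_A K5s1_pm_B [(0, true)] K5s1_pm_t4 = true := by decide +kernel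

def K5s1_pm_L : List (Path × Tr) := [([(0, false), (0, false), (0, false), (0, false)], K5s1_pm_t0), ([(0, false), (0, false), (0, false), (0, true)], K5s1_pm_t1), ([(0, false), (0, false), (0, true)], K5s1_pm_t2), ([(0, false), (0, true)], K5s1_pm_t3), ([(0, true)], K5s1_pm_t4)]

def K5s1_pm_T : Tr := (n0 (n0 (n0 (n0 l l) l) l) l)

theorem K5s1_pm_cov : covers (K5s1_pm_L.map (fun e => pathBox e.1 root4)) K5s1_pm_T root4 = true := by decide +kernel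

theorem K5s1_pm_all : AllSub K5s1 true false K5s1_pm_A K5s1_pm_B K5s1_pm_L := allSub_cons K5s1_pm_h0 (allSub_cons K5s1_pm_h1 (allSub_cons K5s1_pm_h2 (allSub_cons K5s1_pm_h3 (allSub_cons K5s1_pm_h4 (allSub_nil)))))

theorem K5s1_hpm : QuadChecked K5s1 true false := quadChecked_intro K5s1_pm_root K5s1_pm_cov K5s1_pm_all

def K5s1_mp_A : Nat := (rootPP K5s1 false true).elim 0 (fun x => x.1)

def K5s1_mp_B : Nat := (rootPP K5s1 false true).elim 0 (fun x => x.2)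

def K5s1_mp_root : rootCheck K5s1 false true K5s1_mp_A K5s1_mp_B = true := by decide +kernel

def K5s1_mp_t0 : Tr := (n1 (n1 (n1 (n1 (n1 (n3 (n3 (n3 (n3 (n3 (n3 (n1 (n2 (n0 (n0 (n2 (n0 (n2 (n0 (n1 (n2 (n3 (n0 (n2 (n0 (n1 (n2 (n3 (n0 (n2 (n0 (n1 (n2 (n3 (n0 (n2 (n0 (n1 (n2 (n3 (n0 (n2 (n0 (n1 l (n2 (n3 (n0 (n2 (n0 o l) l) l) l) l)) l) l) l) l) l) (n2 (n3 (n0 (n2 (n0 o l) l) l) (n0 (n2 (n0 o l) l) l)) l)) l) l) l) l) l) (n2 (n3 (n0 (n2 (n0 o l) l) l) (n0 (n2 (n0 o l) l) l)) l)) l) l) l) l) l) (n2 (n3 (n0 (n2 (n0 o l) l) l) (n0 (n2 (n0 o l) l) l)) l)) l) l) l) l) l) (n2 (n3 (n0 (n2 (n0 o l) l) l) (n0 (n0 o l) l)) l)) l) l) l) l) l) o) o) (n0 (n3 (n0 (n2 (n0 (n2 (n0 o l) l) l) o) (n2 l o)) (n0 (n2 (n0 (n2 (n0 o l) l) l) o) (n2 l o))) o)) (n1 (n2 (n3 l l) (n0 (n3 (n2 (n3 o (n1 (n2 l o) l)) o) (n2 l o)) o)) (n0 (n3 (n0 (n2 (n0 (n0 o l) l) (n3 o (n2 l o))) (n2 l (n2 l o))) (n0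 (n2 l (n2 l o)) (n2 l (n2 l o)))) o))) (n3 (n1 (n0 l o) l) l)) o) o) o) o) (n3 (n3 (n3 (n3 (n3 (n0 (n3 (n0 o (n3 l (n2 l o))) (n0 o (n3 (n2 l (n3 o l)) l))) o) l) o) o) o) o)) o) o) o) o)

def K5s1_mp_h0 : subCheck K5s1 false true K5s1_mp_A K5s1_mp_B [(0, false), (0, false), (0, false), (0, false), (2, false), (2, false), (2, false), (2, false)] K5s1_mp_t0 = true := by decide +kernel

def K5s1_mp_t1 : Tr := (n2 (n1 (n1 (n1 (n1 (n1 (n3 (n3 (n3 (n3 (n3 o (n3 o l)) o) o) o) o) (n3 (n3 (n3 (n3 (n3 o (n0 (n3 o l) o)) o) o) o) o)) o) o) o) o) o)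

def K5s1_mp_h1 : subCheck K5s1 false true K5s1_mp_A K5s1_mp_B [(0, false), (0, false), (0, false), (0, false), (2, false), (2, false), (2, false), (2, true)] K5s1_mp_t1 = true := by decide +kernel

def K5s1_mp_t2 : Tr := o

def K5s1_mp_h2 : subCheck K5s1 false true K5s1_mp_A K5s1_mp_B [(0, false), (0, false), (0, false), (0, false), (2, false), (2, false), (2, true)] K5s1_mp_t2 = true := by decide +kernel

def K5s1_mp_t3 : Tr := o

def K5s1_mp_h3 : subCheck K5s1 false true K5s1_mp_A K5s1_mp_B [(0, false), (0, false), (0, false), (0, false), (2, false), (2, true)] K5s1_mp_t3 = true := by decide +kernel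

def K5s1_mp_t4 : Tr := o

def K5s1_mp_h4 : subCheck K5s1 false true K5s1_mp_A K5s1_mp_B [(0, false), (0, false), (0, false), (0, false), (2, true)] K5s1_mp_t4 = true := by decide +kernel

def K5s1_mp_t5 : Tr := o

def K5s1_mp_h5 : subCheck K5s1 false true K5s1_mp_A K5s1_mp_B [(0, false), (0, false), (0, false), (0, true)] K5s1_mp_t5 = true := by decide +kernel

def K5s1_mp_t6 : Tr := o

def K5s1_mp_h6 : subCheck K5s1 false true K5s1_mp_A K5s1_mp_B [(0, false), (0, false), (0, true)] K5s1_mp_t6 = true := by decide +kernel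

def K5s1_mp_t7 : Tr := o

def K5s1_mp_h7 : subCheck K5s1 false true K5s1_mp_A K5s1_mp_B [(0, false), (0, true)] K5s1_mp_t7 = true := by decide +kernel

def K5s1_mp_t8 : Tr := o

def K5s1_mp_h8 : subCheck K5s1 false true K5s1_mp_A K5s1_mp_B [(0, true)] K5s1_mp_t8 = true := by decide +kernel

def K5s1_mp_L : List (Path × Tr) := [([(0, false), (0, false), (0, false), (0, false), (2, false), (2, false), (2, false), (2, false)], K5s1_mp_t0), ([(0, false), (0, false), (0, false), (0, false), (2, false), (2, false), (2, false), (2, true)], K5s1_mp_t1), ([(0, false), (0, false), (0, false), (0, false), (2, false), (2, false), (2, true)], K5s1_mp_t2), ([(0, false), (0, false), (0, false), (0, false), (2, false), (2, true)], K5s1_mp_t3), ([(0, false), (0, false), (0, false), (0, false), (2, true)], K5s1_mp_t4), ([(0, false), (0, false), (0, false), (0, true)], K5s1_mp_t5), ([(0, false),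 (0, false), (0, true)], K5s1_mp_t6), ([(0, false), (0, true)], K5s1_mp_t7), ([(0, true)], K5s1_mp_t8)]

def K5s1_mp_T : Tr := (n0 (n0 (n0 (n0 (n2 (n2 (n2 (n2 l l) l) l) l) l) l) l) l)

theorem K5s1_mp_cov : covers (K5s1_mp_L.map (fun e => pathBox e.1 root4)) K5s1_mp_T root4 = true := by decide +kernel

theorem K5s1_mp_all : AllSub K5s1 false true K5s1_mp_A K5s1_mp_B K5s1_mp_L := allSub_cons K5s1_mp_h0 (allSub_cons K5s1_mp_h1 (allSub_cons K5s1_mp_h2 (allSub_cons K5s1_mp_h3 (allSub_cons K5s1_mp_h4 (allSub_cons K5s1_mp_h5 (allSub_cons K5s1_mp_h6 (allSub_cons K5s1_mp_h7 (allSub_cons K5s1_mp_h8 (allSub_nil)))))))))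

theorem K5s1_hmp : QuadChecked K5s1 false true := quadChecked_intro K5s1_mp_root K5s1_mp_cov K5s1_mp_all

def K5s1_mm_A : Nat := (rootPP K5s1 false false).elim 0 (fun x => x.1)

def K5s1_mm_B : Nat := (rootPP K5s1 false false).elim 0 (fun x => x.2)

def K5s1_mm_root : rootCheck K5s1 false false K5s1_mm_A K5s1_mm_B = true := by decide +kernel

def K5s1_mm_t0 : Tr := (n0 (n0 (n0 (n0 (n2 (n2 (n2 (n2 (n1 (n1 (n1 (n1 (n1 (n3 (n3 (n3 (n3 (n3 (n0 (n2 (n0 (n1 (n2 (n3 (n0 (n2 (n0 (n1 (n2 (n3 (n0 (n2 (n0 (n1 (n2 (n3 (n0 (n2 (n0 (n1 (n2 (n3 (n0 (n2 (n0 (n1 (n2 (n3 (n0 (n2 (n0 (n1 (n2 (n3 (n0 (n2 (n0 (n1 l (n2 (n3 l (n0 (n2 (n0 o l) l) l)) l)) l) l) l) (n2 (n0 (n2 o l) l) l)) l) (n2 (n3 (n0 (n2 (n0 o l) l) l) (n0 (n2 (n0 o l) l) l)) l)) l) l) l) (n2 (n0 (n2 o l) l) l)) l) (n2 (n3 (n0 (n2 (n0 o l) l) l) (n0 (n2 (n0 o l) l) l)) l)) l) l) l) (n2 (n0 (n2 o l) l) l)) l) (n2 (n3 (n0 (n2 (n0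 o l) l) l) (n0 (n2 (n0 o l) l) l)) l)) l) l) l) (n2 (n0 (n2 o l) l) l)) l) (n2 (n3 (n0 (n2 (n0 o l) l) l) (n0 (n2 (n0 o l) l) l)) l)) l) l) l) (n2 (n0 (n2 o l) l) l)) l) (n2 (n3 (n0 (n2 (n0 o l) l) l) (n0 (n2 (n0 o l) l) l)) l)) l) l) l) (n2 (n0 (n2 o l) l) l)) l) (n2 (n3 (n0 (n2 (n0 o l) l) l) (n0 (n2 (n0 o (n2 o l)) l) l)) l)) (n2 l l)) o) o) (n2 (n0 (n2 o l) o) o)) o) o) o) o) (n3 (n3 (n3 (n3 (n3 (n0 (n2 (n0 o l) o) o) (n0 (n2 (n0 o l) o) o)) o) o) o) o)) o) o) o) o) o) o) o) o) o) o) o) o)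

def K5s1_mm_h0 : subCheck K5s1 false false K5s1_mm_A K5s1_mm_B [] K5s1_mm_t0 = true := by decide +kernel

def K5s1_mm_L : List (Path × Tr) := [([], K5s1_mm_t0)]

def K5s1_mm_T : Tr := l

theorem K5s1_mm_cov : covers (K5s1_mm_L.map (fun e => pathBox e.1 root4)) K5s1_mm_T root4 = true := by decide +kernel

theorem K5s1_mm_all : AllSub K5s1 false false K5s1_mm_A K5s1_mm_B K5s1_mm_L := allSub_cons K5s1_mm_h0 (allSub_nil)

theorem K5s1_hmm : QuadChecked K5s1 false false := quadChecked_intro K5s1_mm_root K5s1_mm_cov K5s1_mm_all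

end Vale.Agent.Lib.P154
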