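import Vale.Agent.Lib.P154.Checker

set_option linter.defProp false

namespace Vale.Agent.Lib.P154

private abbrev n0 := Tr.nd 0
private abbrev n1 := Tr.nd 1
private abbrev n2 := Tr.nd 2
private abbrev n3 := Tr.nd 3
private abbrev l := Tr.lf
private abbrev o := Tr.ot

def K5s4 : KCfg where
  W := 216
  room := 11
  roomT := 33
  ns := [5, 3, 5, 3]
  den := 4096
  pp := ⟨637, (-6056), 21226⟩
  p0 := ⟨849, (-7402), 25290⟩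
  pY := ⟨3148, (-66807), 521191⟩
  tn := 64
  E := 1048576
  q1 := [1048576, (-3145728), 9437184, (-28311552), 85053473, (-261708748), 890413615, (-2524847861), 3262688649]
  q2 := [1048576, (-6291456), 28311552, (-113246208), 420407619, (-1564154600), 6037795858, (-17274619159), 21484556302]
  q3 := [1048576, (-9437184), 56623104, (-283115520), 1414083544, (-7233258054), 25317164599, (-35779749097)]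
  q4 := [1048576, (-12582912), 94371840, (-566231040), 4598680000, (-23035487408), 40479893422]
  q5 := [1048576, (-15728640), 141557760, (-990904320), 16488632196, (-43358876514)]
  lamA := (1, 1)
  lamB := (115, 256)

theorem K5s4_hwf : wfK K5s4 = true := by decide +kernel

def K5s4_Q : QTrees where
  t1 := ((n0 (n0 (n0 (n0 (n0 l l) l) l) (n0 (n0 (n0 l l) o) o)) o), (n0 (n0 (n0 l (n0 (n0 (n0 l (n0 l (n0 (n0 l (n0 (n0 l o) o)) o))) o) o)) o) o))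
  t2 := ((n0 (n0 (n0 l (n0 l l)) (n0 (n0 (n0 l (n0 l (n0 (n0 l o) o))) o) o)) o), (n0 (n0 (n0 (n0 l (n0 l l)) l) o) o))
  t3 := ((n0 (n0 (n0 l l) (n0 (n0 (n0 l (n0 l (n0 (n0 l o) o))) o) o)) o), (n0 (n0 (n0 l (n0 (n0 (n0 l (n0 l (n0 (n0 l (n0 (n0 l o) o)) o))) o) o)) o) o))
  t4 := ((n0 (n0 l l) o), (n0 (n0 (n0 l (n0 (n0 (n0 l (n0 l (n0 (n0 l (n0 l o)) o))) o) o)) o) o))
  t5 := ((n0 (n0 l (n0 (n0 l o) o)) o), (n0 (n0 (n0 l (n0 (n0 (n0 l (n0 l (n0 l o))) o) o)) o) o))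

def K5s4_hq : allQ K5s4 120 K5s4_Q = true := by decide +kernel

def K5s4_pp_A : Nat := (rootPP K5s4 true true).elim 0 (fun x => x.1)

def K5s4_pp_B : Nat := (rootPP K5s4 true true).elim 0 (fun x => x.2)

def K5s4_pp_root : rootCheck K5s4 true true K5s4_pp_A K5s4_pp_B = true := by decide +kernel

def K5s4_pp_t0 : Tr := (n0 (n2 (n2 (n2 (n2 (n1 (n1 (n1 (n3 (n3 (n3 (n3 (n3 (n0 (n1 (n0 (n3 (n0 l (n1 (n0 l (n1 (n3 (n2 l o) (n2 l o)) l)) l)) l) (n2 (n1 (n0 (n0 (n3 (n1 o (n0 l o)) (n1 o l)) o) o) (n0 (n0 l (n1 o l)) o)) (n0 (n1 (n0 (n3 o (n1 o (n3 (n0 l o) (n0 l o)))) o) (n3 o (n0 l (n1 o l)))) o))) (n0 l (n1 (n0 l (n2 (n1 (n1 (n0 l o) l) l) (n1 (n3 o (n0 l o)) l))) l))) (n2 (n1 o (n1 (n2 (n3 (n0 (n1 o (n0 l o)) o) (n0 (n1 o (n0 l o)) o)) (n0 (n1 o (n0 (n1 o l) o)) o)) (n1 (n0 (n1 (n0 l o) l) o) (n0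 l o)))) (n1 o (n0 (n1 (n0 (n1 o (n2 (n1 o (n0 l o)) o)) o) (n2 (n1 (n0 l (n1 o (n0 l o))) l) o)) o)))) (n0 (n1 (n0 l (n1 (n2 (n0 (n0 l o) o) (n0 (n0 (n3 (n1 o l) l) o) o)) (n0 (n1 (n0 l o) l) o))) (n0 l (n1 (n0 l (n3 (n1 (n0 l o) l) (n1 (n2 o (n0 l o)) l))) l))) (n2 (n1 o (n1 (n0 (n1 o (n2 o (n0 (n1 o l) o))) o) (n1 (n0 (n1 (n0 l o) (n0 l (n2 o (n0 l o)))) o) (n2 o (n0 l o))))) (n1 o (n0 (n1 (n2 (n1 o (n0 (n1 o (n0 l o)) o)) (n0 (n1 o (n3 (n1 o (n2 (n0 l o) (n0 l o))) (n2 o (n1 o (n0 l o))))) o)) (n2 (n1 (n0 l (n2 (n1 o (n0 l o)) (n1 o (n0 (n0 l o) o)))) (n1 (n0 o (n2 (n0 l o) (n0 l o))) l)) (n1 (n0 (n3 (n1 (n2 l (n0 l (n1 o l))) l) l) (n2 (n1 o (n3 (n0 (n1 o l) o) o)) (n3 (n0 (n1 o (n1 o l)) o) (n0 (n1 o (n1 o l)) o)))) (n2 (n1 (n3 (n0 o (n0 l o)) o) l) (n3 (n1 (n0 o (n1 (n0 l o) l)) l) l)))))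 o))))) o) o) o) o) (n3 (n3 (n3 (n3 (n3 (n2 (n1 (n0 o (n1 (n0 o o) o)) o) (n1 (n0 o (n3 o (n1 (n2 (n0 o o) o) o))) o)) (n1 (n2 (n1 (n1 (n0 o (n0 o o)) o) o) (n0 o (n1 (n2 (n1 (n0 o o) o) (n0 o o)) o))) o)) o) o) o) o)) o) o) (n2 (n1 (n1 (n1 (n3 (n3 (n3 (n3 (n3 o (n0 (n1 (n0 l (n1 (n0 (n3 o (n0 l o)) o) (n0 (n3 o (n0 l (n1 o l))) o))) (n0 l (n0 l (n2 (n1 (n3 o (n1 (n0 l o) l)) l) o)))) (n0 (n1 o (n1 (n0 (n2 (n3 o (n1 o (n2 (n0 (n1 o l) o) o))) o) o) (n0 (n2 (n1 (n3 o l) o) o) (n2 (n3 o (n0 (n1 (n1 o l) l) o)) o)))) o))) o) o) o) o) (n3 (n3 (n3 (n3 (n3 o (n0 o (n0 o o))) o) o) o) o)) o) o) o)) o) o) o) o)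

def K5s4_pp_h0 : subCheck K5s4 true true K5s4_pp_A K5s4_pp_B [] K5s4_pp_t0 = true := by decide +kernel

def K5s4_pp_L : List (Path × Tr) := [([], K5s4_pp_t0)]

def K5s4_pp_T : Tr := l

theorem K5s4_pp_cov : covers (K5s4_pp_L.map (fun e => pathBox e.1 root4)) K5s4_pp_T root4 = true := by decide +kernel

theorem K5s4_pp_all : AllSub K5s4 true true K5s4_pp_A K5s4_pp_B K5s4_pp_L := allSub_cons K5s4_pp_h0 (allSub_nil)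

theorem K5s4_hpp : QuadChecked K5s4 true true := quadChecked_intro K5s4_pp_root K5s4_pp_cov K5s4_pp_all

def K5s4_pm_A : Nat := (rootPP K5s4 true false).elim 0 (fun x => x.1)

def K5s4_pm_B : Nat := (rootPP K5s4 true false).elim 0 (fun x => x.2)

def K5s4_pm_root : rootCheck K5s4 true false K5s4_pm_A K5s4_pm_B = true := by decide +kernel

def K5s4_pm_t0 : Tr := (n0 (n2 (n2 (n2 (n2 (n1 (n1 (n1 (n3 (n3 (n3 (n3 (n3 (n2 (n0 (n1 (n0 (n2 (n3 l (n0 (n1 (n2 (n0 (n2 o l) l) l) l) l)) l) (n0 (n1 (n0 (n1 o (n3 (n0 l o) (n2 (n0 l o) (n0 l o)))) o) (n0 l (n1 o (n2 (n3 l (n1 (n0 l o) l)) (n1 (n0 l o) l))))) o)) (n1 (n0 l (n1 (n0 l (n1 (n0 l o) (n0 l o))) l)) l)) (n1 o (n1 (n2 (n3 (n0 (n1 o (n0 (n1 o l) o)) o) (n0 (n1 o (n0 (n1 o l) o)) o)) (n0 (n1 o (n0 (n1 o l) o)) o)) (n1 (n0 (n1 (n0 l o) l) o) (n0 l o)))))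 o) (n2 (n0 (n1 (n0 (n1 (n2 o l) l) (n0 (n1 (n2 o (n0 (n1 o (n3 (n0 (n1 (n0 l o) l) o) o)) o)) (n2 o (n0 l (n1 o (n1 (n2 o o) l))))) o)) (n0 l (n1 (n0 l (n1 (n2 o (n0 l o)) l)) l))) (n1 o (n2 o (n1 (n0 (n1 o (n0 (n1 o (n1 o l)) o)) o) (n1 (n0 (n1 (n0 l o) l) o) (n0 l o)))))) o)) o) o) o) o) (n3 (n3 (n3 (n3 (n3 (n2 (n0 o (n1 (n1 (n2 (n3 (n1 (n0 o o) o) (n1 (n1 (n0 o o) (n0 o o)) o)) (n1 (n0 o o) o)) o) o)) o) (n2 (n0 o (n1 (n1 (n1 (n2 o (n0 o o)) o) o) o)) o)) o) o) o) o)) o) o) o) o) o) o) o)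

def K5s4_pm_h0 : subCheck K5s4 true false K5s4_pm_A K5s4_pm_B [] K5s4_pm_t0 = true := by decide +kernel

def K5s4_pm_L : List (Path × Tr) := [([], K5s4_pm_t0)]

def K5s4_pm_T : Tr := l

theorem K5s4_pm_cov : covers (K5s4_pm_L.map (fun e => pathBox e.1 root4)) K5s4_pm_T root4 = true := by decide +kernel

theorem K5s4_pm_all : AllSub K5s4 true false K5s4_pm_A K5s4_pm_B K5s4_pm_L := allSub_cons K5s4_pm_h0 (allSub_nil)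

theorem K5s4_hpm : QuadChecked K5s4 true false := quadChecked_intro K5s4_pm_root K5s4_pm_cov K5s4_pm_all

def K5s4_mp_A : Nat := (rootPP K5s4 false true).elim 0 (fun x => x.1)

def K5s4_mp_B : Nat := (rootPP K5s4 false true).elim 0 (fun x => x.2)

def K5s4_mp_root : rootCheck K5s4 false true K5s4_mp_A K5s4_mp_B = true := by decide +kernel

def K5s4_mp_t0 : Tr := (n0 (n2 (n2 (n2 (n2 (n1 (n1 (n1 (n3 (n3 (n3 (n3 (n3 (n0 (n1 (n0 (n0 (n1 (n2 (n0 (n2 (n3 (n2 (n0 (n1 l (n2 (n3 (n0 (n2 (n0 o l) l) l) l) l)) l) l) l) l) l) l) (n3 (n0 (n3 (n2 (n2 (n0 o (n1 (n2 l l) o)) (n0 o (n1 l o))) o) (n2 (n0 o (n2 (n1 l o) (n1 l o))) o)) (n3 (n2 (n0 (n2 (n1 l o) (n1 l o)) l) o) (n2 l o))) (n0 (n2 (n0 o l) l) (n2 l (n3 (n2 l o) l))))) (n2 (n1 (n0 l (n1 l (n0 l o))) (n0 l o)) (n0 (n1 (n3 o l) (n3 o (n2 l o))) (n1 (n3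 o (n0 (n3 (n2 l o) l) (n3 (n2 (n1 l o) o) (n1 l o)))) o)))) o) (n0 (n0 o (n2 (n0 o o) (n0 o o))) o)) o) (n0 (n1 (n0 (n0 l (n1 l (n0 l o))) o) (n0 (n0 o (n0 o o)) o)) o)) o) o) o) o) (n3 (n3 (n3 (n3 (n3 (n0 o o) (n0 o o)) o) o) o) o)) o) o) (n2 (n1 (n1 (n1 (n3 (n3 (n3 (n3 (n3 o (n0 (n1 (n0 (n0 l (n0 (n1 l (n3 o l)) (n3 o (n1 l o)))) o) (n0 (n0 o (n0 o o)) o)) o)) o) o) o) o) (n3 (n3 (n3 (n3 (n3 o (n0 o o)) o) o) o) o)) o) o) o)) o) o) o) o)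

def K5s4_mp_h0 : subCheck K5s4 false true K5s4_mp_A K5s4_mp_B [] K5s4_mp_t0 = true := by decide +kernel

def K5s4_mp_L : List (Path × Tr) := [([], K5s4_mp_t0)]

def K5s4_mp_T : Tr := l

theorem K5s4_mp_cov : covers (K5s4_mp_L.map (fun e => pathBox e.1 root4)) K5s4_mp_T root4 = true := by decide +kernel

theorem K5s4_mp_all : AllSub K5s4 false true K5s4_mp_A K5s4_mp_B K5s4_mp_L := allSub_cons K5s4_mp_h0 (allSub_nil)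

theorem K5s4_hmp : QuadChecked K5s4 false true := quadChecked_intro K5s4_mp_root K5s4_mp_cov K5s4_mp_all

def K5s4_mm_A : Nat := (rootPP K5s4 false false).elim 0 (fun x => x.1)

def K5s4_mm_B : Nat := (rootPP K5s4 false false).elim 0 (fun x => x.2)

def K5s4_mm_root : rootCheck K5s4 false false K5s4_mm_A K5s4_mm_B = true := by decide +kernel

def K5s4_mm_t0 : Tr := (n0 (n2 (n2 (n2 (n2 (n1 (n1 (n1 (n3 (n3 (n3 (n3 (n3 (n2 (n0 (n1 (n0 (n0 (n1 (n2 (n3 (n0 (n2 (n0 (n1 (n2 (n3 (n0 (n2 (n0 (n1 l (n2 (n3 l (n0 (n2 (n0 o l) l) l)) l)) l) l) l) (n2 (n0 (n2 o l) l) l)) l) (n2 (n3 (n0 (n2 (n0 o (n1 l o)) (n0 o (n1 l o))) (n2 l l)) (n0 (n2 (n0 o (n1 (n2 o (n1 l o)) o)) (n1 l o)) (n2 (n1 l (n0 o (n2 o (n3 l o)))) (n1 l (n1 (n0 o (n2 l l)) o))))) (n0 l (n1 l (n2 (n3 l (n1 l o)) l))))) (n2 (n3 l (n1 l (n2 l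 (n1 l (n0 (n3 l (n1 l (n0 o l))) l))))) (n1 l (n0 (n1 l (n3 l (n2 (n1 l (n3 l (n0 o l))) l))) l)))) l) l) (n0 (n2 (n0 (n1 (n2 o l) (n2 o (n0 (n1 l o) (n2 o (n1 l (n3 (n1 l o) o)))))) (n2 o (n1 l (n1 (n2 o l) (n3 (n0 (n2 o (n1 l (n3 (n1 l (n0 o (n3 l o))) o))) (n2 o (n1 l (n3 l o)))) o))))) (n0 l (n1 l (n1 l (n2 (n3 l o) l))))) (n2 (n0 (n2 o (n1 l (n1 l (n3 l o)))) l) (n0 (n1 l (n1 l (n3 l (n0 (n1 l (n2 o l)) l)))) l)))) l) (n3 (n0 (n2 (n0 o (n2 (n2 (n3 (n0 o (n2 l (n3 l (n1 l o)))) (n0 o (n2 l (n1 (n3 l (n1 (n0 (n1 l o) l) o)) o)))) (n3 (n0 o (n1 (n1 l o) o)) (n1 (n0 o (n1 (n3 l (n1 (n2 l (n1 l (n3 l (n0 o l)))) o)) o)) o))) (n3 (n1 (n1 l o) o) (n1 (n1 (n2 (n0 o (n1 l o)) l) o) o)))) (n3 (n0 o (n1 l o)) (n0 o (n2 (n1 (n1 l o) o) o)))) (n2 (n0 (n2 (n1 (n3 l (n2 l (n0 (n1 l o) l))) o) (n1 (n3 l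 (n1 l (n0 o l))) o)) (n3 l (n0 (n1 l o) l))) (n3 (n0 (n1 l o) (n1 l (n3 l (n1 l o)))) (n0 (n1 (n1 l (n2 (n0 o l) o)) o) (n1 l (n2 (n0 o l) o)))))) (n2 (n0 (n2 (n0 o (n2 o (n1 (n0 o (n1 (n3 (n1 (n2 o (n3 (n1 (n0 (n3 l o) l) (n0 o (n3 l o))) o)) o) o) o)) o))) (n0 o (n1 (n3 (n2 (n1 (n0 o (n1 (n2 (n3 (n1 l (n0 o (n3 l (n1 l o)))) o) l) o)) o) (n1 (n0 o (n1 l o)) o)) (n2 o (n1 (n0 o (n1 l o)) o))) o))) (n2 (n0 (n1 (n2 o (n3 (n0 (n1 (n3 (n1 l (n2 o (n0 (n3 (n1 l o) o) l))) o) o) (n3 l o)) o)) o) (n1 (n3 l o) (n2 o (n3 l o)))) (n0 (n1 (n3 (n1 (n2 (n0 (n1 (n2 (n3 l o) l) (n3 (n2 (n1 (n3 l (n0 (n1 l o) l)) (n3 (n0 o l) (n0 o l))) (n1 l (n0 o l))) (n2 o (n1 (n0 (n3 (n1 l o) o) (n3 l o)) (n0 o (n3 (n1 l o) o)))))) l) (n0 (n1 l (n2 (n1 l (n3 l (n0 o l))) l)) l)) (n2 (n0 o (n3 (n1 l o) (n1 (n2 o (n0 (n1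 (n3 l o) o) l)) o))) (n0 o (n1 (n3 l (n2 (n1 (n0 (n3 l (n1 l o)) l) (n0 o l)) (n1 l (n1 l o)))) o)))) (n2 o (n1 (n0 (n1 l (n2 o l)) (n1 l (n2 o l))) (n0 o (n1 (n3 (n2 o (n1 l (n0 o (n1 l o)))) o) o))))) o) (n1 (n3 l (n2 o (n1 l (n0 (n1 (n2 o l) (n3 (n0 (n2 o (n1 l o)) l) o)) l)))) (n3 (n0 o l) (n2 o (n0 o (n1 l o)))))))) (n0 (n2 (n0 o (n3 (n1 (n1 l o) o) (n1 l o))) o) (n3 (n0 (n2 (n1 (n1 l (n0 o (n1 l o))) o) o) (n2 (n1 l (n1 (n0 o l) o)) o)) (n2 (n0 (n1 (n1 l (n2 (n0 o (n1 l o)) o)) o) (n1 l (n1 (n2 (n0 o l) o) o))) o)))))) (n1 (n3 (n1 (n0 l (n0 l (n3 (n2 l (n0 l o)) (n2 l (n1 l o))))) (n0 l (n0 l o))) (n1 (n0 l (n2 l (n0 l (n3 (n1 l o) (n1 l o))))) (n0 l (n0 l o)))) (n1 (n0 l o) (n0 l o)))) o) (n0 (n0 o (n3 l (n1 l o))) o)) o) o) (n2 (n0 (n1 (n0 (n0 (n1 (n2 o l) (n2 o (n0 (n3 (n2 o o) o) (n3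 (n2 o o) o)))) (n1 (n2 o (n1 (n0 l (n3 (n0 l (n2 o o)) o)) (n3 (n0 l (n0 l o)) o))) (n2 o (n1 (n3 (n0 l o) o) (n0 l o))))) o) (n0 (n0 o (n2 o l)) o)) o) o)) o) o) o) o) (n3 (n3 (n3 (n3 (n3 (n0 o o) (n0 o o)) o) o) o) o)) o) o) o) o) o) o) o)

def K5s4_mm_h0 : subCheck K5s4 false false K5s4_mm_A K5s4_mm_B [] K5s4_mm_t0 = true := by decide +kernel

def K5s4_mm_L : List (Path × Tr) := [([], K5s4_mm_t0)]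

def K5s4_mm_T : Tr := l

theorem K5s4_mm_cov : covers (K5s4_mm_L.map (fun e => pathBox e.1 root4)) K5s4_mm_T root4 = true := by decide +kernel

theorem K5s4_mm_all : AllSub K5s4 false false K5s4_mm_A K5s4_mm_B K5s4_mm_L := allSub_cons K5s4_mm_h0 (allSub_nil)

theorem K5s4_hmm : QuadChecked K5s4 false false := quadChecked_intro K5s4_mm_root K5s4_mm_cov K5s4_mm_all

end Vale.Agent.Lib.P154
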