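import Vale.Agent.Lib.P154.Checker

set_option linter.defProp false

namespace Vale.Agent.Lib.P154

private abbrev n0 := Tr.nd 0
private abbrev n1 := Tr.nd 1
private abbrev n2 := Tr.nd 2
private abbrev n3 := Tr.nd 3
private abbrev l := Tr.lf
private abbrev o := Tr.ot

def K6s1 : KCfg where
  W := 336
  room := 11
  roomT := 33
  ns := [5, 3, 5, 3]
  den := 4096
  pp := ⟨1475, (-12948), 81261⟩
  p0 := ⟨3328, (-79946), 716008⟩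
  pY := ⟨3328, (-79946), 716008⟩
  tn := 64
  E := 1048576
  q1 := [1048576, (-3145728), 9437184, (-28311552), 84926147, (-254842357), 772534943, (-2317148953), 4790394634]
  q2 := [1048576, (-6291456), 28311552, (-113246208), 424591870, (-1529480137), 5429090341, (-18436780948), 40558202728]
  q3 := [1048576, (-9437184), 56623104, (-283115520), 1276410033, (-5450954942), 21784077175, (-54990652584)]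
  q4 := [1048576, (-12582912), 94371840, (-566231040), 3054415142, (-15097825771), 45598894517]
  q5 := [1048576, (-15728640), 141557760, (-990904320), 6902304594, (-28459338441)]
  lamA := (105, 256)
  lamB := (105, 256)

theorem K6s1_hwf : wfK K6s1 = true := by decide +kernel

def K6s1_Q : QTrees where
  t1 := ((n0 (n0 (n0 (n0 (n0 l (n0 l l)) (n0 l (n0 l (n0 (n0 l o) o)))) o) o) o), (n0 (n0 (n0 (n0 (n0 l (n0 (n0 l l) l)) o) o) o) o))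
  t2 := ((n0 (n0 (n0 (n0 (n0 l l) (n0 l (n0 l (n0 (n0 l o) o)))) o) o) o), (n0 (n0 (n0 (n0 (n0 l (n0 (n0 l l) l)) o) o) o) o))
  t3 := ((n0 (n0 (n0 (n0 (n0 l l) (n0 l (n0 l (n0 (n0 l o) o)))) o) o) o), (n0 (n0 (n0 (n0 (n0 l (n0 l (n0 l (n0 (n0 l (n0 (n0 l o) o)) o)))) o) o) o) o))
  t4 := ((n0 (n0 (n0 (n0 l (n0 l l)) o) o) o), (n0 (n0 (n0 (n0 (n0 l (n0 l (n0 l (n0 (n0 l (n0 (n0 l o) o)) o)))) o) o) o) o))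
  t5 := ((n0 (n0 (n0 (n0 l (n0 l (n0 l (n0 (n0 l o) o)))) o) o) o), (n0 (n0 (n0 (n0 (n0 l (n0 l (n0 l (n0 (n0 l (n0 l o)) o)))) o) o) o) o))

def K6s1_hq : allQ K6s1 120 K6s1_Q = true := by decide +kernel

def K6s1_pp_A : Nat := (rootPP K6s1 true true).elim 0 (fun x => x.1)

def K6s1_pp_B : Nat := (rootPP K6s1 true true).elim 0 (fun x => x.2)

def K6s1_pp_root : rootCheck K6s1 true true K6s1_pp_A K6s1_pp_B = true := by decide +kernel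

def K6s1_pp_t0 : Tr := (n0 (n0 (n0 (n0 (n2 (n2 (n2 (n2 (n1 (n1 (n1 (n1 (n1 (n3 (n3 (n3 (n3 (n3 (n1 (n3 (n0 (n3 (n2 (n1 (n0 l (n2 l (n0 l o))) (n0 l (n3 l (n1 (n2 l (n0 l o)) (n2 l (n0 l (n2 l o))))))) o) (n2 (n1 (n2 l (n1 l (n3 (n0 l (n2 l o)) (n0 l (n2 l (n0 l o)))))) (n0 l (n2 l (n1 (n3 (n0 l o) (n2 l (n0 l o))) (n3 (n0 l (n2 l o)) (n0 (n2 l (n3 o (n2 l o))) (n2 (n1 o (n0 l o)) (n0 (n3 o (n2 (n1 o (n0 l o)) o)) o)))))))) o)) o) (n2 (n1 (n0 (n3 (n2 l (n3 (n0 l (n2 l (n1 l (n0 l o)))) (n0 l (n2 l (n1 l (n0 l o)))))) l) o) (n0 (n3 (n0 l (n2 l (n1 (n3 (n2 l (n0 l o)) (n2 l (n0 l o))) (n3 (n2 (n0 l (n0 l o)) (n0 (n3 (n2 l o) l) (n2 (n1 o (n0 (n3 (n2 l o) l) o)) o))) (n2 l (n0 l (n2 (n1 o (n0 l o)) (n0 (n3 o (n1 o (n2 l o))) o)))))))) (n0 l (n1 (n2 l (n3 (n2 l (n0 l o)) l)) (n2 l (n3 (n0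 l (n2 l (n3 (n0 l o) (n0 l o)))) l))))) o)) (n0 (n3 o (n1 (n3 o (n2 (n0 l (n3 (n1 l (n2 l o)) l)) o)) (n3 o (n0 (n3 (n0 l (n2 l o)) l) (n2 (n1 (n3 (n0 l o) (n0 l o)) (n0 (n3 (n2 l o) l) (n3 (n2 (n0 l o) o) (n2 l o)))) o))))) o))) (n3 (n0 (n3 (n2 (n1 (n0 l (n1 (n2 l (n0 l (n3 l (n2 l o)))) (n2 l (n0 l (n3 l (n2 l o)))))) l) o) (n2 (n1 (n0 l (n2 l (n3 (n1 (n0 l (n2 l o)) (n0 l (n2 l o))) (n1 (n0 (n2 l (n2 l o)) (n2 (n1 (n0 l o) l) (n0 (n3 o (n2 (n1 (n0 l o) l) o)) o))) (n0 l (n2 l (n0 (n3 o (n2 l o)) (n2 (n1 o (n3 o (n0 l o))) o)))))))) (n2 l (n3 (n0 l (n1 (n0 l (n2 l o)) l)) (n0 l (n1 (n2 l (n0 l (n1 (n2 l o) (n2 l o)))) l))))) o)) (n2 (n1 o (n3 (n1 o (n0 (n2 l (n1 (n3 l (n0 l o)) l)) o)) (n1 o (n2 (n1 (n2 l (n0 l o)) l) (n0 (n3 (n1 (n2 l o) (n2 l o)) (n2 (n1 (n0 l o) l) (n1 (n0 (n2 l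 o) o) (n0 l o)))) o))))) o)) (n0 (n3 (n2 (n1 (n0 l (n2 l (n1 (n3 (n0 (n2 l (n3 (n2 l o) l)) (n2 (n1 (n0 l o) l) (n0 (n3 (n2 (n1 (n0 l o) l) o) (n2 l o)) o))) (n2 l (n0 l (n2 (n1 (n0 l o) (n0 l o)) (n0 (n3 o (n1 (n0 l o) (n0 l (n2 l o)))) o))))) (n3 (n0 l (n2 l (n0 (n3 (n2 l o) (n2 l o)) (n2 (n1 o (n3 (n2 l o) (n2 l (n0 l o)))) o)))) (n0 l (n2 l (n0 (n3 (n2 l o) (n2 l (n1 (n0 l (n2 l o)) (n2 l o)))) (n2 (n1 o (n3 (n2 l (n0 l o)) (n0 l o))) (n1 o (n3 o (n0 (n2 (n1 (n3 (n0 l o) l) l) o) o))))))))))) (n2 l (n3 (n1 (n0 l (n2 l (n0 l (n2 l o)))) l) (n1 (n0 l (n2 l (n0 l (n2 l (n3 o (n1 (n0 l (n2 (n0 l (n1 o l)) o)) (n0 l (n2 l o)))))))) l)))) o) (n2 (n1 (n0 l (n1 (n3 (n2 l (n0 l (n2 l (n0 l o)))) l) (n3 (n2 l (n0 l (n2 l (n0 l (n1 o (n3 (n2 l (n0 (n2 l (n3 o l)) o)) (n2 l (n0 l o)))))))) l)))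 (n0 l (n2 l (n0 l (n2 l (n1 (n3 (n1 (n3 (n0 l (n2 l (n0 l (n2 l (n1 o (n3 o l)))))) l) l) l) l)))))) (n1 (n3 o (n0 (n0 l (n3 (n2 l o) l)) (n2 (n1 (n0 (n3 (n2 l o) l) (n3 (n2 (n0 l o) o) (n2 l o))) (n0 (n3 (n2 l o) l) (n3 (n2 (n0 l (n2 (n1 o (n3 (n0 l o) l)) o)) o) (n2 (n0 l (n3 (n1 o l) l)) o)))) o))) (n3 o (n0 (n0 o (n3 (n2 l o) l)) (n2 (n1 (n0 (n3 (n2 l o) l) (n2 (n3 (n0 l (n2 (n3 (n0 l (n1 (n2 l o) l)) l) o)) l) o)) (n0 l (n2 (n3 (n0 l (n1 (n2 l o) l)) l) o))) o)))))) (n2 (n1 o (n3 (n1 o (n2 (n2 l (n1 (n0 l o) l)) (n0 (n3 (n2 (n1 (n0 l o) l) (n1 (n0 (n2 l o) o) (n0 l o))) (n2 (n1 (n0 l o) l) (n1 (n0 (n2 l (n0 (n3 o (n1 (n2 l o) l)) o)) o) (n0 (n2 l (n1 (n3 o l) l)) o)))) o))) (n1 o (n2 (n2 o (n1 (n0 l o) l)) (n0 (n3 (n2 (n1 (n0 l o) l) (n0 (n1 (n2 l (n0 (n1 (n2 l (n3 (n0 l o) l))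 l) o)) l) o)) (n2 l (n0 (n1 (n2 l (n3 (n0 l o) l)) l) o))) o))))) (n1 o (n3 o (n0 (n2 (n1 o (n3 o (n0 (n2 (n1 (n3 (n0 (n2 (n1 (n3 (n0 l o) l) l) o) o) (n0 (n3 (n2 l o) l) o)) (n3 (n2 (n1 (n0 l o) l) o) (n0 l o))) o) o))) o) o))))))) (n1 (n3 (n2 (n1 (n3 (n0 l o) o) (n0 l o)) (n1 (n3 (n0 (n3 (n0 l (n3 (n2 l o) l)) l) o) l) (n3 (n0 (n3 (n0 l (n3 (n2 l o) l)) l) o) (n0 l o)))) (n2 o l)) (n3 (n2 (n1 (n0 l o) (n0 l (n3 (n1 o (n0 (n2 o (n3 (n0 l o) o)) o)) o))) (n1 (n3 (n0 (n3 (n0 l (n3 (n2 l o) l)) l) o) (n0 l o)) (n3 (n0 (n3 (n0 l (n3 (n0 l (n2 l o)) l)) l) (n0 (n3 (n1 o (n2 (n0 (n3 (n2 (n1 (n0 l o) l) o) l) o) o)) (n1 o (n3 (n0 l o) l))) o)) (n0 l (n3 (n1 o (n0 l o)) (n1 o l)))))) (n2 o l)))) o) o) o) o) (n3 (n3 (n3 (n3 (n3 (n3 (n1 (n0 (n3 (n1 (n2 l o) o) (n2 l o)) (n3 (n1 (n2 (n1 (n2 l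 (n1 (n0 l o) l)) l) o) l) (n1 (n2 (n1 (n2 l (n1 (n0 l o) l)) l) o) (n2 l o)))) (n0 o l)) (n1 (n0 (n3 (n2 l o) (n2 l (n1 (n3 o (n2 (n0 o (n1 (n2 l o) o)) o)) o))) (n3 (n1 (n2 (n1 (n2 l (n1 (n0 l o) l)) l) o) (n2 l o)) (n1 (n2 (n1 (n2 l (n1 (n2 l (n0 l o)) l)) l) (n2 (n1 (n3 o (n0 (n2 (n1 (n0 (n3 (n2 l o) l) o) l) o) o)) (n3 o (n1 (n2 l o) l))) o)) (n2 l (n1 (n3 o (n2 l o)) (n3 o l)))))) (n0 o l))) (n1 (n1 (n3 (n3 (n0 (n3 (n2 l (n0 o (n3 (n2 l o) l))) l) (n2 (n1 (n2 o (n1 (n0 l o) l)) l) (n1 (n3 (n0 (n2 (n1 (n3 (n0 l o) (n0 l o)) (n3 (n2 l o) l)) o) o) (n0 (n3 (n3 (n0 l o) l) l) o)) (n3 (n2 (n1 (n1 (n2 l o) l) l) o) (n1 (n3 (n0 l o) l) l))))) l) l) l) l)) o) o) o) o)) o) o) o) o) o) o) o) o) o) o) o) o)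

def K6s1_pp_h0 : subCheck K6s1 true true K6s1_pp_A K6s1_pp_B [] K6s1_pp_t0 = true := by decide +kernel

def K6s1_pp_L : List (Path × Tr) := [([], K6s1_pp_t0)]

def K6s1_pp_T : Tr := l

theorem K6s1_pp_cov : covers (K6s1_pp_L.map (fun e => pathBox e.1 root4)) K6s1_pp_T root4 = true := by decide +kernel

theorem K6s1_pp_all : AllSub K6s1 true true K6s1_pp_A K6s1_pp_B K6s1_pp_L := allSub_cons K6s1_pp_h0 (allSub_nil)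

theorem K6s1_hpp : QuadChecked K6s1 true true := quadChecked_intro K6s1_pp_root K6s1_pp_cov K6s1_pp_all

def K6s1_pm_A : Nat := (rootPP K6s1 true false).elim 0 (fun x => x.1)

def K6s1_pm_B : Nat := (rootPP K6s1 true false).elim 0 (fun x => x.2)

def K6s1_pm_root : rootCheck K6s1 true false K6s1_pm_A K6s1_pm_B = true := by decide +kernel

def K6s1_pm_t0 : Tr := (n0 (n0 (n0 (n0 (n2 (n2 (n2 (n2 (n1 (n1 (n1 (n1 (n1 (n3 (n3 (n3 (n3 (n3 (n1 (n3 (n0 (n2 (n2 (n0 (n2 (n0 (n2 (n3 (n0 (n1 (n2 (n0 (n2 (n3 (n0 (n1 (n2 (n0 (n2 (n3 (n0 (n1 (n2 (n0 (n2 (n3 (n0 (n1 (n2 (n0 (n2 (n3 l (n0 (n1 (n2 (n0 (n2 o l) l) l) l) l)) l) l) l) l) l) (n0 (n1 (n2 (n0 (n2 o l) l) l) (n2 (n0 (n2 o l) l) l)) l)) l) l) l) l) l) (n0 (n1 (n2 (n0 (n2 o l) l) l) (n2 (n0 (n2 o l) l) l)) l)) l) l) l) l) l) (n0 (n1 (n2 (n0 (n2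 o l) l) l) (n2 (n0 (n2 o l) l) l)) l)) l) l) l) l) l) (n0 (n1 (n2 (n0 (n2 o l) l) l) (n2 (n2 o l) l)) l)) l) l) l) l) l) o) o) (n2 (n1 (n2 (n0 (n2 (n0 (n2 o l) l) l) o) o) (n2 (n0 (n2 (n2 o l) l) o) o)) o)) (n3 (n0 (n1 l l) (n2 (n1 o (n2 (n1 o l) (n1 o (n3 (n0 l o) l)))) o)) (n2 (n1 (n2 (n0 l o) o) (n2 (n0 l (n1 o l)) o)) o))) (n2 (n1 (n2 o o) (n2 o o)) o)) o) o) o) o) (n3 (n3 (n3 (n3 (n3 (n1 (n3 (n1 (n2 l o) l) l) l) l) o) o) o) o)) o) o) o) o) o) o) o) o) o) o) o) o)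

def K6s1_pm_h0 : subCheck K6s1 true false K6s1_pm_A K6s1_pm_B [] K6s1_pm_t0 = true := by decide +kernel

def K6s1_pm_L : List (Path × Tr) := [([], K6s1_pm_t0)]

def K6s1_pm_T : Tr := l

theorem K6s1_pm_cov : covers (K6s1_pm_L.map (fun e => pathBox e.1 root4)) K6s1_pm_T root4 = true := by decide +kernel

theorem K6s1_pm_all : AllSub K6s1 true false K6s1_pm_A K6s1_pm_B K6s1_pm_L := allSub_cons K6s1_pm_h0 (allSub_nil)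

theorem K6s1_hpm : QuadChecked K6s1 true false := quadChecked_intro K6s1_pm_root K6s1_pm_cov K6s1_pm_all

def K6s1_mp_A : Nat := (rootPP K6s1 false true).elim 0 (fun x => x.1)

def K6s1_mp_B : Nat := (rootPP K6s1 false true).elim 0 (fun x => x.2)

def K6s1_mp_root : rootCheck K6s1 false true K6s1_mp_A K6s1_mp_B = true := by decide +kernel

def K6s1_mp_t0 : Tr := (n0 (n0 (n0 (n0 (n2 (n2 (n2 (n2 (n1 (n1 (n1 (n1 (n1 (n3 (n3 (n3 (n3 (n3 (n3 (n1 (n2 (n0 (n0 (n2 (n0 (n2 (n0 (n1 (n2 (n3 (n0 (n2 (n0 (n1 (n2 (n3 (n0 (n2 (n0 (n1 (n2 (n3 (n0 (n2 (n0 (n1 (n2 (n3 (n0 (n2 (n0 (n1 l (n2 (n3 (n0 (n2 (n0 o l) l) l) l) l)) l) l) l) l) l) (n2 (n3 (n0 (n2 (n0 o l) l) l) (n0 (n2 (n0 o l) l) l)) l)) l) l) l) l) l) (n2 (n3 (n0 (n2 (n0 o l) l) l) (n0 (n2 (n0 o l) l) l)) l)) l) l) l) l) l) (n2 (n3 (n0 (n2 (n0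 o l) l) l) (n0 (n2 (n0 o l) l) l)) l)) l) l) l) l) l) (n2 (n3 (n0 (n2 (n0 o l) l) l) (n0 (n0 o l) l)) l)) l) l) l) l) l) o) o) (n0 (n3 (n0 (n2 (n0 (n2 (n0 o l) l) l) o) o) (n0 (n2 (n0 (n0 o l) l) o) o)) o)) (n1 (n2 (n3 l l) (n0 (n3 o (n0 (n3 o l) (n3 o (n1 (n2 l o) l)))) o)) (n0 (n3 (n0 (n2 l o) o) (n0 (n2 l (n3 o l)) o)) o))) (n3 (n1 (n3 (n0 l o) l) l) l)) o) o) o) o) (n3 (n3 (n3 (n3 (n3 (n0 (n3 (n0 o o) (n0 o o)) o) l) o) o) o) o)) o) o) o) o) o) o) o) o) o) o) o) o)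

def K6s1_mp_h0 : subCheck K6s1 false true K6s1_mp_A K6s1_mp_B [] K6s1_mp_t0 = true := by decide +kernel

def K6s1_mp_L : List (Path × Tr) := [([], K6s1_mp_t0)]

def K6s1_mp_T : Tr := l

theorem K6s1_mp_cov : covers (K6s1_mp_L.map (fun e => pathBox e.1 root4)) K6s1_mp_T root4 = true := by decide +kernel

theorem K6s1_mp_all : AllSub K6s1 false true K6s1_mp_A K6s1_mp_B K6s1_mp_L := allSub_cons K6s1_mp_h0 (allSub_nil)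

theorem K6s1_hmp : QuadChecked K6s1 false true := quadChecked_intro K6s1_mp_root K6s1_mp_cov K6s1_mp_all

def K6s1_mm_A : Nat := (rootPP K6s1 false false).elim 0 (fun x => x.1)

def K6s1_mm_B : Nat := (rootPP K6s1 false false).elim 0 (fun x => x.2)

def K6s1_mm_root : rootCheck K6s1 false false K6s1_mm_A K6s1_mm_B = true := by decide +kernel

def K6s1_mm_t0 : Tr := (n0 (n0 (n0 (n0 (n2 (n2 (n2 (n2 (n1 (n1 (n1 (n1 (n1 (n3 (n3 (n3 (n3 (n3 (n1 (n3 (n0 (n2 (n0 (n2 (n0 (n2 (n0 (n1 (n2 (n3 (n0 (n2 (n0 (n1 (n2 (n3 (n0 (n2 (n0 (n1 (n2 (n3 (n0 (n2 (n0 (n1 (n2 (n3 (n0 (n2 (n0 (n1 (n2 (n3 (n0 (n2 (n0 (n1 l (n2 (n3 l (n0 (n2 (n0 o l) l) l)) l)) l) l) l) (n2 (n0 (n2 o l) l) l)) l) (n2 (n3 (n0 (n2 (n0 o l) l) l) (n0 (n2 (n0 o l) l) l)) l)) l) l) l) (n2 (n0 (n2 o l) l) l)) l) (n2 (n3 (n0 (n2 (n0 o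 l) l) l) (n0 (n2 (n0 o l) l) l)) l)) l) l) l) (n2 (n0 (n2 o l) l) l)) l) (n2 (n3 (n0 (n2 (n0 o l) l) l) (n0 (n2 (n0 o l) l) l)) l)) l) l) l) (n2 (n0 (n2 o l) l) l)) l) (n2 (n3 (n0 (n2 (n0 o l) l) l) (n0 (n2 (n0 o l) l) l)) l)) l) l) l) (n2 (n0 (n2 o l) l) l)) l) (n2 (n3 (n0 (n2 (n0 o l) l) l) (n0 (n2 (n0 o l) l) l)) l)) l) l) l) l) l) o) o) (n2 (n0 (n2 (n0 (n2 (n0 (n2 o l) l) l) l) o) o) o)) (n0 (n2 (n2 (n3 (n0 (n0 (n2 (n0 o l) l) l) o) (n0 (n0 (n2 (n0 o l) l) l) o)) l) o) o)) (n2 (n0 (n2 o o) o) o)) o) o) o) o) (n3 (n3 (n3 (n3 (n3 (n0 (n2 (n0 o o) o) o) (n0 (n2 (n0 o o) o) o)) o) o) o) o)) o) o) o) o) o) o) o) o) o) o) o) o)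

def K6s1_mm_h0 : subCheck K6s1 false false K6s1_mm_A K6s1_mm_B [] K6s1_mm_t0 = true := by decide +kernel

def K6s1_mm_L : List (Path × Tr) := [([], K6s1_mm_t0)]

def K6s1_mm_T : Tr := l

theorem K6s1_mm_cov : covers (K6s1_mm_L.map (fun e => pathBox e.1 root4)) K6s1_mm_T root4 = true := by decide +kernel

theorem K6s1_mm_all : AllSub K6s1 false false K6s1_mm_A K6s1_mm_B K6s1_mm_L := allSub_cons K6s1_mm_h0 (allSub_nil)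

theorem K6s1_hmm : QuadChecked K6s1 false false := quadChecked_intro K6s1_mm_root K6s1_mm_cov K6s1_mm_all

end Vale.Agent.Lib.P154
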