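import Vale.Agent.Lib.P154.Checker

set_option linter.defProp false

namespace Vale.Agent.Lib.P154

private abbrev n0 := Tr.nd 0
private abbrev n1 := Tr.nd 1
private abbrev n2 := Tr.nd 2
private abbrev n3 := Tr.nd 3
private abbrev l := Tr.lf
private abbrev o := Tr.ot

def K6s3 : KCfg where
  W := 224
  room := 11
  roomT := 33
  ns := [5, 3, 5, 3]
  den := 4096
  pp := ⟨916, (-7574), 26826⟩
  p0 := ⟨1188, (-9406), 31584⟩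
  pY := ⟨3328, (-79946), 716008⟩
  tn := 64
  E := 1048576
  q1 := [1048576, (-3145728), 9437184, (-28311552), 85003597, (-259390098), 861290874, (-2473960718), 3385111242]
  q2 := [1048576, (-6291456), 28311552, (-113246208), 421461426, (-1553972380), 5950543577, (-17677810203), 23625585559]
  q3 := [1048576, (-9437184), 56623104, (-283115520), 1369078831, (-6755387616), 24281131028, (-36767365628)]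
  q4 := [1048576, (-12582912), 94371840, (-566231040), 4160859040, (-20955039363), 39253987967]
  q5 := [1048576, (-15728640), 141557760, (-990904320), 13764711914, (-38745369746)]
  lamA := (1, 1)
  lamB := (105, 256)

theorem K6s3_hwf : wfK K6s3 = true := by decide +kernel

def K6s3_Q : QTrees where
  t1 := ((n0 (n0 (n0 (n0 (n0 l l) l) (n0 l (n0 l l))) l) o), (n0 (n0 (n0 l (n0 (n0 (n0 (n0 l (n0 l (n0 (n0 l (n0 (n0 (n0 l o) o) o)) o))) o) o) o)) o) o))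
  t2 := ((n0 (n0 (n0 l (n0 l l)) (n0 (n0 (n0 (n0 l (n0 l (n0 (n0 l o) o))) o) o) o)) o), (n0 (n0 (n0 (n0 l (n0 l l)) l) o) o))
  t3 := ((n0 (n0 (n0 l l) (n0 (n0 (n0 (n0 l (n0 l (n0 l o))) o) o) o)) o), (n0 (n0 (n0 l (n0 (n0 (n0 (n0 l (n0 l (n0 (n0 l (n0 (n0 l o) o)) o))) o) o) o)) o) o))
  t4 := ((n0 (n0 (n0 l l) l) o), (n0 (n0 (n0 l (n0 (n0 (n0 (n0 l (n0 l (n0 (n0 l (n0 l o)) o))) o) o) o)) o) o))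
  t5 := ((n0 (n0 l (n0 (n0 (n0 l o) o) o)) o), (n0 (n0 (n0 l (n0 (n0 (n0 l o) o) o)) o) o))

def K6s3_hq : allQ K6s3 128 K6s3_Q = true := by decide +kernel

def K6s3_pp_A : Nat := (rootPP K6s3 true true).elim 0 (fun x => x.1)

def K6s3_pp_B : Nat := (rootPP K6s3 true true).elim 0 (fun x => x.2)

def K6s3_pp_root : rootCheck K6s3 true true K6s3_pp_A K6s3_pp_B = true := by decide +kernel

def K6s3_pp_t0 : Tr := (n0 (n2 (n2 (n2 (n2 (n1 (n1 (n1 (n3 (n3 (n3 (n3 (n3 (n0 (n1 (n0 (n3 (n2 l o) (n0 l (n1 (n3 (n0 l (n2 l o)) l) l))) (n2 (n1 (n0 (n0 (n3 (n0 (n1 o (n3 (n1 (n0 l o) l) l)) o) (n0 (n1 o l) o)) o) o) (n0 (n0 (n1 (n1 (n0 l (n3 (n1 (n0 l o) l) l)) l) l) (n3 (n1 o (n1 (n0 l o) l)) (n1 o l))) o)) (n0 (n1 (n0 (n3 o (n1 o (n3 o (n0 l o)))) o) (n3 o (n0 (n1 (n3 o l) l) (n1 o (n1 (n3 o (n0 l o)) l)))))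 o))) (n0 (n3 l l) (n2 (n1 (n0 l (n1 (n1 (n0 (n1 o l) o) (n0 l o)) l)) l) (n1 (n0 l (n1 (n3 o (n0 (n1 (n0 l o) l) o)) (n3 o (n1 (n0 l (n2 l o)) l)))) l)))) (n2 (n1 o (n1 (n2 (n3 (n0 (n1 o (n0 (n1 o l) o)) o) (n0 (n1 o (n0 (n1 o l) o)) o)) (n0 (n1 o (n0 (n1 o (n0 l o)) o)) o)) (n2 (n3 (n1 (n0 l o) (n0 l o)) (n1 (n0 l o) (n0 l o))) (n1 (n0 (n0 l (n1 o (n0 l o))) o) (n0 l o))))) (n1 o (n0 (n1 (n2 (n1 o (n0 (n1 o (n0 l o)) o)) o) (n2 (n1 (n0 l (n1 o (n2 (n1 o (n0 l o)) o))) l) o)) o)))) (n0 (n1 (n0 l (n1 (n2 (n0 (n0 (n3 (n1 o l) o) o) o) (n0 (n3 (n0 (n1 o (n3 (n0 l o) l)) o) (n0 l o)) o)) (n0 (n3 (n0 l (n2 (n1 o l) (n1 o l))) l) o))) (n2 (n1 (n0 l (n1 (n0 l (n3 (n1 (n0 l o) l) o)) l)) l) (n0 l (n1 (n0 l (n3 (n1 (n2 (n0 l o) (n0 (n1 (n0 l o) l) o)) l) (n2 o (n1 (n0 l o) l)))) l)))) (n2 (n1 o (n1 (n2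 o (n0 (n1 o (n0 (n1 o l) o)) o)) (n2 o (n1 (n0 (n1 (n0 l o) (n0 l (n0 l o))) o) (n0 (n0 o (n1 (n0 l o) l)) o))))) (n1 o (n0 (n1 (n2 (n1 o (n0 (n1 o (n3 (n0 l o) o)) o)) (n0 (n3 (n1 o (n2 (n1 o (n0 l o)) (n0 (n1 o l) o))) (n1 o (n2 o (n0 (n1 o l) o)))) o)) (n2 (n1 (n2 (n0 l (n1 o (n0 l o))) (n0 l (n1 o (n3 (n2 (n0 l o) (n0 l o)) o)))) (n2 (n0 o (n1 (n0 l o) l)) (n0 o (n3 (n1 (n0 l o) l) o)))) (n0 l (n2 (n1 (n3 (n0 (n1 o l) o) o) l) (n1 (n3 (n0 (n1 o l) o) l) l))))) o))))) o) o) o) o) (n3 (n3 (n3 (n3 (n3 (n2 (n0 o (n1 (n1 (n0 o o) o) o)) (n0 o (n1 (n1 (n2 (n3 o (n0 o o)) o) o) o))) (n0 o (n2 (n1 (n1 (n1 (n2 o (n0 o o)) o) o) o) (n1 (n1 (n2 (n1 (n0 o o) o) (n0 o o)) o) o)))) o) o) o) o)) o) o) o) o) o) o) o)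

def K6s3_pp_h0 : subCheck K6s3 true true K6s3_pp_A K6s3_pp_B [] K6s3_pp_t0 = true := by decide +kernel

def K6s3_pp_L : List (Path × Tr) := [([], K6s3_pp_t0)]

def K6s3_pp_T : Tr := l

theorem K6s3_pp_cov : covers (K6s3_pp_L.map (fun e => pathBox e.1 root4)) K6s3_pp_T root4 = true := by decide +kernel

theorem K6s3_pp_all : AllSub K6s3 true true K6s3_pp_A K6s3_pp_B K6s3_pp_L := allSub_cons K6s3_pp_h0 (allSub_nil)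

theorem K6s3_hpp : QuadChecked K6s3 true true := quadChecked_intro K6s3_pp_root K6s3_pp_cov K6s3_pp_all

def K6s3_pm_A : Nat := (rootPP K6s3 true false).elim 0 (fun x => x.1)

def K6s3_pm_B : Nat := (rootPP K6s3 true false).elim 0 (fun x => x.2)

def K6s3_pm_root : rootCheck K6s3 true false K6s3_pm_A K6s3_pm_B = true := by decide +kernel

def K6s3_pm_t0 : Tr := (n0 (n2 (n2 (n2 (n2 (n1 (n1 (n1 (n3 (n3 (n3 (n3 (n3 (n2 (n0 (n1 (n0 (n3 (n0 (n1 (n2 (n2 (n0 (n2 (n3 l (n0 (n1 (n2 (n0 (n2 o l) l) l) l) l)) l) l) l) l) l) l) (n2 (n0 (n1 (n2 (n0 (n2 o l) l) l) l) l) o)) (n0 (n1 (n0 (n1 o (n3 (n0 (n2 (n1 (n0 l o) l) (n3 (n1 (n0 l o) l) (n1 (n0 l o) l))) o) (n2 (n0 (n2 l (n1 (n0 l o) l)) o) o))) o) (n0 (n3 (n1 (n1 (n0 l (n2 (n0 l o) (n3 (n1 (n0 l o) l) (n1 (n0 l o) l)))) l) l) (n1 (n2 (n0 l (n1 (n2 (n2 o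 (n0 l o)) (n0 l o)) l)) o) l)) (n1 o (n3 (n1 (n0 l o) l) (n2 (n1 (n0 l o) l) o))))) o)) (n0 l (n1 (n0 l (n1 (n0 (n1 (n2 (n3 (n1 o l) (n1 o l)) (n3 (n1 o l) o)) l) o) l)) l))) (n1 o (n1 (n2 (n3 (n0 (n1 o (n0 (n1 o l) o)) o) (n0 (n1 o (n0 (n1 o l) o)) o)) (n0 (n1 o (n0 (n1 o (n1 o l)) o)) o)) (n1 (n0 (n1 (n0 l o) l) o) (n2 (n3 (n0 l o) l) (n0 l o)))))) o) (n2 (n0 (n1 (n0 (n1 (n2 o o) l) (n0 (n1 (n2 o o) (n2 o o)) o)) (n0 l (n1 (n0 l (n1 (n2 o o) l)) l))) (n1 o (n2 o o))) o)) o) o) o) o) (n3 (n3 (n3 (n3 (n3 (n2 (n0 o (n1 (n1 (n1 (n0 o o) o) o) o)) o) (n2 (n0 o (n1 (n1 (n1 (n2 o o) o) o) o)) o)) o) o) o) o)) o) o) o) o) o) o) o)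

def K6s3_pm_h0 : subCheck K6s3 true false K6s3_pm_A K6s3_pm_B [] K6s3_pm_t0 = true := by decide +kernel

def K6s3_pm_L : List (Path × Tr) := [([], K6s3_pm_t0)]

def K6s3_pm_T : Tr := l

theorem K6s3_pm_cov : covers (K6s3_pm_L.map (fun e => pathBox e.1 root4)) K6s3_pm_T root4 = true := by decide +kernel

theorem K6s3_pm_all : AllSub K6s3 true false K6s3_pm_A K6s3_pm_B K6s3_pm_L := allSub_cons K6s3_pm_h0 (allSub_nil)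

theorem K6s3_hpm : QuadChecked K6s3 true false := quadChecked_intro K6s3_pm_root K6s3_pm_cov K6s3_pm_all

def K6s3_mp_A : Nat := (rootPP K6s3 false true).elim 0 (fun x => x.1)

def K6s3_mp_B : Nat := (rootPP K6s3 false true).elim 0 (fun x => x.2)

def K6s3_mp_root : rootCheck K6s3 false true K6s3_mp_A K6s3_mp_B = true := by decide +kernel

def K6s3_mp_t0 : Tr := (n0 (n2 (n2 (n2 (n2 (n1 (n1 (n1 (n3 (n3 (n3 (n3 (n3 (n0 (n1 (n0 (n0 (n1 (n3 (n2 (n0 (n2 (n0 (n1 (n2 (n2 (n3 (n0 (n2 (n0 (n1 l (n2 (n3 (n0 (n2 (n0 o l) l) l) l) l)) l) l) l) l) l) l) (n2 (n0 (n2 (n3 (n0 o (n2 (n1 l o) (n1 l o))) (n0 o l)) l) (n2 l l)) l)) l) l) l) o) l) (n3 (n3 (n0 (n2 (n2 (n0 o (n0 o (n1 l o))) (n0 o (n1 l o))) o) (n2 (n0 (n2 l (n3 (n1 l o) (n1 l o))) l) o)) (n0 (n2 (n0 o (n3 (n1 l o) (n1 l o))) o) (n2 l o))) (n0 (n2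 (n0 o l) (n3 o l)) (n2 l (n3 o l))))) (n2 (n1 (n0 l (n1 (n0 l (n2 l (n3 (n1 (n0 l o) o) l))) (n2 l (n0 l o)))) (n0 l o)) (n3 o (n0 (n1 l (n2 l o)) (n1 (n3 o (n0 l (n2 l o))) o))))) o) (n0 (n0 o (n2 (n0 o o) (n1 (n3 o (n0 o o)) o))) o)) o) (n0 (n1 (n0 (n0 l (n2 l (n0 l (n3 (n1 l o) l)))) o) (n0 (n0 o (n0 o o)) o)) o)) o) o) o) o) (n3 (n3 (n3 (n3 (n3 (n0 o o) (n0 o o)) o) o) o) o)) o) o) o) o) o) o) o)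

def K6s3_mp_h0 : subCheck K6s3 false true K6s3_mp_A K6s3_mp_B [] K6s3_mp_t0 = true := by decide +kernel

def K6s3_mp_L : List (Path × Tr) := [([], K6s3_mp_t0)]

def K6s3_mp_T : Tr := l

theorem K6s3_mp_cov : covers (K6s3_mp_L.map (fun e => pathBox e.1 root4)) K6s3_mp_T root4 = true := by decide +kernel

theorem K6s3_mp_all : AllSub K6s3 false true K6s3_mp_A K6s3_mp_B K6s3_mp_L := allSub_cons K6s3_mp_h0 (allSub_nil)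

theorem K6s3_hmp : QuadChecked K6s3 false true := quadChecked_intro K6s3_mp_root K6s3_mp_cov K6s3_mp_all

def K6s3_mm_A : Nat := (rootPP K6s3 false false).elim 0 (fun x => x.1)

def K6s3_mm_B : Nat := (rootPP K6s3 false false).elim 0 (fun x => x.2)

def K6s3_mm_root : rootCheck K6s3 false false K6s3_mm_A K6s3_mm_B = true := by decide +kernel

def K6s3_mm_t0 : Tr := (n0 (n2 (n2 (n2 (n2 (n1 (n1 (n1 (n3 (n3 (n3 (n3 (n3 (n2 (n0 (n1 (n0 (n0 (n1 (n2 (n3 (n0 (n2 (n0 (n1 (n2 (n3 (n0 (n2 (n0 (n1 (n2 (n3 l (n0 (n2 (n0 (n1 l (n2 o l)) l) l) l)) l) (n2 (n3 (n0 (n2 (n0 o l) l) l) (n0 (n2 (n0 o l) l) l)) l)) l) l) l) (n0 (n2 (n2 o (n0 l l)) l) l)) l) (n2 (n3 (n0 (n2 (n0 o (n1 (n2 l (n2 l l)) o)) (n1 l o)) (n2 (n0 (n1 l o) l) (n1 l (n0 o (n1 l o))))) (n0 (n2 (n0 o (n2 o (n1 (n1 (n0 o (n2 o (n3 l o))) o) o)))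 (n1 (n0 o (n2 (n1 l o) l)) o)) (n2 (n0 (n1 (n2 o (n1 l (n3 l o))) o) (n1 l (n2 o (n3 (n1 l o) o)))) (n1 (n0 (n1 l (n2 (n3 l o) (n3 l (n1 l o)))) l) (n0 o (n1 (n3 (n2 (n1 l o) (n1 l o)) (n2 o (n1 (n3 l o) o))) o)))))) (n0 (n2 (n3 (n1 l o) (n1 l o)) l) (n3 (n1 l (n2 (n0 o (n1 l o)) l)) (n1 l (n2 (n1 (n0 o (n3 l (n2 (n1 l o) l))) o) (n1 l o))))))) (n2 (n3 l (n0 (n1 l (n2 l (n1 l (n0 (n3 (n1 l o) (n1 (n2 o (n1 l (n3 l o))) o)) l)))) l)) (n1 l (n0 (n1 l (n3 l (n2 (n1 (n3 l (n2 (n1 l (n0 (n3 l o) l)) l)) (n0 o (n3 l (n1 l (n3 l (n2 o (n1 l o))))))) (n1 l (n0 o (n3 l (n1 l (n3 l (n1 l o))))))))) l)))) (n0 l l)) l) (n0 (n2 (n0 (n1 (n2 o l) (n2 o (n0 (n2 o l) (n2 o (n3 (n1 l (n1 l o)) o))))) (n2 o (n1 l (n0 (n1 (n2 o l) (n3 (n2 o (n1 l (n0 o (n3 (n1 (n2 (n1 l (n3 l o)) l) (n2 (n3 (n1 (n0 o l) o) o) (n1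 l o))) o)))) o)) (n1 (n2 o l) (n3 (n2 o (n1 l (n3 l o))) o)))))) (n0 l l)) (n2 (n2 o (n1 l (n0 (n2 o (n1 l (n3 l o))) l))) l))) l) (n3 (n0 (n2 (n0 o (n2 (n0 o (n1 (n2 (n3 l (n2 l (n0 (n3 l (n2 o (n1 l o))) l))) (n3 (n1 l o) (n1 (n2 (n3 l (n0 (n1 (n3 l (n1 l o)) o) l)) (n1 (n3 l (n0 (n1 l o) l)) o)) o))) o)) (n3 (n1 (n0 o (n1 l o)) o) (n1 (n0 o (n2 (n1 (n1 l o) o) (n1 l o))) o)))) (n3 (n0 o (n1 (n0 o l) o)) (n0 o (n2 (n1 l o) o)))) (n2 (n0 (n2 (n1 (n3 l (n0 (n1 l o) l)) o) (n3 (n1 l o) (n1 (n2 (n1 l (n0 o l)) (n1 l (n0 o l))) o))) l) (n3 (n0 (n1 l o) l) (n0 (n2 (n1 l o) o) l)))) (n2 (n0 (n2 (n0 o (n2 o (n1 (n0 o (n3 (n1 (n2 o (n1 (n3 (n0 (n1 (n3 (n2 (n0 o l) l) o) o) l) o) o)) o) o)) o))) (n0 o (n3 (n1 (n2 (n0 o (n1 (n1 (n2 (n3 (n0 (n1 l o) l) o) l) o) o)) (n0 o (n1 l o))) o) (n1 (n2 o (n0 o (n1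 l o))) o)))) (n2 (n0 (n2 o (n1 (n0 (n3 (n1 (n2 o (n1 l (n3 l o))) o) o) (n3 l o)) o)) l) (n0 (n3 (n1 (n2 (n0 (n1 (n2 (n1 l (n3 l o)) l) o) l) (n0 (n1 l o) l)) o) (n1 (n2 o (n0 (n1 l o) l)) o)) l))) o))) (n1 (n3 (n1 (n0 l (n0 l (n3 (n2 l (n1 (n0 l o) o)) (n2 l (n1 (n0 l o) o))))) (n0 l (n2 l (n0 l o)))) (n1 (n0 l (n0 l (n3 (n1 (n0 l o) o) (n1 l o)))) (n0 l (n0 l o)))) (n3 (n0 l o) (n0 l o)))) o) (n0 (n0 o l) o)) o) o) (n2 (n1 (n0 (n0 (n0 (n1 (n2 o o) (n2 o o)) (n1 (n2 o o) (n2 o o))) o) o) (n0 (n0 (n0 o l) o) o)) o)) o) o) o) o) (n3 (n3 (n3 (n3 (n3 (n2 (n0 o o) o) (n0 o o)) o) o) o) o)) o) o) o) o) o) o) o)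

def K6s3_mm_h0 : subCheck K6s3 false false K6s3_mm_A K6s3_mm_B [] K6s3_mm_t0 = true := by decide +kernel

def K6s3_mm_L : List (Path × Tr) := [([], K6s3_mm_t0)]

def K6s3_mm_T : Tr := l

theorem K6s3_mm_cov : covers (K6s3_mm_L.map (fun e => pathBox e.1 root4)) K6s3_mm_T root4 = true := by decide +kernel

theorem K6s3_mm_all : AllSub K6s3 false false K6s3_mm_A K6s3_mm_B K6s3_mm_L := allSub_cons K6s3_mm_h0 (allSub_nil)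

theorem K6s3_hmm : QuadChecked K6s3 false false := quadChecked_intro K6s3_mm_root K6s3_mm_cov K6s3_mm_all

end Vale.Agent.Lib.P154
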