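import Vale.Agent.Lib.P154.Checker

set_option linter.defProp false

namespace Vale.Agent.Lib.P154

private abbrev n0 := Tr.nd 0
private abbrev n1 := Tr.nd 1
private abbrev n2 := Tr.nd 2
private abbrev n3 := Tr.nd 3
private abbrev l := Tr.lf
private abbrev o := Tr.ot

def K7s1 : KCfg where
  W := 336
  room := 11
  roomT := 33
  ns := [5, 3, 5, 3]
  den := 4096
  pp := ⟨1475, (-12259), 76401⟩
  p0 := ⟨3663, (-98432), 957457⟩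
  pY := ⟨3663, (-98432), 957457⟩
  tn := 64
  E := 1048576
  q1 := [1048576, (-3145728), 9437184, (-28311552), 84930583, (-254824116), 769709968, (-2311140561), 5019036563]
  q2 := [1048576, (-6291456), 28311552, (-113246208), 424633777, (-1529158391), 5402458663, (-18429233787), 42953201761]
  q3 := [1048576, (-9437184), 56623104, (-283115520), 1275258812, (-5413785620), 21702708233, (-58180252106)]
  q4 := [1048576, (-12582912), 94371840, (-566231040), 3024217318, (-14869819729), 47569437023]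
  q5 := [1048576, (-15728640), 141557760, (-990904320), 6643992834, (-28462662989)]
  lamA := (97, 256)
  lamB := (97, 256)

theorem K7s1_hwf : wfK K7s1 = true := by decide +kernel

def K7s1_Q : QTrees where
  t1 := ((n0 (n0 (n0 (n0 (n0 l (n0 l l)) (n0 l (n0 (n0 (n0 (n0 l (n0 l (n0 (n0 (n0 l o) o) o))) o) o) o))) o) o) o), (n0 (n0 (n0 (n0 (n0 l (n0 (n0 l l) l)) o) o) o) o))
  t2 := ((n0 (n0 (n0 (n0 (n0 l (n0 l l)) (n0 l (n0 (n0 (n0 (n0 l (n0 l (n0 (n0 l o) o))) o) o) o))) o) o) o), (n0 (n0 (n0 (n0 (n0 l (n0 l l)) o) o) o) o))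
  t3 := ((n0 (n0 (n0 (n0 (n0 l l) (n0 l (n0 (n0 (n0 (n0 l (n0 l (n0 (n0 l o) o))) o) o) o))) o) o) o), (n0 (n0 (n0 (n0 (n0 l (n0 l (n0 (n0 (n0 l (n0 (n0 (n0 (n0 l o) o) o) o)) o) o))) o) o) o) o))
  t4 := ((n0 (n0 (n0 (n0 l (n0 l l)) o) o) o), (n0 (n0 (n0 (n0 (n0 l (n0 l (n0 (n0 (n0 l (n0 (n0 (n0 l o) o) o)) o) o))) o) o) o) o))
  t5 := ((n0 (n0 (n0 (n0 l (n0 l (n0 (n0 (n0 l o) o) o))) o) o) o), (n0 (n0 (n0 (n0 (n0 l (n0 l (n0 (n0 (n0 l (n0 (n0 l o) o)) o) o))) o) o) o) o))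

def K7s1_hq : allQ K7s1 128 K7s1_Q = true := by decide +kernel

def K7s1_pp_A : Nat := (rootPP K7s1 true true).elim 0 (fun x => x.1)

def K7s1_pp_B : Nat := (rootPP K7s1 true true).elim 0 (fun x => x.2)

def K7s1_pp_root : rootCheck K7s1 true true K7s1_pp_A K7s1_pp_B = true := by decide +kernel

def K7s1_pp_t0 : Tr := (n0 (n0 (n0 (n0 (n2 (n2 (n2 (n2 (n1 (n1 (n1 (n1 (n1 (n3 (n3 (n3 (n3 (n3 (n1 (n3 (n0 (n3 (n2 (n1 l (n1 l l)) o) (n2 (n1 (n3 l l) (n1 (n3 (n0 l (n2 l (n0 l o))) (n2 l (n0 l (n2 l o)))) (n3 (n0 l (n2 l (n0 l o))) (n0 l (n2 l (n0 l o)))))) o)) o) (n2 (n1 (n0 l o) (n0 (n3 (n1 (n3 (n2 l (n0 l (n2 l o))) (n2 l (n0 l (n2 l (n0 l o))))) (n3 (n2 l (n0 l (n2 l o))) (n2 l (n0 l (n2 l (n0 l o)))))) l) o)) (n3 o (n1 (n0 (n3 o (n0 l (n3 o l))) o) (n0 (n3 o (n0 l (n3 o l))) o))))) (n3 (n0 (n3 (n2 l o) (n2 (n1 (n3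 (n1 (n0 l (n2 l (n0 l o))) (n0 l (n2 l (n0 l (n2 l o))))) (n1 (n0 l (n2 l (n0 l o))) (n0 l (n2 l (n0 l (n2 l o)))))) l) o)) (n1 o (n3 (n2 (n1 o (n2 l (n1 o l))) o) (n2 (n1 o (n2 l (n1 o l))) o)))) (n1 (n3 (n0 (n2 (n1 (n3 (n0 l (n2 l (n0 l o))) (n0 l (n2 l (n0 l o)))) (n3 (n2 l (n0 l (n2 l o))) (n0 l (n2 l (n0 l (n2 l (n0 l o))))))) o) o) (n0 (n2 l (n3 o (n0 l (n3 o l)))) o)) (n3 (n2 (n0 l (n1 o (n2 l (n1 o l)))) o) (n0 (n2 l (n3 o (n0 l (n3 o l)))) (n2 (n1 o (n2 l (n1 o l))) (n1 o (n3 o (n0 (n2 l o) o))))))))) (n1 (n3 (n1 (n3 (n2 l (n0 l o)) l) (n3 (n2 (n1 (n0 l o) (n0 l o)) (n0 l o)) (n2 o l))) l) (n2 (n1 (n3 (n1 (n3 (n0 l o) o) (n3 (n0 l o) o)) o) (n3 (n0 l (n3 (n1 o l) o)) o)) (n3 (n1 (n3 (n0 l o) l) (n3 (n0 l (n3 (n1 o (n0 l o)) l)) l)) l)))) o) o) o) o) (n3 (n3 (n3 (n3 (n3 (n3 (n1 (n3 (n1 (n0 l (n2 l o))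 l) (n1 (n0 (n3 (n2 l o) (n2 l o)) (n2 l o)) (n0 o l))) l) (n0 (n3 (n1 (n3 (n1 (n2 l o) o) (n1 (n2 l o) o)) o) (n1 (n2 l (n1 (n3 o l) o)) o)) (n1 (n3 (n1 (n2 l o) l) (n1 (n2 l (n1 (n3 o (n2 l o)) l)) l)) l))) l) o) o) o) o)) o) o) o) o) o) o) o) o) o) o) o) o)

def K7s1_pp_h0 : subCheck K7s1 true true K7s1_pp_A K7s1_pp_B [] K7s1_pp_t0 = true := by decide +kernel

def K7s1_pp_L : List (Path × Tr) := [([], K7s1_pp_t0)]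

def K7s1_pp_T : Tr := l

theorem K7s1_pp_cov : covers (K7s1_pp_L.map (fun e => pathBox e.1 root4)) K7s1_pp_T root4 = true := by decide +kernel

theorem K7s1_pp_all : AllSub K7s1 true true K7s1_pp_A K7s1_pp_B K7s1_pp_L := allSub_cons K7s1_pp_h0 (allSub_nil)

theorem K7s1_hpp : QuadChecked K7s1 true true := quadChecked_intro K7s1_pp_root K7s1_pp_cov K7s1_pp_all

def K7s1_pm_A : Nat := (rootPP K7s1 true false).elim 0 (fun x => x.1)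

def K7s1_pm_B : Nat := (rootPP K7s1 true false).elim 0 (fun x => x.2)

def K7s1_pm_root : rootCheck K7s1 true false K7s1_pm_A K7s1_pm_B = true := by decide +kernel

def K7s1_pm_t0 : Tr := (n0 (n0 (n0 (n0 (n2 (n2 (n2 (n2 (n1 (n1 (n1 (n1 (n1 (n3 (n3 (n3 (n3 (n3 (n1 (n3 (n2 (n1 (n0 (n2 (n0 (n2 (n0 (n2 (n3 (n0 (n2 (n0 (n2 (n3 (n0 (n1 (n2 (n0 (n2 (n3 (n0 (n1 (n2 (n0 (n2 (n3 (n0 (n1 (n2 (n0 (n2 (n3 l (n0 (n1 (n2 (n0 (n2 o l) l) l) l) l)) l) l) l) l) l) (n0 (n1 (n2 (n0 (n2 o l) l) l) (n2 (n0 (n2 o l) l) l)) l)) l) l) l) l) l) (n0 (n1 (n2 (n0 (n2 o l) l) l) (n2 (n0 (n2 o l) l) l)) l)) l) l) l) l) l) (n0 (n1 (n2 (n0 (n2 o l) l) l) (n2 (n0 (n2 o l) l) l)) l)) l) l) l) l) (n0 (n2 (n0 (n2 o l) l) l) l)) l) l) l) l) l) o) (n0 (n2 (n2 (n0 (n2 (n3 l (n0 (n2 (n0 (n2 o l) l) l) l)) l) l) l) l) o)) o) (n2 (n1 (n2 (n0 (n2 (n0 (n2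 o l) l) l) o) o) (n2 (n1 (n2 (n0 (n2 o l) o) (n0 l o)) (n0 (n2 (n2 o l) l) o)) o)) o)) (n3 (n2 (n1 (n0 l o) (n0 l (n1 o l))) o) (n2 (n1 (n2 (n1 (n0 l o) (n0 l o)) o) l) o))) (n2 (n1 (n2 o o) (n2 o o)) o)) o) o) o) o) (n3 l o)) o) o) o) o) o) o) o) o) o) o) o) o)

def K7s1_pm_h0 : subCheck K7s1 true false K7s1_pm_A K7s1_pm_B [] K7s1_pm_t0 = true := by decide +kernel

def K7s1_pm_L : List (Path × Tr) := [([], K7s1_pm_t0)]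

def K7s1_pm_T : Tr := l

theorem K7s1_pm_cov : covers (K7s1_pm_L.map (fun e => pathBox e.1 root4)) K7s1_pm_T root4 = true := by decide +kernel

theorem K7s1_pm_all : AllSub K7s1 true false K7s1_pm_A K7s1_pm_B K7s1_pm_L := allSub_cons K7s1_pm_h0 (allSub_nil)

theorem K7s1_hpm : QuadChecked K7s1 true false := quadChecked_intro K7s1_pm_root K7s1_pm_cov K7s1_pm_all

def K7s1_mp_A : Nat := (rootPP K7s1 false true).elim 0 (fun x => x.1)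

def K7s1_mp_B : Nat := (rootPP K7s1 false true).elim 0 (fun x => x.2)

def K7s1_mp_root : rootCheck K7s1 false true K7s1_mp_A K7s1_mp_B = true := by decide +kernel

def K7s1_mp_t0 : Tr := (n0 (n0 (n0 (n0 (n2 (n2 (n2 (n2 (n1 (n1 (n1 (n1 (n1 (n3 (n3 (n3 (n3 (n3 (n3 (n1 (n0 (n3 (n2 (n0 (n2 (n0 (n2 (n0 (n1 (n2 (n0 (n2 (n0 (n1 (n2 (n3 (n0 (n2 (n0 (n1 (n2 (n3 (n0 (n2 (n0 (n1 (n2 (n3 (n0 (n2 (n0 (n1 l (n2 (n3 (n0 (n2 (n0 o l) l) l) l) l)) l) l) l) l) l) (n2 (n3 (n0 (n2 (n0 o l) l) l) (n0 (n2 (n0 o l) l) l)) l)) l) l) l) l) l) (n2 (n3 (n0 (n2 (n0 o l) l) l) (n0 (n2 (n0 o l) l) l)) l)) l) l) l) l) l) (n2 (n3 (n0 (n2 (n0 o l) l) l) (n0 (n2 (n0 o l) l) l)) l)) l) l) l) l) (n2 (n0 (n2 (n0 o l) l) l) l)) l) l) l) l) l) o) (n2 (n0 (n0 (n2 (n0 (n1 l (n2 (n0 (n2 (n0 o l) l) l) l)) l) l) l) l) o)) o) (n0 (n3 (n0 (n2 (n0 (n2 (n0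 o l) l) l) o) o) (n0 (n3 (n0 (n2 (n0 o l) o) (n2 l o)) (n2 (n0 (n0 o l) l) o)) o)) o)) (n1 (n0 (n3 (n2 l o) (n2 l (n3 o l))) o) (n0 (n3 (n0 (n3 (n2 l o) (n2 l o)) o) l) o))) l) o) o) o) o) (n3 (n3 (n3 (n3 (n3 (n0 (n3 (n0 o o) (n0 o o)) o) l) o) o) o) o)) o) o) o) o) o) o) o) o) o) o) o) o)

def K7s1_mp_h0 : subCheck K7s1 false true K7s1_mp_A K7s1_mp_B [] K7s1_mp_t0 = true := by decide +kernel

def K7s1_mp_L : List (Path × Tr) := [([], K7s1_mp_t0)]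

def K7s1_mp_T : Tr := l

theorem K7s1_mp_cov : covers (K7s1_mp_L.map (fun e => pathBox e.1 root4)) K7s1_mp_T root4 = true := by decide +kernel

theorem K7s1_mp_all : AllSub K7s1 false true K7s1_mp_A K7s1_mp_B K7s1_mp_L := allSub_cons K7s1_mp_h0 (allSub_nil)

theorem K7s1_hmp : QuadChecked K7s1 false true := quadChecked_intro K7s1_mp_root K7s1_mp_cov K7s1_mp_all

def K7s1_mm_A : Nat := (rootPP K7s1 false false).elim 0 (fun x => x.1)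

def K7s1_mm_B : Nat := (rootPP K7s1 false false).elim 0 (fun x => x.2)

def K7s1_mm_root : rootCheck K7s1 false false K7s1_mm_A K7s1_mm_B = true := by decide +kernel

def K7s1_mm_t0 : Tr := (n0 (n0 (n0 (n0 (n2 (n2 (n2 (n2 (n1 (n1 (n1 (n1 (n1 (n3 (n3 (n3 (n3 (n3 (n1 (n3 (n0 (n2 (n0 (n2 (n0 (n2 (n0 (n1 (n2 (n3 (n0 (n2 (n0 (n1 (n2 (n3 (n0 (n2 (n0 (n1 (n2 (n3 (n0 (n2 (n0 (n1 (n2 (n3 (n0 (n2 (n0 (n1 (n2 (n3 (n0 (n2 (n0 (n1 l (n2 (n3 l (n0 (n2 (n0 o l) l) l)) l)) l) l) l) (n2 (n0 (n2 o l) l) l)) l) (n2 (n3 (n0 (n2 (n0 o l) l) l) (n0 (n2 (n0 o l) l) l)) l)) l) l) l) (n2 (n0 (n2 o l) l) l)) l) (n2 (n3 (n0 (n2 (n0 o l) l) l) (n0 (n2 (n0 o l) l) l)) l)) l) l) l) (n2 (n0 (n2 o l) l) l)) l) (n2 (n3 (n0 (n2 (n0 o l) l) l) (n0 (n2 (n0 o l) l) l)) l)) l) l) l) (n2 (n0 (n2 o l) l) l)) l) (n2 (n3 (n0 (n2 (n0 o l) l) l) (n0 (n2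 (n0 o l) l) l)) l)) l) l) l) (n2 (n0 (n2 o l) l) l)) l) (n2 (n3 (n0 (n2 (n0 o l) l) l) (n0 (n2 (n0 o l) l) l)) l)) l) l) l) l) l) o) o) (n2 (n0 (n2 (n0 (n2 (n0 (n2 o l) l) l) l) o) o) o)) (n0 (n2 (n2 (n3 (n0 (n0 (n2 (n0 o l) l) l) o) (n0 (n0 (n2 (n0 o l) l) l) o)) l) o) o)) (n2 (n0 (n2 o o) o) o)) o) o) o) o) (n3 (n3 (n3 (n3 (n3 (n0 (n2 (n0 o o) o) o) (n0 (n2 (n0 o o) o) o)) o) o) o) o)) o) o) o) o) o) o) o) o) o) o) o) o)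

def K7s1_mm_h0 : subCheck K7s1 false false K7s1_mm_A K7s1_mm_B [] K7s1_mm_t0 = true := by decide +kernel

def K7s1_mm_L : List (Path × Tr) := [([], K7s1_mm_t0)]

def K7s1_mm_T : Tr := l

theorem K7s1_mm_cov : covers (K7s1_mm_L.map (fun e => pathBox e.1 root4)) K7s1_mm_T root4 = true := by decide +kernel

theorem K7s1_mm_all : AllSub K7s1 false false K7s1_mm_A K7s1_mm_B K7s1_mm_L := allSub_cons K7s1_mm_h0 (allSub_nil)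

theorem K7s1_hmm : QuadChecked K7s1 false false := quadChecked_intro K7s1_mm_root K7s1_mm_cov K7s1_mm_all

end Vale.Agent.Lib.P154
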