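import Vale.Agent.Lib.P154.Checker

set_option linter.defProp false

namespace Vale.Agent.Lib.P154

private abbrev n0 := Tr.nd 0
private abbrev n1 := Tr.nd 1
private abbrev n2 := Tr.nd 2
private abbrev n3 := Tr.nd 3
private abbrev l := Tr.lf
private abbrev o := Tr.ot

def K8s1 : KCfg where
  W := 336
  room := 11
  roomT := 33
  ns := [5, 3, 5, 3]
  den := 4096
  pp := ⟨1475, (-11469), 67683⟩
  p0 := ⟨3856, (-114251), 1213068⟩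
  pY := ⟨3856, (-114251), 1213068⟩
  tn := 64
  E := 1048576
  q1 := [1048576, (-3145728), 9437184, (-28311552), 84932411, (-254815900), 768155049, (-2307458353), 5191172300]
  q2 := [1048576, (-6291456), 28311552, (-113246208), 424651356, (-1529017455), 5387563880, (-18420873853), 44743260816]
  q3 := [1048576, (-9437184), 56623104, (-283115520), 1274749606, (-5394126525), 21651500806, (-60572508910)]
  q4 := [1048576, (-12582912), 94371840, (-566231040), 3008197299, (-14734978813), 49107789738]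
  q5 := [1048576, (-15728640), 141557760, (-990904320), 6489784244, (-28560296163)]
  lamA := (91, 256)
  lamB := (91, 256)

theorem K8s1_hwf : wfK K8s1 = true := by decide +kernel

def K8s1_Q : QTrees where
  t1 := ((n0 (n0 (n0 (n0 (n0 l (n0 l l)) (n0 (n0 l (n0 (n0 l (n0 l (n0 l (n0 (n0 l (n0 l o)) o)))) o)) o)) o) o) o), (n0 (n0 (n0 (n0 (n0 (n0 l (n0 l l)) l) o) o) o) o))
  t2 := ((n0 (n0 (n0 (n0 (n0 l (n0 l l)) (n0 (n0 l (n0 (n0 l (n0 l (n0 l (n0 (n0 l (n0 l o)) o)))) o)) o)) o) o) o), (n0 (n0 (n0 (n0 (n0 (n0 l (n0 l l)) l) o) o) o) o))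
  t3 := ((n0 (n0 (n0 (n0 (n0 l l) (n0 (n0 l (n0 (n0 l (n0 l (n0 l (n0 l o)))) o)) o)) o) o) o), (n0 (n0 (n0 (n0 (n0 l (n0 (n0 l (n0 l (n0 (n0 (n0 (n0 l o) o) o) o))) o)) o) o) o) o))
  t4 := ((n0 (n0 (n0 (n0 l l) o) o) o), (n0 (n0 (n0 (n0 (n0 l (n0 (n0 l (n0 l (n0 (n0 (n0 (n0 l o) o) o) o))) o)) o) o) o) o))
  t5 := ((n0 (n0 (n0 (n0 l (n0 (n0 l (n0 l o)) o)) o) o) o), (n0 (n0 (n0 (n0 (n0 l (n0 (n0 l (n0 l (n0 (n0 (n0 l o) o) o))) o)) o) o) o) o))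

def K8s1_hq : allQ K8s1 120 K8s1_Q = true := by decide +kernel

def K8s1_pp_A : Nat := (rootPP K8s1 true true).elim 0 (fun x => x.1)

def K8s1_pp_B : Nat := (rootPP K8s1 true true).elim 0 (fun x => x.2)

def K8s1_pp_root : rootCheck K8s1 true true K8s1_pp_A K8s1_pp_B = true := by decide +kernel

def K8s1_pp_t0 : Tr := (n0 (n0 (n0 (n0 (n2 (n2 (n2 (n2 (n1 (n1 (n1 (n1 (n1 (n3 (n3 (n3 (n3 (n3 (n1 (n3 (n1 (n3 (n0 (n3 l (n2 l o)) o) (n2 (n0 l o) o)) (n3 (n0 (n2 l o) o) (n0 (n2 l o) o))) (n3 (n1 (n2 (n1 l (n0 l o)) o) (n2 (n0 l o) o)) (n1 (n2 l o) (n0 (n3 (n2 l o) l) o)))) (n3 (n1 (n3 (n0 (n3 l (n2 l o)) o) (n0 (n2 l o) o)) (n3 (n0 l o) (n2 (n1 (n0 l o) l) o))) (n1 (n3 (n0 (n2 l o) o) (n0 l o)) (n3 (n2 l o) (n0 l o))))) (n1 l l)) o) o) o) o) (n3 (n3 (n3 (n3 (n3 (n3 l l) l) o) o) o) o)) o) o) o) o) o) o) o) o) o) o) o) o)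

def K8s1_pp_h0 : subCheck K8s1 true true K8s1_pp_A K8s1_pp_B [] K8s1_pp_t0 = true := by decide +kernel

def K8s1_pp_L : List (Path × Tr) := [([], K8s1_pp_t0)]

def K8s1_pp_T : Tr := l

theorem K8s1_pp_cov : covers (K8s1_pp_L.map (fun e => pathBox e.1 root4)) K8s1_pp_T root4 = true := by decide +kernel

theorem K8s1_pp_all : AllSub K8s1 true true K8s1_pp_A K8s1_pp_B K8s1_pp_L := allSub_cons K8s1_pp_h0 (allSub_nil)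

theorem K8s1_hpp : QuadChecked K8s1 true true := quadChecked_intro K8s1_pp_root K8s1_pp_cov K8s1_pp_all

def K8s1_pm_A : Nat := (rootPP K8s1 true false).elim 0 (fun x => x.1)

def K8s1_pm_B : Nat := (rootPP K8s1 true false).elim 0 (fun x => x.2)

def K8s1_pm_root : rootCheck K8s1 true false K8s1_pm_A K8s1_pm_B = true := by decide +kernel

def K8s1_pm_t0 : Tr := (n0 (n0 (n0 (n0 (n2 (n2 (n2 (n2 (n1 (n1 (n1 (n1 (n1 (n3 (n3 (n3 (n3 (n3 (n1 (n2 (n1 (n2 (n3 (n0 (n0 (n2 (n2 (n3 (n0 (n0 (n2 (n0 (n2 (n3 (n0 (n1 (n2 (n0 (n2 (n3 (n0 (n1 (n2 (n0 (n2 (n3 (n0 (n1 (n2 (n0 (n2 (n3 l (n0 (n1 (n2 (n0 (n2 o l) l) l) l) l)) l) l) l) l) l) (n0 (n1 (n2 (n0 (n2 o l) l) l) l) l)) l) l) l) l) l) (n0 (n1 (n2 (n0 (n2 o l) l) l) (n2 (n0 (n2 o l) l) l)) l)) l) l) l) l) l) (n0 (n1 (n2 (n0 (n2 o l) l) l) (n2 (n2 o l) l)) l)) l) l) l) l) l) (n0 (n2 (n0 (n2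 o l) l) l) l)) l) l) l) o) (n0 (n2 (n0 (n2 o l) l) l) o)) o) (n3 (n2 (n1 (n0 (n2 (n0 (n2 (n3 l (n0 (n2 (n2 o l) l) l)) l) l) l) o) (n0 l o)) o) (n2 (n1 (n2 (n0 (n2 o l) o) l) (n2 (n1 (n0 (n2 o l) o) (n0 (n2 o l) o)) (n0 l o))) o))) o) (n2 (n1 (n2 (n3 (n1 (n0 l o) (n0 l o)) (n1 (n2 (n1 (n0 (n2 o l) o) l) (n0 l o)) l)) o) l) o)) (n2 (n1 (n2 o o) (n2 o o)) o)) o) o) o) o) (n3 (n3 l o) o)) o) o) o) o) o) o) o) o) o) o) o) o)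

def K8s1_pm_h0 : subCheck K8s1 true false K8s1_pm_A K8s1_pm_B [] K8s1_pm_t0 = true := by decide +kernel

def K8s1_pm_L : List (Path × Tr) := [([], K8s1_pm_t0)]

def K8s1_pm_T : Tr := l

theorem K8s1_pm_cov : covers (K8s1_pm_L.map (fun e => pathBox e.1 root4)) K8s1_pm_T root4 = true := by decide +kernel

theorem K8s1_pm_all : AllSub K8s1 true false K8s1_pm_A K8s1_pm_B K8s1_pm_L := allSub_cons K8s1_pm_h0 (allSub_nil)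

theorem K8s1_hpm : QuadChecked K8s1 true false := quadChecked_intro K8s1_pm_root K8s1_pm_cov K8s1_pm_all

def K8s1_mp_A : Nat := (rootPP K8s1 false true).elim 0 (fun x => x.1)

def K8s1_mp_B : Nat := (rootPP K8s1 false true).elim 0 (fun x => x.2)

def K8s1_mp_root : rootCheck K8s1 false true K8s1_mp_A K8s1_mp_B = true := by decide +kernel

def K8s1_mp_t0 : Tr := (n0 (n0 (n0 (n0 (n2 (n2 (n2 (n2 (n1 (n1 (n1 (n1 (n1 (n3 (n3 (n3 (n3 (n3 (n3 (n0 (n3 (n0 (n1 (n2 (n2 (n0 (n0 (n1 (n2 (n2 (n0 (n2 (n0 (n1 (n2 (n3 (n0 (n2 (n0 (n1 (n2 (n3 (n0 (n2 (n0 (n1 (n2 (n3 (n0 (n2 (n0 (n1 l (n2 (n3 (n0 (n2 (n0 o l) l) l) l) l)) l) l) l) l) l) (n2 (n3 (n0 (n2 (n0 o l) l) l) l) l)) l) l) l) l) l) (n2 (n3 (n0 (n2 (n0 o l) l) l) (n0 (n2 (n0 o l) l) l)) l)) l) l) l) l) l) (n2 (n3 (n0 (n2 (n0 o l) l) l) (n0 (n0 o l) l)) l)) l) l) l) l) l) (n2 (n0 (n2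 (n0 o l) l) l) l)) l) l) l) o) (n2 (n0 (n2 (n0 o l) l) l) o)) o) (n1 (n0 (n3 (n2 (n0 (n2 (n0 (n1 l (n2 (n0 (n0 o l) l) l)) l) l) l) o) (n2 l o)) o) (n0 (n3 (n0 (n2 (n0 o l) o) l) (n0 (n3 (n2 (n0 o l) o) (n2 (n0 o l) o)) (n2 l o))) o))) o) (n0 (n3 (n0 (n1 (n3 (n2 l o) (n2 l o)) (n3 (n0 (n3 (n2 (n0 o l) o) l) (n2 l o)) l)) o) l) o)) l) o) o) o) o) (n3 (n3 (n3 (n3 (n3 (n0 (n3 (n0 o o) (n0 o o)) o) l) o) o) o) o)) o) o) o) o) o) o) o) o) o) o) o) o)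

def K8s1_mp_h0 : subCheck K8s1 false true K8s1_mp_A K8s1_mp_B [] K8s1_mp_t0 = true := by decide +kernel

def K8s1_mp_L : List (Path × Tr) := [([], K8s1_mp_t0)]

def K8s1_mp_T : Tr := l

theorem K8s1_mp_cov : covers (K8s1_mp_L.map (fun e => pathBox e.1 root4)) K8s1_mp_T root4 = true := by decide +kernel

theorem K8s1_mp_all : AllSub K8s1 false true K8s1_mp_A K8s1_mp_B K8s1_mp_L := allSub_cons K8s1_mp_h0 (allSub_nil)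

theorem K8s1_hmp : QuadChecked K8s1 false true := quadChecked_intro K8s1_mp_root K8s1_mp_cov K8s1_mp_all

def K8s1_mm_A : Nat := (rootPP K8s1 false false).elim 0 (fun x => x.1)

def K8s1_mm_B : Nat := (rootPP K8s1 false false).elim 0 (fun x => x.2)

def K8s1_mm_root : rootCheck K8s1 false false K8s1_mm_A K8s1_mm_B = true := by decide +kernel

def K8s1_mm_t0 : Tr := (n0 (n0 (n0 (n0 (n2 (n2 (n2 (n2 (n1 (n1 (n1 (n1 (n1 (n3 (n3 (n3 (n3 (n3 (n0 (n2 (n0 (n1 (n2 (n3 (n0 (n2 (n0 (n1 (n2 (n3 (n0 (n2 (n0 (n1 (n2 (n3 (n0 (n2 (n0 (n1 (n2 (n3 (n0 (n2 (n0 (n1 (n2 (n3 (n0 (n2 (n0 (n1 (n2 (n3 (n0 (n2 (n0 (n1 l (n2 (n3 l (n0 (n2 (n0 o l) l) l)) l)) l) l) l) (n2 (n0 (n2 o l) l) l)) l) (n2 (n3 (n0 (n2 (n0 o l) l) l) (n0 (n2 (n0 o l) l) l)) l)) l) l) l) (n2 (n0 (n2 o l) l) l)) l) (n2 (n3 (n0 (n2 (n0 o l) l) l) (n0 (n2 (n0 o l) l) l)) l)) l) l)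 l) (n2 (n0 (n2 o l) l) l)) l) (n2 (n3 (n0 (n2 (n0 o l) l) l) (n0 (n2 (n0 o l) l) l)) l)) l) l) l) (n2 (n0 (n2 o l) l) l)) l) (n2 (n3 (n0 (n2 (n0 o l) l) l) (n0 (n2 (n0 o l) l) l)) l)) l) l) l) (n2 (n0 (n2 o l) l) l)) l) (n2 (n3 (n0 (n2 (n0 o l) l) l) (n0 (n2 (n0 o l) l) l)) l)) l) l) l) (n2 (n0 (n2 o l) l) l)) o) (n2 (n3 (n0 (n2 (n0 o l) l) l) (n0 (n2 (n0 o l) l) l)) o)) o) o) o) (n2 (n0 (n2 o o) o) o)) o) o) o) o) (n3 (n3 (n3 (n3 (n3 (n0 (n2 (n0 o o) o) o) (n0 (n2 (n0 o o) o) o)) o) o) o) o)) o) o) o) o) o) o) o) o) o) o) o) o)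

def K8s1_mm_h0 : subCheck K8s1 false false K8s1_mm_A K8s1_mm_B [] K8s1_mm_t0 = true := by decide +kernel

def K8s1_mm_L : List (Path × Tr) := [([], K8s1_mm_t0)]

def K8s1_mm_T : Tr := l

theorem K8s1_mm_cov : covers (K8s1_mm_L.map (fun e => pathBox e.1 root4)) K8s1_mm_T root4 = true := by decide +kernel

theorem K8s1_mm_all : AllSub K8s1 false false K8s1_mm_A K8s1_mm_B K8s1_mm_L := allSub_cons K8s1_mm_h0 (allSub_nil)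

theorem K8s1_hmm : QuadChecked K8s1 false false := quadChecked_intro K8s1_mm_root K8s1_mm_cov K8s1_mm_all

end Vale.Agent.Lib.P154
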