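import Vale.Agent.Lib.P154.Checker

set_option linter.defProp false

namespace Vale.Agent.Lib.P154

private abbrev n0 := Tr.nd 0
private abbrev n1 := Tr.nd 1
private abbrev n2 := Tr.nd 2
private abbrev n3 := Tr.nd 3
private abbrev l := Tr.lf
private abbrev o := Tr.ot

def K9s1 : KCfg where
  W := 280
  room := 11
  roomT := 33
  ns := [5, 3, 5, 3]
  den := 4096
  pp := ⟨427, (-6087), 24468⟩
  p0 := ⟨427, (-6087), 24468⟩
  pY := ⟨3834, (-164345), 1981748⟩
  tn := 64
  E := 1048576
  q1 := [1048576, (-3145728), 9437184, (-28311552), 84954993, (-256629791), 818591273, (-2400468496), 3700591818]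
  q2 := [1048576, (-6291456), 28311552, (-113246208), 423155737, (-1539968455), 5755639784, (-18173926468), 28135517057]
  q3 := [1048576, (-9437184), 56623104, (-283115520), 1314144874, (-6094978858), 22945606174, (-40214044474)]
  q4 := [1048576, (-12582912), 94371840, (-566231040), 3585204661, (-18104394914), 38822859881]
  q5 := [1048576, (-15728640), 141557760, (-990904320), 10300219374, (-32892471800)]
  lamA := (1, 1)
  lamB := (1, 3)

theorem K9s1_hwf : wfK K9s1 = true := by decide +kernel

def K9s1_Q : QTrees where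
  t1 := ((n0 (n0 (n0 (n0 (n0 l l) l) (n0 l (n0 l l))) o) o), (n0 (n0 (n0 (n0 l (n0 l (n0 l (n0 (n0 (n0 l (n0 (n0 l (n0 l (n0 l o))) o)) o) o)))) o) o) o))
  t2 := ((n0 (n0 (n0 l (n0 l (n0 l (n0 (n0 (n0 l (n0 (n0 l o) o)) o) o)))) o) o), (n0 (n0 (n0 (n0 l (n0 l l)) o) o) o))
  t3 := ((n0 (n0 (n0 (n0 l l) (n0 l (n0 l (n0 (n0 (n0 l (n0 l o)) o) o)))) o) o), (n0 (n0 (n0 (n0 l (n0 l (n0 l (n0 (n0 (n0 l (n0 l o)) o) o)))) o) o) o))
  t4 := ((n0 (n0 (n0 l (n0 l l)) o) o), (n0 (n0 (n0 (n0 l (n0 l (n0 l (n0 (n0 (n0 l (n0 l o)) o) o)))) o) o) o))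
  t5 := ((n0 (n0 (n0 l (n0 l (n0 l (n0 l o)))) o) o), (n0 (n0 (n0 (n0 l (n0 l (n0 l (n0 (n0 l o) o)))) o) o) o))

def K9s1_hq : allQ K9s1 112 K9s1_Q = true := by decide +kernel

def K9s1_pp_A : Nat := (rootPP K9s1 true true).elim 0 (fun x => x.1)

def K9s1_pp_B : Nat := (rootPP K9s1 true true).elim 0 (fun x => x.2)

def K9s1_pp_root : rootCheck K9s1 true true K9s1_pp_A K9s1_pp_B = true := by decide +kernel

def K9s1_pp_t0 : Tr := (n0 (n2 (n2 (n2 (n2 (n2 (n1 (n1 (n1 (n3 (n3 (n3 (n3 (n3 (n1 (n0 (n0 (n3 (n0 (n1 (n3 l l) (n3 l l)) (n3 (n1 (n0 l (n1 (n0 l (n2 (n0 l (n1 o l)) o)) l)) l) (n1 (n0 l (n1 (n0 l (n2 l (n3 (n1 (n0 l o) l) (n1 (n0 l o) l)))) l)) l))) l) (n1 (n0 (n3 (n0 (n3 (n1 o (n0 (n1 (n2 (n0 (n2 (n1 (n3 (n0 l o) l) l) l) o) o) (n2 (n2 (n0 l (n1 (n3 (n0 l o) l) l)) l) o)) o)) (n1 o (n0 (n1 (n2 (n0 l o) (n3 (n0 l o) (n0 l o))) l) o))) o) (n0 (n3 (n1 o (n0 l o)) (n1 o (n0 l o))) o)) o) (n0 (n3 (n0 (n1 (n3 (n1 (n0 l (n1 (n0 l o) (n2 (n2 (n0 l o) l) o))) l) (n1 (n0 l (n1 (n3 (n2 (n0 l o) (n0 l o)) l) l)) l))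 l) (n1 o (n3 (n1 (n0 l o) l) (n1 (n0 l o) l)))) (n0 l (n1 o (n1 (n0 l o) l)))) o))) o) (n0 (n1 (n0 (n3 (n0 o l) l) (n0 l (n1 (n3 (n1 (n0 (n3 (n1 o l) (n1 o l)) o) (n0 l o)) (n2 (n1 (n0 l o) l) (n1 (n0 l o) (n0 l o)))) l))) (n0 o l)) (n2 (n3 (n1 (n0 (n1 o (n0 (n1 o l) o)) o) (n0 (n1 (n1 (n0 l o) l) l) o)) (n1 (n0 (n1 o (n0 (n1 o l) o)) o) (n0 (n1 (n0 l (n1 o l)) l) o))) (n1 (n0 (n1 o (n0 (n3 (n1 o (n0 l o)) (n1 o (n0 l o))) o)) o) (n0 (n1 (n2 (n3 (n1 (n0 l o) l) (n0 l (n1 o l))) (n1 (n0 l o) (n3 o (n0 l (n0 l o))))) l) o))))) (n1 (n1 (n0 (n0 l (n0 (n3 (n0 (n3 (n1 o l) o) o) o) o)) o) (n0 (n0 l (n0 l o)) o)) (n0 (n1 (n0 l (n1 (n3 (n0 l (n1 (n3 (n0 l o) o) l)) o) l)) l) (n1 (n2 o (n0 (n1 o (n2 o (n3 (n0 (n1 o l) o) o))) o)) (n2 o (n0 (n1 (n2 o (n0 l (n3 (n1 o l) o))) l) o)))))) o) o) o) o) (n3 (n3 (n3 (n3 (n3 (n1 (n1 (n2 (n3 (n0 o (n0 o o)) (n0 o (n1 (n0 o o) o))) (n0 o (n0 o o))) o) o) (n1 (n1 (n2 o (n1 (n2 o (n0 o (n1 (n3 (n0 o o) o) (n3 (n0 o o) o)))) o)) o) o)) o) o) o) o)) o) o) (n2 (n1 (n1 (n1 (n3 (n3 (n3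 (n3 (n3 o (n0 (n1 (n0 l (n1 (n0 (n3 (n0 (n3 (n1 o l) l) o) o) o) (n3 (n0 (n1 (n3 (n0 l o) l) l) o) o))) (n1 (n0 l (n3 (n1 (n0 l (n3 (n1 (n0 l o) l) l)) l) o)) l)) (n1 o (n1 (n0 (n0 (n3 (n1 o (n2 (n1 o l) o)) o) o) o) (n0 (n2 (n1 (n3 (n0 l (n1 o l)) o) l) o) o))))) o) o) o) o) (n3 (n3 (n3 (n3 (n3 o (n0 o (n1 (n1 (n1 (n2 (n3 (n0 o o) o) o) o) o) o))) o) o) o) o)) o) o) o)) o) o) o) o) o)

def K9s1_pp_h0 : subCheck K9s1 true true K9s1_pp_A K9s1_pp_B [] K9s1_pp_t0 = true := by decide +kernel

def K9s1_pp_L : List (Path × Tr) := [([], K9s1_pp_t0)]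

def K9s1_pp_T : Tr := l

theorem K9s1_pp_cov : covers (K9s1_pp_L.map (fun e => pathBox e.1 root4)) K9s1_pp_T root4 = true := by decide +kernel

theorem K9s1_pp_all : AllSub K9s1 true true K9s1_pp_A K9s1_pp_B K9s1_pp_L := allSub_cons K9s1_pp_h0 (allSub_nil)

theorem K9s1_hpp : QuadChecked K9s1 true true := quadChecked_intro K9s1_pp_root K9s1_pp_cov K9s1_pp_all

def K9s1_pm_A : Nat := (rootPP K9s1 true false).elim 0 (fun x => x.1)

def K9s1_pm_B : Nat := (rootPP K9s1 true false).elim 0 (fun x => x.2)

def K9s1_pm_root : rootCheck K9s1 true false K9s1_pm_A K9s1_pm_B = true := by decide +kernel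

def K9s1_pm_t0 : Tr := (n0 (n2 (n2 (n2 (n2 (n2 (n1 (n1 (n1 (n3 (n3 (n3 (n3 (n3 (n0 (n1 (n0 (n2 (n3 (n1 (n0 l (n0 l (n1 (n3 (n0 l (n2 (n1 (n0 (n2 (n3 l (n0 l (n1 (n2 (n3 (n0 l o) (n0 (n1 o (n2 (n3 l o) l)) o)) (n3 (n0 l o) (n0 (n1 o l) o))) (n2 (n3 l (n1 (n0 l o) l)) l)))) (n0 l (n3 l (n1 (n0 l o) l)))) o) (n0 l (n2 (n1 (n3 (n0 l o) (n0 (n2 (n3 (n1 (n0 l o) l) (n1 (n0 (n2 (n3 l o) l) o) (n0 l (n2 (n3 (n2 o l) o) (n3 l (n1 o l)))))) (n1 (n3 l (n0 l o)) l)) o)) (n3 l (n0 l (n1 o (n2 (n3 l (n0 l o)) (n3 l (n0 l o))))))) (n1 (n0 l o) (n0 l (n3 l (n1 o l))))))) (n1 (n0 l o) (n0 l (n1 (n0 l o) l))))) (n2 (n0 (n2 (n2 (n1 (n0 l (n3 l o)) l) (n1 (n0 l (n3 l (n1 (n0 l (n3 l o)) l))) l)) l) (n1 (n2 (n0 (n2 (n3 (n0 (n1 (n3 (n2 o (n0 l (n1 (n3 l o) l))) o) (n2 o (n3 l o))) (n1 (n3 (n0 (n1 o (n2 o (n3 (n0 l o) o))) o) o) (n3 (n1 (n0 (n2 o (n3 l o)) o) (n0 l (n2 o (n3 (n1 (n0 l o) l) o)))) o))) o) (n0 (n1 (n3 (n3 l (n0 l (n1 (n3 (n2 (n0 l (n1 o (n3 l (n0 l o)))) l) (n2 o (n0 l (n1 o l)))) (n2 (n3 l o) l)))) (n0 (n3 (n1 (n2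 o (n3 l o)) (n3 l o)) o) (n1 (n3 (n2 o (n0 (n3 (n1 (n3 l o) l) o) (n3 (n1 o (n3 (n0 l o) o)) o))) o) (n3 (n2 o (n1 (n3 (n0 l (n3 l o)) o) (n3 l o))) o)))) (n3 l (n1 (n3 (n0 l (n2 o l)) o) (n2 o l)))) (n1 (n3 (n0 (n3 (n1 o (n3 l (n2 (n0 l o) l))) (n1 o (n1 o (n2 (n3 (n0 l o) o) (n3 (n0 l o) (n0 l o)))))) o) (n0 (n1 o (n3 (n2 o (n1 o (n0 (n3 (n1 (n3 (n2 o l) o) (n3 l o)) o) o))) o)) o)) (n3 (n1 (n0 (n3 l (n2 (n3 (n1 (n0 l (n3 l (n1 o l))) l) o) (n3 l (n1 (n0 l (n3 l (n1 o l))) l)))) o) (n3 (n0 l (n3 l (n1 (n0 l o) l))) (n0 l (n1 (n2 (n3 (n0 l o) o) (n3 (n0 l o) (n0 l o))) (n2 (n3 (n0 l (n3 l (n1 (n0 l o) l))) o) (n3 l (n0 l (n1 (n3 l (n0 l o)) l)))))))) (n1 (n0 (n3 (n2 o (n1 (n0 (n3 l o) (n3 (n1 o (n3 (n2 o l) o)) o)) (n0 l (n3 (n1 (n3 l o) l) o)))) o) o) (n0 (n3 (n2 o (n1 (n3 l o) l)) o) (n3 (n1 (n2 o (n0 (n3 (n1 (n3 (n0 l o) o) (n3 l o)) o) o)) (n2 o (n0 (n3 l o) (n3 (n1 (n0 (n3 l o) o) (n3 l o)) o)))) o))))))) o) (n0 (n0 (n2 (n1 (n3 l (n0 l (n1 (n3 (n2 (n0 l (n1 o (n3 l (n2 (n1 o l) l)))) l) (n2 o (n0 l (n1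 o l)))) (n3 l (n2 o l))))) l) l) (n1 (n3 (n2 (n0 (n1 o (n3 l (n1 o l))) o) (n0 l o)) (n2 (n0 (n1 o (n3 (n1 o (n0 l o)) (n1 o (n2 o (n0 l o))))) o) (n0 (n1 o l) o))) (n2 (n3 (n1 (n0 l o) l) (n1 (n0 (n3 (n1 (n2 (n0 l (n3 l (n1 o l))) l) l) (n1 (n2 o (n0 l (n3 l (n2 o l)))) (n2 o l))) o) (n0 l (n3 (n1 (n0 l o) (n2 (n0 l (n3 l (n1 (n2 (n0 l o) l) l))) l)) (n1 (n0 (n2 o l) o) (n2 o l)))))) (n1 (n0 l o) l)))) o)) (n2 (n0 (n2 (n1 (n3 (n0 l (n1 (n3 (n2 o l) o) (n2 o l))) o) (n3 l o)) (n1 (n0 l (n3 (n1 (n3 l (n0 l (n1 (n3 l (n0 l (n2 o l))) l))) l) (n1 (n0 (n3 l o) (n3 (n2 o (n1 (n0 l (n3 l o)) l)) o)) (n3 (n0 l (n1 (n3 l o) l)) o)))) l)) (n2 (n1 (n3 (n0 (n1 (n3 (n0 (n2 o (n3 (n1 (n0 l o) l) o)) o) o) (n3 (n0 (n2 o (n3 l o)) (n2 o (n1 o (n3 (n0 l o) o)))) o)) o) o) (n3 (n0 (n1 (n3 (n2 o (n0 l (n1 (n3 l o) l))) o) (n2 o (n3 l o))) (n1 o (n3 (n0 (n2 o (n1 (n3 l o) l)) o) o))) o)) (n1 (n0 (n3 (n1 (n0 (n3 (n1 (n3 l (n2 (n0 l o) l)) l) (n1 (n0 (n2 (n3 (n1 o (n3 l (n0 l o))) o) (n3 l (n1 o l))) o) (n2 (n3 (n0 l o) o) (n3 l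 (n0 l o))))) o) (n0 (n3 l (n2 (n1 (n3 l o) l) l)) (n3 (n1 o (n2 (n3 l (n0 l o)) l)) (n1 o (n2 (n3 (n0 (n1 o l) o) o) (n0 l o)))))) (n1 (n0 (n3 (n1 (n2 o (n0 (n3 (n1 o (n0 (n3 l o) o)) o) o)) (n2 o (n0 (n3 (n1 (n3 l o) l) o) o))) o) o) (n0 (n3 (n1 (n2 o (n0 l (n3 (n1 (n3 (n0 l o) o) l) o))) (n2 o (n0 l (n3 l o)))) o) (n3 (n1 o (n2 o (n0 (n3 (n1 o (n3 l o)) o) o))) o)))) o) (n0 (n3 (n1 (n3 l (n0 l (n1 (n2 (n3 (n0 l (n1 o l)) o) (n3 l (n0 l (n1 o l)))) (n3 l (n0 l (n2 o l)))))) l) (n1 (n0 (n3 (n2 o l) o) (n3 (n1 (n2 o (n0 (n3 l o) (n3 (n1 o (n0 l o)) o))) (n2 o (n0 l (n3 l o)))) o)) (n0 l (n3 (n2 o l) o)))) (n3 (n1 o (n0 (n3 l (n1 (n2 (n3 (n0 l o) o) (n0 l o)) (n2 (n3 l o) l))) o)) (n1 o (n0 (n3 (n1 (n2 o (n0 (n3 l o) o)) (n2 o (n0 l (n3 (n1 (n2 o l) l) o)))) o) o))))))) (n0 (n1 (n0 l (n3 l (n1 (n2 (n0 l (n3 l (n2 o l))) l) l))) l) (n1 (n0 (n2 (n1 (n3 (n0 (n3 l (n1 (n0 l o) l)) o) (n0 (n1 (n3 (n0 (n2 (n3 l (n1 o (n2 (n0 l o) l))) l) o) (n0 (n2 o (n3 l (n1 o l))) o)) (n3 (n2 (n0 l o) l) (n0 (n2 o l) o))) o)) (n3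 (n0 l (n3 l (n1 o l))) (n0 (n3 l (n1 (n2 o l) l)) (n1 o (n3 (n0 (n2 (n3 l (n1 o l)) l) o) (n0 (n2 o l) o)))))) (n1 (n3 (n0 l o) (n0 l o)) (n0 l (n3 l (n1 o l))))) o) (n0 (n2 (n1 (n3 l (n0 l (n1 (n3 (n2 (n0 l (n3 l (n1 o l))) l) (n2 o l)) (n3 l (n2 o l))))) l) l) (n1 o (n2 (n3 (n0 l o) (n0 (n1 (n3 (n0 l o) (n2 o (n0 l o))) (n3 l (n2 o l))) o)) (n0 l o))))))))) (n0 l (n1 (n0 (n2 (n0 l (n1 (n3 l (n2 (n0 l o) l)) l)) o) o) (n0 l (n2 (n1 (n0 l o) (n0 l (n1 o l))) o)))))) (n2 (n2 (n3 l (n0 l (n1 (n0 l (n1 (n2 (n3 (n0 l (n1 (n3 (n0 l (n2 o (n1 (n3 (n0 l o) o) l))) o) (n2 o (n3 l o)))) o) (n0 (n3 l (n1 (n3 l o) l)) (n1 (n3 (n0 l (n3 (n1 (n3 l (n0 l o)) l) (n1 (n2 (n0 (n3 l o) o) (n0 l o)) (n2 (n3 l o) l)))) (n0 (n3 (n2 o l) o) (n1 (n3 (n2 o (n0 (n3 (n1 o l) o) o)) o) (n3 (n2 o (n0 l (n3 (n1 o l) o))) o)))) (n3 l (n0 (n3 l o) (n1 (n3 (n2 o l) o) (n3 l o))))))) (n2 (n3 l o) l))) l))) (n0 l (n1 (n0 l (n1 (n3 l (n2 (n0 l (n1 (n3 l (n0 l (n1 (n3 (n0 l o) (n0 (n2 o l) o)) (n3 l (n2 o l))))) l)) l)) l)) l))) l)))) l) (n1 (n0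 (n2 (n2 o l) l) (n2 (n1 (n0 (n2 o l) (n2 o (n0 (n1 (n2 o l) l) (n1 (n3 (n0 (n2 o (n0 (n1 (n3 (n0 l (n1 (n2 (n0 l (n1 o l)) l) l)) o) l) (n1 (n3 (n0 (n1 o (n2 (n1 o (n0 l o)) l)) o) o) (n3 (n1 (n0 l o) (n0 l (n2 (n1 (n0 l o) l) l))) o)))) o) o) (n3 (n0 (n2 o l) (n1 (n0 (n2 o (n1 (n3 (n0 (n2 (n1 (n0 l o) (n0 l o)) l) o) o) (n3 (n0 l (n2 (n1 o (n0 l o)) l)) o))) o) (n0 (n2 o (n1 (n0 l (n2 (n1 (n0 l (n2 o l)) l) l)) l)) (n2 o (n1 o (n3 (n0 l o) o)))))) o))))) (n0 l (n2 o (n0 l (n1 (n0 l (n3 (n1 (n2 o (n0 l (n1 (n0 l (n2 (n3 l o) l)) l))) (n0 l (n2 o l))) o)) l))))) (n1 (n0 l (n0 l (n3 (n1 (n0 (n2 (n0 l (n2 (n1 (n3 (n0 l o) o) l) o)) o) o) (n2 (n0 l (n1 (n0 l o) (n0 l (n2 (n1 o l) o)))) o)) (n2 o o)))) l))) l)) o) (n0 (n1 (n3 (n0 (n1 o (n2 (n0 (n2 (n1 (n0 (n3 (n1 (n2 (n0 (n3 (n2 (n1 o l) l) (n1 o (n2 (n3 (n2 (n0 l o) l) (n0 (n2 (n2 o l) l) o)) (n3 l (n0 l o))))) o) (n0 (n1 o l) o)) (n2 (n0 (n2 (n2 (n3 l (n1 (n2 (n3 l o) l) l)) l) l) (n3 (n2 (n1 o l) l) (n1 o (n2 (n3 (n2 (n0 l o) l) (n0 l o)) (n3 l (n0 l o)))))) (n0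 l (n1 o l)))) (n2 (n1 (n2 (n0 (n3 (n1 o (n3 (n0 (n1 (n2 o (n3 (n0 l o) o)) (n2 o l)) o) o)) o) o) (n0 (n1 o (n3 (n0 (n3 (n1 (n3 l (n0 l o)) l) (n1 (n2 (n0 (n3 l o) o) (n0 l o)) (n2 (n3 l o) l))) o) (n0 (n1 (n3 (n2 o (n0 (n3 (n1 o l) o) o)) o) (n3 (n2 o (n0 l o)) o)) o))) o)) (n2 (n0 (n3 (n1 (n3 (n0 l (n1 o (n2 o l))) o) (n2 o (n3 l o))) o) (n3 (n1 o (n3 (n0 (n1 o (n2 o l)) o) o)) o)) (n0 (n1 (n3 (n0 l (n3 (n1 o l) (n1 o (n2 (n3 l o) l)))) (n0 (n1 (n3 (n2 o l) o) (n2 o l)) (n1 o (n3 (n2 o (n0 l o)) o)))) (n3 l (n0 l (n1 (n3 (n2 o l) o) (n2 o l))))) (n1 o (n3 (n0 (n3 (n1 o l) (n1 o (n3 l (n0 l o)))) o) (n0 (n1 o (n3 (n2 o (n0 l o)) o)) o)))))) (n1 (n0 (n1 o (n2 (n3 (n0 l o) (n0 (n1 (n3 (n0 l o) (n0 (n2 o l) o)) (n3 l (n2 o l))) o)) (n0 l o))) o) (n0 (n2 (n1 (n3 l (n0 l (n1 o (n3 l (n2 o l))))) l) l) (n1 o (n2 (n0 (n3 l (n1 o (n3 l (n2 o l)))) o) (n0 l o))))))) o) (n2 (n3 (n0 l (n1 (n0 (n1 o (n3 l (n2 (n3 l (n0 l o)) (n3 l (n0 l o))))) o) (n1 (n0 l o) (n2 (n3 l (n0 l (n2 (n3 l (n1 o l)) l))) l)))) (n0 (n1 (n2 (n0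 (n3 l o) (n3 (n1 (n3 (n0 l (n2 o (n1 o l))) o) (n2 o l)) o)) (n0 l (n1 (n3 (n0 l (n1 o l)) (n0 (n1 (n3 (n0 l (n3 l o)) o) (n3 l o)) (n1 o (n3 (n2 o (n0 l o)) o)))) (n3 l (n1 (n0 l (n2 o l)) l))))) (n2 (n2 o l) l)) (n1 (n2 (n0 (n3 (n1 o (n3 (n0 (n2 o (n1 o l)) o) o)) o) o) (n0 (n1 o (n3 (n0 (n1 o l) o) (n0 (n1 o (n3 (n2 o l) o)) o))) o)) (n2 (n0 (n1 (n3 (n1 (n3 (n2 o l) o) (n2 o l)) o) (n3 l o)) (n1 o (n3 (n1 o (n0 (n2 o l) o)) o))) (n1 (n0 (n3 (n1 (n3 l (n0 l o)) l) (n1 (n0 (n2 o l) o) (n0 l (n3 (n1 o l) o)))) o) (n0 l (n3 (n1 o (n0 l o)) (n1 o (n0 (n2 o l) o))))))))) (n3 (n0 l (n1 (n0 (n1 o l) o) (n1 (n0 l o) l))) (n0 (n1 (n0 l (n2 (n1 (n3 l (n0 l (n1 o l))) l) l)) l) (n1 (n0 (n1 o (n2 (n0 (n3 l (n1 o l)) o) (n0 l o))) o) (n1 (n0 (n3 l (n2 (n1 (n0 l o) l) l)) o) (n0 l (n2 (n1 o (n3 l (n0 l o))) l)))))))) (n3 (n1 (n0 (n1 (n0 l o) l) o) (n0 l (n1 (n0 l o) l))) (n1 (n0 (n1 (n2 (n0 (n1 o l) o) o) (n0 l (n2 (n1 o l) o))) o) (n0 l (n1 (n2 (n0 (n1 o l) o) o) l))))) o) o)) o) (n0 (n2 (n1 o (n2 (n0 (n2 o (n1 (n0 (n3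 (n1 (n0 (n2 o (n1 o (n3 (n0 (n1 (n2 (n0 l o) l) l) o) o))) o) (n0 (n2 o (n1 (n0 l (n2 (n1 o l) l)) l)) (n2 o (n1 o (n0 (n1 o l) o))))) o) o) (n0 (n1 (n3 (n2 o (n0 l (n1 (n0 l (n1 o l)) l))) o) (n2 o l)) (n1 (n3 (n0 (n1 o (n2 o (n0 l o))) o) o) (n3 (n1 (n0 (n2 o l) o) (n2 o (n0 l (n1 o l)))) o))))) o) (n0 (n3 (n1 (n0 (n2 (n1 (n0 (n2 (n1 o l) o) o) (n0 l (n1 o l))) o) o) (n2 (n0 l (n1 (n0 (n1 o l) o) (n1 (n0 l o) l))) o)) (n1 (n2 o o) (n2 o o))) o))) o) o)) (n3 (n0 (n1 (n2 (n1 (n0 (n2 (n2 (n3 l (n1 (n0 l (n2 (n1 (n0 l (n3 (n2 o l) o)) (n2 o l)) (n1 (n0 l (n3 l (n1 (n0 l o) l))) l))) l)) l) l) (n2 (n1 (n0 (n2 (n3 (n1 o (n0 l o)) (n1 o (n2 (n0 (n3 (n1 o (n2 o l)) o) o) (n0 (n3 (n1 o l) (n1 o (n0 l o))) o)))) (n3 (n1 o (n0 l o)) (n1 o (n0 (n3 l (n1 o l)) o)))) o) (n0 (n2 (n3 l (n1 (n2 (n0 (n3 l o) o) (n0 l o)) (n2 (n0 l (n3 l o)) (n0 l (n3 l (n1 o l)))))) (n1 (n3 l (n0 l o)) l)) o)) (n3 (n1 (n0 (n1 o l) o) (n0 l o)) (n1 (n0 (n2 (n1 o l) o) o) (n0 l o))))) (n2 (n0 l (n1 (n2 (n3 (n0 l (n1 o l)) (n0 l (n1 o (n2 (n0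 l o) (n0 l o))))) (n0 l (n1 o l))) (n2 (n3 l (n2 (n2 o l) l)) l))) l)) o) l) (n1 o (n1 (n3 (n0 (n2 (n2 (n1 (n0 l o) l) l) o) o) (n2 (n0 (n2 (n1 (n0 (n2 (n2 (n2 o l) l) l) o) l) (n1 (n0 l o) l)) o) o)) (n2 (n2 (n1 (n0 l o) l) l) o)))) (n2 (n0 (n1 (n2 (n1 (n0 (n2 o (n1 (n0 l (n2 o l)) l)) (n2 o (n1 (n0 (n3 (n1 o (n0 (n2 o l) o)) o) o) (n0 (n3 (n1 (n0 l o) (n0 l (n2 o l))) o) o)))) (n2 o (n0 l (n1 (n0 l (n3 (n1 o (n2 o l)) o)) (n0 l (n1 (n2 o l) l)))))) (n1 (n0 l (n3 (n1 (n0 (n2 (n1 o (n0 l o)) o) o) (n0 l o)) (n2 o o))) l)) (n2 (n2 o l) l)) (n1 o (n1 (n2 (n0 (n2 o (n1 (n0 (n1 (n0 l o) l) o) (n0 l (n1 o l)))) o) (n0 (n1 (n0 l o) l) o)) (n2 (n0 l (n1 o (n2 o l))) (n0 l (n1 o l)))))) o))) o)) (n0 l (n1 (n0 l (n1 (n3 (n1 (n0 (n3 (n1 o l) (n2 (n1 o (n2 (n2 (n0 l o) l) l)) o)) o) (n0 l o)) (n0 (n2 (n1 (n2 (n1 o (n0 l o)) (n1 o l)) l) o) o)) l)) l))) (n1 o (n1 (n0 (n1 o (n0 (n1 o (n3 (n2 (n1 o l) o) (n0 l o))) o)) o) (n1 (n0 (n2 (n3 (n1 (n0 l o) l) (n1 (n0 l o) l)) o) o) (n0 l o))))) (n0 (n1 (n0 (n2 o o) (n1 (n0 (n2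 o o) o) (n0 (n2 o o) o))) (n0 l (n1 (n2 o o) l))) (n1 o (n0 (n1 (n1 o (n0 (n2 o o) o)) (n1 (n1 (n0 l o) l) l)) o)))) o) o) o) o) (n3 (n3 (n3 (n3 (n3 (n0 o (n1 (n1 (n0 o o) o) o)) (n0 o (n1 (n1 (n1 (n2 o o) o) o) o))) o) o) o) o)) o) o) o) o) o) o) o) o)

def K9s1_pm_h0 : subCheck K9s1 true false K9s1_pm_A K9s1_pm_B [] K9s1_pm_t0 = true := by decide +kernel

def K9s1_pm_L : List (Path × Tr) := [([], K9s1_pm_t0)]

def K9s1_pm_T : Tr := l

theorem K9s1_pm_cov : covers (K9s1_pm_L.map (fun e => pathBox e.1 root4)) K9s1_pm_T root4 = true := by decide +kernel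

theorem K9s1_pm_all : AllSub K9s1 true false K9s1_pm_A K9s1_pm_B K9s1_pm_L := allSub_cons K9s1_pm_h0 (allSub_nil)

theorem K9s1_hpm : QuadChecked K9s1 true false := quadChecked_intro K9s1_pm_root K9s1_pm_cov K9s1_pm_all

def K9s1_mp_A : Nat := (rootPP K9s1 false true).elim 0 (fun x => x.1)

def K9s1_mp_B : Nat := (rootPP K9s1 false true).elim 0 (fun x => x.2)

def K9s1_mp_root : rootCheck K9s1 false true K9s1_mp_A K9s1_mp_B = true := by decide +kernel

def K9s1_mp_t0 : Tr := (n0 (n2 (n2 (n2 (n2 (n2 (n1 (n1 (n1 (n3 (n3 (n3 (n3 (n3 (n0 (n1 (n0 (n0 (n1 (n3 (n3 (n2 (n0 (n2 (n2 (n0 (n1 l (n2 (n0 (n2 (n3 (n1 l o) l) l) (n2 (n3 (n1 l (n2 (n1 l o) l)) l) l)) l)) l) l) l) l) o) l) l) (n3 (n3 (n0 (n2 (n0 o (n3 (n2 (n1 (n2 (n1 (n2 (n1 (n2 (n2 (n3 (n0 o l) l) l) l) o) (n1 l o)) o) (n1 l o)) o) (n1 l o)) (n1 (n2 (n2 (n1 l o) (n1 l o)) l) o))) o) (n2 (n1 l (n2 (n0 o l) (n0 o l))) o)) (n0 (n3 (n0 o (n1 l o)) (n0 o l)) l)) (n0 (n0 o l) l))) (n3 (n1 (n0 l (n3 (n1 (n2 (n0 l (n0 (n0 l o) o)) o) (n2 (n0 l o) o)) (n1 (n2 (n0 l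 (n0 l o)) (n0 l (n3 (n0 (n1 (n0 l o) o) o) (n0 (n1 l o) o)))) (n2 (n0 l o) (n0 (n0 l (n1 l o)) o))))) (n0 l o)) (n0 l (n1 (n3 (n0 l (n2 (n0 l o) (n1 (n3 (n0 l o) l) o))) l) o)))) o) (n0 (n0 o (n0 o o)) o)) o) (n0 (n1 (n0 (n0 l (n0 l (n2 o (n1 l o)))) o) (n0 (n0 o (n0 o o)) o)) o)) o) o) o) o) (n3 (n3 (n3 (n3 (n3 (n0 o o) (n0 o o)) o) o) o) o)) o) o) (n2 (n1 (n1 (n1 (n3 (n3 (n3 (n3 (n3 o (n0 (n1 (n0 (n0 l (n0 l (n1 l o))) o) (n0 (n0 o (n0 o o)) o)) o)) o) o) o) o) (n3 (n3 (n3 (n3 (n3 o (n0 o o)) o) o) o) o)) o) o) o)) o) o) o) o) o)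

def K9s1_mp_h0 : subCheck K9s1 false true K9s1_mp_A K9s1_mp_B [] K9s1_mp_t0 = true := by decide +kernel

def K9s1_mp_L : List (Path × Tr) := [([], K9s1_mp_t0)]

def K9s1_mp_T : Tr := l

theorem K9s1_mp_cov : covers (K9s1_mp_L.map (fun e => pathBox e.1 root4)) K9s1_mp_T root4 = true := by decide +kernel

theorem K9s1_mp_all : AllSub K9s1 false true K9s1_mp_A K9s1_mp_B K9s1_mp_L := allSub_cons K9s1_mp_h0 (allSub_nil)

theorem K9s1_hmp : QuadChecked K9s1 false true := quadChecked_intro K9s1_mp_root K9s1_mp_cov K9s1_mp_all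

def K9s1_mm_A : Nat := (rootPP K9s1 false false).elim 0 (fun x => x.1)

def K9s1_mm_B : Nat := (rootPP K9s1 false false).elim 0 (fun x => x.2)

def K9s1_mm_root : rootCheck K9s1 false false K9s1_mm_A K9s1_mm_B = true := by decide +kernel

def K9s1_mm_t0 : Tr := (n1 l (n2 (n1 (n2 (n3 (n2 (n0 (n2 (n3 (n2 (n0 o l) l) (n0 o (n1 l o))) l) l) l) (n0 (n2 (n1 (n2 o l) o) (n1 l o)) (n2 (n1 (n2 o l) (n3 (n2 o (n1 l (n3 l o))) o)) (n1 l (n3 l (n1 l (n0 o (n3 l o)))))))) l) (n0 o (n2 (n3 (n1 (n2 (n3 (n2 (n1 l o) l) (n1 (n2 (n3 l (n0 o l)) l) o)) (n3 l (n1 l o))) o) (n1 (n2 (n3 (n1 (n0 o (n2 o (n3 l o))) o) o) (n3 (n1 (n0 o l) o) (n1 (n0 o (n3 (n1 (n2 o l) o) o)) o))) o)) (n1 (n3 l (n1 (n3 l (n0 o l)) o)) o)))) (n1 l (n0 o (n1 l o)))))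

def K9s1_mm_h0 : subCheck K9s1 false false K9s1_mm_A K9s1_mm_B [(0, false), (2, false), (2, false), (2, false), (2, false), (2, false), (1, false), (1, false), (1, false), (3, false), (3, false), (3, false), (3, false), (3, false), (0, false), (1, false), (0, false), (1, false), (3, false), (0, false), (2, false), (2, false), (0, false), (2, false), (3, false), (0, false)] K9s1_mm_t0 = true := by decide +kernel

def K9s1_mm_t1 : Tr := l

def K9s1_mm_h1 : subCheck K9s1 false false K9s1_mm_A K9s1_mm_B [(0, false), (2, false), (2, false), (2, false), (2, false), (2, false), (1, false), (1, false), (1, false), (3, false), (3, false), (3, false), (3, false), (3, false), (0, false), (1, false), (0, false), (1, false), (3, false), (0, false), (2, false), (2, false), (0, false), (2, false), (3, false), (0, true), (1, false)] K9s1_mm_t1 = true := by decide +kernel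

def K9s1_mm_t2 : Tr := (n2 (n3 l (n2 (n1 l (n2 o l)) l)) l)

def K9s1_mm_h2 : subCheck K9s1 false false K9s1_mm_A K9s1_mm_B [(0, false), (2, false), (2, false), (2, false), (2, false), (2, false), (1, false), (1, false), (1, false), (3, false), (3, false), (3, false), (3, false), (3, false), (0, false), (1, false), (0, false), (1, false), (3, false), (0, false), (2, false), (2, false), (0, false), (2, false), (3, false), (0, true), (1, true), (2, false), (1, false)] K9s1_mm_t2 = true := by decide +kernel

def K9s1_mm_t3 : Tr := (n2 (n1 l (n0 (n3 l (n1 (n2 (n3 l (n0 o l)) l) (n2 (n3 (n0 o l) (n0 o (n2 (n1 l o) (n1 l o)))) (n3 (n0 o l) (n0 o l))))) l)) (n1 l (n3 l (n1 l (n0 (n3 l (n1 l o)) l)))))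

def K9s1_mm_h3 : subCheck K9s1 false false K9s1_mm_A K9s1_mm_B [(0, false), (2, false), (2, false), (2, false), (2, false), (2, false), (1, false), (1, false), (1, false), (3, false), (3, false), (3, false), (3, false), (3, false), (0, false), (1, false), (0, false), (1, false), (3, false), (0, false), (2, false), (2, false), (0, false), (2, false), (3, false), (0, true), (1, true), (2, false), (1, true), (3, false)] K9s1_mm_t3 = true := by decide +kernel

def K9s1_mm_t4 : Tr := (n2 (n3 (n2 (n1 (n2 o l) (n3 (n2 o l) o)) (n1 l (n3 l (n1 l (n0 (n2 (n3 l o) l) l))))) (n2 o (n1 (n3 l o) (n3 (n1 (n0 (n2 o l) l) (n0 (n3 (n2 o (n1 l (n0 o l))) o) (n3 l o))) o)))) (n3 l (n1 l (n2 (n3 (n1 l (n0 (n3 l (n2 (n1 l (n0 o l)) l)) l)) (n1 (n0 (n2 o l) l) (n0 (n3 (n1 (n2 o l) (n2 o l)) (n1 (n2 o l) (n2 o (n2 o l)))) l))) l))))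

def K9s1_mm_h4 : subCheck K9s1 false false K9s1_mm_A K9s1_mm_B [(0, false), (2, false), (2, false), (2, false), (2, false), (2, false), (1, false), (1, false), (1, false), (3, false), (3, false), (3, false), (3, false), (3, false), (0, false), (1, false), (0, false), (1, false), (3, false), (0, false), (2, false), (2, false), (0, false), (2, false), (3, false), (0, true), (1, true), (2, false), (1, true), (3, true), (0, false), (1, false)] K9s1_mm_t4 = true := by decide +kernel

def K9s1_mm_t5 : Tr := (n3 (n1 (n2 (n3 (n0 o (n2 o l)) o) (n3 (n1 (n0 o l) (n0 o l)) (n0 o (n1 l (n3 l (n2 o l)))))) (n2 (n3 (n0 o (n1 (n3 (n2 o l) o) o)) o) (n3 (n0 o (n1 (n3 l (n0 o l)) o)) (n0 o (n1 (n3 (n0 o l) (n0 o (n2 o l))) o))))) (n1 (n2 o (n3 (n1 (n0 o (n3 (n2 o l) o)) (n0 o (n3 (n0 o (n2 o l)) o))) o)) (n2 o (n3 (n0 o (n1 (n3 (n0 o (n1 (n2 o (n3 l o)) o)) o) o)) o))))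

def K9s1_mm_h5 : subCheck K9s1 false false K9s1_mm_A K9s1_mm_B [(0, false), (2, false), (2, false), (2, false), (2, false), (2, false), (1, false), (1, false), (1, false), (3, false), (3, false), (3, false), (3, false), (3, false), (0, false), (1, false), (0, false), (1, false), (3, false), (0, false), (2, false), (2, false), (0, false), (2, false), (3, false), (0, true), (1, true), (2, false), (1, true), (3, true), (0, false), (1, true), (2, false)] K9s1_mm_t5 = true := by decide +kernel

def K9s1_mm_t6 : Tr := (n1 (n2 (n3 l (n0 o l)) l) (n3 (n2 (n0 o l) (n1 l o)) (n0 o (n2 (n1 (n3 l (n0 o l)) o) l))))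

def K9s1_mm_h6 : subCheck K9s1 false false K9s1_mm_A K9s1_mm_B [(0, false), (2, false), (2, false), (2, false), (2, false), (2, false), (1, false), (1, false), (1, false), (3, false), (3, false), (3, false), (3, false), (3, false), (0, false), (1, false), (0, false), (1, false), (3, false), (0, false), (2, false), (2, false), (0, false), (2, false), (3, false), (0, true), (1, true), (2, false), (1, true), (3, true), (0, false), (1, true), (2, true), (3, false)] K9s1_mm_t6 = true := by decide +kernel

def K9s1_mm_t7 : Tr := (n1 (n2 (n3 (n0 o (n1 l (n3 l (n1 (n0 o l) (n0 o l))))) (n1 (n0 o (n3 (n1 l (n0 (n2 o l) l)) (n1 (n2 o l) (n0 (n2 o (n3 l o)) (n2 o l))))) (n0 o (n3 (n1 (n0 o l) (n0 o (n2 o l))) (n1 (n0 o (n2 o l)) (n0 o (n2 o (n3 l o)))))))) (n3 (n1 l (n2 (n1 l (n0 o l)) l)) (n0 o (n1 l (n3 l (n1 l (n2 (n0 o l) l))))))) (n3 (n0 o (n2 (n1 (n3 (n1 (n0 o l) o) (n1 (n0 o (n2 (n3 l (n0 o l)) l)) o)) o) (n1 (n3 l (n1 l o)) o))) (n0 o (n1 (n2 (n3 (n1 (n0 o (n2 o (n3 l (n1 l o)))) o) (n1 (n0 o (n2 o (n3 (n1 (n0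 o l) o) o))) o)) (n3 (n1 (n2 (n0 o l) l) o) (n1 (n2 (n0 o (n3 l (n1 l o))) l) o))) o))))

def K9s1_mm_h7 : subCheck K9s1 false false K9s1_mm_A K9s1_mm_B [(0, false), (2, false), (2, false), (2, false), (2, false), (2, false), (1, false), (1, false), (1, false), (3, false), (3, false), (3, false), (3, false), (3, false), (0, false), (1, false), (0, false), (1, false), (3, false), (0, false), (2, false), (2, false), (0, false), (2, false), (3, false), (0, true), (1, true), (2, false), (1, true), (3, true), (0, false), (1, true), (2, true), (3, true)] K9s1_mm_t7 = true := by decide +kernel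

def K9s1_mm_t8 : Tr := (n2 (n1 (n2 (n3 l o) l) (n3 (n2 (n1 l (n3 l o)) (n1 l (n3 l (n0 (n1 l (n3 l (n0 (n2 o l) l))) l)))) (n1 (n2 o (n3 (n0 (n1 l (n3 l o)) l) o)) (n2 o (n3 (n0 (n1 (n3 (n0 (n2 o l) l) o) (n3 (n0 (n1 (n2 o (n3 l o)) o) (n1 l (n3 l o))) o)) l) o))))) (n1 l (n3 l (n1 (n3 l (n0 (n1 l (n2 (n3 l (n0 (n1 l (n2 o l)) l)) l)) l)) (n3 (n2 (n0 (n1 l (n3 (n0 (n1 l o) l) (n0 (n1 (n3 l (n2 (n0 o l) l)) o) l))) l) l) (n2 (n1 (n0 (n3 (n0 (n1 l (n2 o l)) l) (n0 (n1 (n2 o l) (n3 (n2 o (n0 (n1 l (n2 o l)) l)) o)) (n1 l (n2 o l)))) l) (n0 (n3 (n0 (n1 (n3 (n2 o l) (n2 o (n0 o l))) o) (n1 l (n3 (n2 o l) (n2 o l)))) (n0 (n1 (n3 (n2 o (n0 o (n1 l (n2 o l)))) o) o) (n1 (n3 (n2 o l) o) (n3 (n2 o (n0 (n1 l (n2 o l)) l)) o)))) (n3 l (n0 (n1 l (n3 l o)) l)))) (n1 l (n0 (n3 (n0 (n1 l o) l) (n1 (n0 (n2 (n3 l (n1 l (n0 o l))) l) l) (n0 o l))) l))))))))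

def K9s1_mm_h8 : subCheck K9s1 false false K9s1_mm_A K9s1_mm_B [(0, false), (2, false), (2, false), (2, false), (2, false), (2, false), (1, false), (1, false), (1, false), (3, false), (3, false), (3, false), (3, false), (3, false), (0, false), (1, false), (0, false), (1, false), (3, false), (0, false), (2, false), (2, false), (0, false), (2, false), (3, false), (0, true), (1, true), (2, false), (1, true), (3, true), (0, true)] K9s1_mm_t8 = true := by decide +kernel

def K9s1_mm_t9 : Tr := (n1 l (n3 l (n0 (n1 l (n2 (n1 l (n3 l (n0 o (n3 l (n1 l o))))) l)) l)))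

def K9s1_mm_h9 : subCheck K9s1 false false K9s1_mm_A K9s1_mm_B [(0, false), (2, false), (2, false), (2, false), (2, false), (2, false), (1, false), (1, false), (1, false), (3, false), (3, false), (3, false), (3, false), (3, false), (0, false), (1, false), (0, false), (1, false), (3, false), (0, false), (2, false), (2, false), (0, false), (2, false), (3, false), (0, true), (1, true), (2, true)] K9s1_mm_t9 = true := by decide +kernel

def K9s1_mm_t10 : Tr := (n2 (n2 o l) l)

def K9s1_mm_h10 : subCheck K9s1 false false K9s1_mm_A K9s1_mm_B [(0, false), (2, false), (2, false), (2, false), (2, false), (2, false), (1, false), (1, false), (1, false), (3, false), (3, false), (3, false), (3, false), (3, false), (0, false), (1, false), (0, false), (1, false), (3, false), (0, false), (2, false), (2, false), (0, false), (2, false), (3, true), (1, false)] K9s1_mm_t10 = true := by decide +kernel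

def K9s1_mm_t11 : Tr := (n2 (n1 (n2 o (n0 (n2 o l) (n1 (n3 l o) (n2 o (n3 l o))))) (n2 o (n0 o (n1 (n3 (n1 (n2 o (n3 l o)) o) o) o)))) (n1 l (n2 (n0 o (n1 (n1 (n2 (n3 l o) l) o) o)) l)))

def K9s1_mm_h11 : subCheck K9s1 false false K9s1_mm_A K9s1_mm_B [(0, false), (2, false), (2, false), (2, false), (2, false), (2, false), (1, false), (1, false), (1, false), (3, false), (3, false), (3, false), (3, false), (3, false), (0, false), (1, false), (0, false), (1, false), (3, false), (0, false), (2, false), (2, false), (0, false), (2, false), (3, true), (1, true), (0, false)] K9s1_mm_t11 = true := by decide +kernel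

def K9s1_mm_t12 : Tr := (n1 (n2 o (n1 (n3 l o) (n3 (n0 (n2 o l) l) o))) (n2 o (n3 (n1 (n0 (n1 (n3 (n2 o l) o) (n3 (n2 o (n0 (n1 (n3 l o) (n3 (n2 (n1 l (n3 l o)) l) o)) (n3 l o))) o)) (n3 (n1 l (n2 o l)) o)) (n0 (n1 (n3 (n2 o (n3 (n0 o (n1 (n3 l (n1 l (n2 o l))) (n3 (n1 (n2 (n0 o l) l) (n2 (n0 o (n3 l o)) l)) (n1 (n2 o l) (n2 o (n0 o l)))))) o)) o) (n3 (n3 (n1 (n2 o (n0 o (n3 (n1 (n2 (n0 o (n3 (n1 (n2 o l) o) o)) (n0 o l)) o) (n1 (n2 o (n0 o (n3 (n1 l o) o))) o)))) o) o) o)) (n3 (n1 (n2 o (n3 l o)) (n3 (n1 (n2 o (n0 (n3 (n1 l (n0 (n2 (n3 (n1 l (n0 (n2 o l) l)) o) l) l)) (n1 (n0 (n2 o l) l) (n0 (n2 o (n3 l o)) (n2 o l)))) l)) (n2 o (n0 (n3 (n1 (n0 (n2 (n3 (n1 (n0 o l) (n0 o (n2 o l))) o) (n3 l (n1 l (n0 o l)))) (n2 (n3 l o) l)) (n0 o (n2 (n3 (n0 (n1 l (n2 o l)) l) o) l))) (n1 (n0 (n2 o (n3 (n1 (n2 o l) (n0 o (n2 o l))) o)) (n2 o l)) (n0 o (n2 o (n3 (n1 l (n0 (n2 o l) l)) o))))) (n3 l (n0 (n1 l (n2 o l)) l))))) o)) o))) o)))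

def K9s1_mm_h12 : subCheck K9s1 false false K9s1_mm_A K9s1_mm_B [(0, false), (2, false), (2, false), (2, false), (2, false), (2, false), (1, false), (1, false), (1, false), (3, false), (3, false), (3, false), (3, false), (3, false), (0, false), (1, false), (0, false), (1, false), (3, false), (0, false), (2, false), (2, false), (0, false), (2, false), (3, true), (1, true), (0, true), (2, false)] K9s1_mm_t12 = true := by decide +kernel

def K9s1_mm_t13 : Tr := (n1 l (n1 (n2 (n3 (n0 (n1 l (n3 l (n2 o l))) l) o) l) (n0 (n2 (n3 (n1 (n3 (n2 (n0 o (n1 l (n3 l (n2 (n1 l (n3 (n2 o l) o)) l)))) l) (n2 o (n1 l (n0 o l)))) (n3 (n0 o (n1 (n2 (n3 (n1 (n2 (n3 l (n2 (n0 o l) l)) l) o) (n1 (n2 (n3 (n2 o (n1 l o)) o) l) o)) l) o)) (n1 (n0 o (n2 o (n3 (n2 (n1 l o) l) o))) o))) o) (n3 l (n1 l (n2 o l)))) (n2 (n3 (n1 (n3 l (n3 (n2 o l) o)) (n3 (n3 (n1 l (n2 (n0 (n3 l (n1 l (n2 (n0 o l) l))) l) l)) (n1 (n2 (n0 (n3 l (n1 l (n2 o l))) l) l) (n2 (n0 (n3 (n1 (n2 (n0 (n3 (n1 l (n2 o l)) o) l) l) (n2 (n0 o (n3 (n1 l (n0 (n2 o l) l)) o))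 (n0 o l))) (n1 (n2 o (n0 (n1 l (n2 o l)) l)) (n2 o (n0 o (n3 l o))))) (n3 l (n1 l (n0 (n2 o l) l)))) l))) (n1 (n3 (n2 o l) o) (n3 (n2 o (n0 (n1 (n2 (n3 l o) l) (n2 (n3 (n0 o l) o) l)) l)) o)))) o) (n3 l (n1 l (n3 (n2 o l) o)))))))

def K9s1_mm_h13 : subCheck K9s1 false false K9s1_mm_A K9s1_mm_B [(0, false), (2, false), (2, false), (2, false), (2, false), (2, false), (1, false), (1, false), (1, false), (3, false), (3, false), (3, false), (3, false), (3, false), (0, false), (1, false), (0, false), (1, false), (3, false), (0, false), (2, false), (2, false), (0, false), (2, false), (3, true), (1, true), (0, true), (2, true)] K9s1_mm_t13 = true := by decide +kernel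

def K9s1_mm_t14 : Tr := l

def K9s1_mm_h14 : subCheck K9s1 false false K9s1_mm_A K9s1_mm_B [(0, false), (2, false), (2, false), (2, false), (2, false), (2, false), (1, false), (1, false), (1, false), (3, false), (3, false), (3, false), (3, false), (3, false), (0, false), (1, false), (0, false), (1, false), (3, false), (0, false), (2, false), (2, false), (0, false), (2, true)] K9s1_mm_t14 = true := by decide +kernel

def K9s1_mm_t15 : Tr := (n2 (n3 (n2 (n1 l (n2 (n3 l (n1 l (n2 (n0 (n1 l (n3 l o)) l) l))) l)) l) (n1 l (n2 (n0 (n1 (n2 o (n3 l o)) (n3 (n1 (n2 o (n3 l o)) (n2 o (n3 (n0 (n1 l (n3 l o)) l) o))) o)) (n1 l (n3 l o))) (n1 l (n0 (n1 (n3 l (n2 o l)) (n3 (n3 l (n0 (n1 l (n2 (n3 l o) l)) l)) (n2 o (n0 (n1 l (n3 l o)) l)))) l))))) l)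

def K9s1_mm_h15 : subCheck K9s1 false false K9s1_mm_A K9s1_mm_B [(0, false), (2, false), (2, false), (2, false), (2, false), (2, false), (1, false), (1, false), (1, false), (3, false), (3, false), (3, false), (3, false), (3, false), (0, false), (1, false), (0, false), (1, false), (3, false), (0, false), (2, false), (2, false), (0, true)] K9s1_mm_t15 = true := by decide +kernel

def K9s1_mm_t16 : Tr := l

def K9s1_mm_h16 : subCheck K9s1 false false K9s1_mm_A K9s1_mm_B [(0, false), (2, false), (2, false), (2, false), (2, false), (2, false), (1, false), (1, false), (1, false), (3, false), (3, false), (3, false), (3, false), (3, false), (0, false), (1, false), (0, false), (1, false), (3, false), (0, false), (2, false), (2, true)] K9s1_mm_t16 = true := by decide +kernel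

def K9s1_mm_t17 : Tr := o

def K9s1_mm_h17 : subCheck K9s1 false false K9s1_mm_A K9s1_mm_B [(0, false), (2, false), (2, false), (2, false), (2, false), (2, false), (1, false), (1, false), (1, false), (3, false), (3, false), (3, false), (3, false), (3, false), (0, false), (1, false), (0, false), (1, false), (3, false), (0, false), (2, true)] K9s1_mm_t17 = true := by decide +kernel

def K9s1_mm_t18 : Tr := (n1 (n0 l (n2 (n0 (n2 (n2 (n1 l (n2 (n0 l (n3 l (n0 l (n3 l (n2 (n0 l o) l))))) l)) l) l) (n1 (n2 (n0 (n2 (n3 (n0 l o) (n0 (n2 (n1 (n3 l (n0 l o)) o) (n1 (n3 l (n0 l o)) o)) o)) (n0 (n3 l (n3 l (n1 l o))) o)) o) (n0 (n3 (n0 l o) (n0 l o)) o)) o)) o)) (n0 l (n0 (n2 (n2 (n2 (n1 (n0 l (n3 l (n2 (n0 l o) l))) l) l) l) o) o)))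

def K9s1_mm_h18 : subCheck K9s1 false false K9s1_mm_A K9s1_mm_B [(0, false), (2, false), (2, false), (2, false), (2, false), (2, false), (1, false), (1, false), (1, false), (3, false), (3, false), (3, false), (3, false), (3, false), (0, false), (1, false), (0, false), (1, false), (3, false), (0, true), (3, false)] K9s1_mm_t18 = true := by decide +kernel

def K9s1_mm_t19 : Tr := l

def K9s1_mm_h19 : subCheck K9s1 false false K9s1_mm_A K9s1_mm_B [(0, false), (2, false), (2, false), (2, false), (2, false), (2, false), (1, false), (1, false), (1, false), (3, false), (3, false), (3, false), (3, false), (3, false), (0, false), (1, false), (0, false), (1, false), (3, false), (0, true), (3, true), (1, false), (2, false), (0, false)] K9s1_mm_t19 = true := by decide +kernel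

def K9s1_mm_t20 : Tr := (n2 (n1 (n0 (n2 (n2 o l) l) (n2 (n3 (n0 l (n1 (n3 l o) (n3 (n2 o (n0 l (n3 l o))) o))) o) (n3 (n0 l (n3 l (n1 l (n0 l (n3 (n2 (n1 l o) l) (n2 o (n1 l o))))))) (n0 (n1 l (n3 l o)) (n1 (n0 (n3 l o) (n3 (n1 (n2 o l) (n2 o (n3 l o))) o)) (n3 (n0 (n2 o (n3 l o)) (n2 o (n1 (n3 (n0 l (n1 l o)) o) o))) o)))))) (n0 (n2 (n3 l o) l) (n2 (n3 (n0 (n3 l o) (n1 (n3 (n0 (n2 o l) o) o) o)) o) (n3 (n0 l (n1 (n3 (n0 l o) (n0 (n2 (n3 l o) l) o)) o)) (n0 (n1 (n3 (n2 o l) o) (n3 (n0 l (n2 o (n3 l o))) o)) (n1 (n3 (n0 (n2 o (n3 (n0 l o) o)) o) o) o)))))) (n1 (n0 l (n2 (n0 l (n3 l (n1 (n0 l (n3 l (n1 l (n2 o l)))) (n0 (n3 l (n2 o l)) (n3 (n1 l o) (n1 (n2 o l) o)))))) l)) (n0 l (n0 (n3 l (n1 l (n2 (n3 l (n0 l (n2 o l))) l))) (n1 (n2 (n3 (n3 l (n0 l o)) (n0 (n3 (n2 (n3 l (n0 l o)) l) (n2 o l)) o)) (n3 l (n0 l o))) o)))))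

def K9s1_mm_h20 : subCheck K9s1 false false K9s1_mm_A K9s1_mm_B [(0, false), (2, false), (2, false), (2, false), (2, false), (2, false), (1, false), (1, false), (1, false), (3, false), (3, false), (3, false), (3, false), (3, false), (0, false), (1, false), (0, false), (1, false), (3, false), (0, true), (3, true), (1, false), (2, false), (0, true), (2, false), (0, false)] K9s1_mm_t20 = true := by decide +kernel

def K9s1_mm_t21 : Tr := (n1 (n2 (n0 (n2 (n3 (n0 (n1 (n3 (n0 (n2 o (n3 l o)) o) o) o) o) o) (n0 (n3 (n1 (n3 (n0 l o) (n0 (n1 (n2 (n3 l o) l) (n3 (n2 (n0 l o) l) (n2 o (n0 l o)))) o)) o) (n1 (n0 (n3 (n1 (n2 o (n3 (n0 l (n1 l (n3 (n2 o l) o))) o)) (n2 o (n3 (n0 (n1 l o) o) o))) o) o) o)) o)) o) (n0 (n0 (n3 (n1 (n2 (n0 l o) l) o) (n1 (n2 (n0 (n1 (n3 l (n2 o l)) (n3 (n0 l o) (n2 o (n0 l o)))) o) (n0 l o)) o)) o) o)) o)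

def K9s1_mm_h21 : subCheck K9s1 false false K9s1_mm_A K9s1_mm_B [(0, false), (2, false), (2, false), (2, false), (2, false), (2, false), (1, false), (1, false), (1, false), (3, false), (3, false), (3, false), (3, false), (3, false), (0, false), (1, false), (0, false), (1, false), (3, false), (0, true), (3, true), (1, false), (2, false), (0, true), (2, false), (0, true)] K9s1_mm_t21 = true := by decide +kernel

def K9s1_mm_t22 : Tr := (n0 l (n1 (n0 (n2 (n3 (n0 l o) (n0 (n1 l o) o)) o) o) o))

def K9s1_mm_h22 : subCheck K9s1 false false K9s1_mm_A K9s1_mm_B [(0, false), (2, false), (2, false), (2, false), (2, false), (2, false), (1, false), (1, false), (1, false), (3, false), (3, false), (3, false), (3, false), (3, false), (0, false), (1, false), (0, false), (1, false), (3, false), (0, true), (3, true), (1, false), (2, false), (0, true), (2, true)] K9s1_mm_t22 = true := by decide +kernel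

def K9s1_mm_t23 : Tr := o

def K9s1_mm_h23 : subCheck K9s1 false false K9s1_mm_A K9s1_mm_B [(0, false), (2, false), (2, false), (2, false), (2, false), (2, false), (1, false), (1, false), (1, false), (3, false), (3, false), (3, false), (3, false), (3, false), (0, false), (1, false), (0, false), (1, false), (3, false), (0, true), (3, true), (1, false), (2, true)] K9s1_mm_t23 = true := by decide +kernel

def K9s1_mm_t24 : Tr := (n0 l (n2 (n0 (n2 (n1 (n2 (n0 (n2 (n3 l o) (n3 l (n1 (n3 l o) (n3 l o)))) (n2 (n3 (n0 (n1 (n3 l o) o) o) o) (n3 (n0 l o) (n0 (n1 (n3 (n0 (n3 l o) o) o) o) o)))) (n0 l (n0 (n3 l (n1 (n2 (n3 l (n0 l o)) l) o)) o))) (n2 (n0 (n2 (n3 l o) (n3 l (n3 l o))) o) (n0 l o))) l) o) o))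

def K9s1_mm_h24 : subCheck K9s1 false false K9s1_mm_A K9s1_mm_B [(0, false), (2, false), (2, false), (2, false), (2, false), (2, false), (1, false), (1, false), (1, false), (3, false), (3, false), (3, false), (3, false), (3, false), (0, false), (1, false), (0, false), (1, false), (3, false), (0, true), (3, true), (1, true)] K9s1_mm_t24 = true := by decide +kernel

def K9s1_mm_t25 : Tr := (n2 (n0 (n2 (n2 o (n0 l (n1 l (n0 (n2 o l) (n2 o l))))) l) (n1 (n2 (n0 (n2 o l) (n2 o (n0 (n1 (n3 (n0 l (n2 o (n0 l (n1 l (n3 (n0 l (n2 (n1 l o) l)) o))))) o) (n3 (n0 (n2 o l) (n2 o (n0 l (n1 (n3 (n0 l o) o) o)))) o)) (n1 (n3 (n0 (n0 (n2 o (n1 (n3 (n0 (n2 (n1 l (n0 l o)) l) o) o) o)) o) o) o) o)))) (n0 l (n3 (n0 l (n1 (n0 (n2 (n0 (n2 (n3 (n1 l o) o) o) o) o) o) o)) (n0 l (n1 (n2 o o) o))))) (n2 (n0 (n2 o (n1 (n0 l (n2 o l)) (n2 o l))) (n2 o (n0 (n1 (n3 (n0 (n2 o l) (n2 o (n1 (n0 (n2 (n0 l o) l) o) o))) o) (n3 (n0 (n2 o l) o) o)) o))) (n0 l (n3 (n0 l o) (n0 l o)))))) o)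

def K9s1_mm_h25 : subCheck K9s1 false false K9s1_mm_A K9s1_mm_B [(0, false), (2, false), (2, false), (2, false), (2, false), (2, false), (1, false), (1, false), (1, false), (3, false), (3, false), (3, false), (3, false), (3, false), (0, false), (1, false), (0, false), (1, false), (3, true)] K9s1_mm_t25 = true := by decide +kernel

def K9s1_mm_t26 : Tr := o

def K9s1_mm_h26 : subCheck K9s1 false false K9s1_mm_A K9s1_mm_B [(0, false), (2, false), (2, false), (2, false), (2, false), (2, false), (1, false), (1, false), (1, false), (3, false), (3, false), (3, false), (3, false), (3, false), (0, false), (1, false), (0, false), (1, true), (0, false), (2, false), (3, false), (0, false), (2, false), (0, false)] K9s1_mm_t26 = true := by decide +kernel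

def K9s1_mm_t27 : Tr := (n0 o (n1 (n2 (n3 l (n1 (n2 (n2 (n3 l (n0 (n2 o l) l)) l) l) (n3 (n2 (n2 (n0 o l) l) l) (n0 o l)))) (n3 l (n1 l (n3 l (n0 o l))))) o))

def K9s1_mm_h27 : subCheck K9s1 false false K9s1_mm_A K9s1_mm_B [(0, false), (2, false), (2, false), (2, false), (2, false), (2, false), (1, false), (1, false), (1, false), (3, false), (3, false), (3, false), (3, false), (3, false), (0, false), (1, false), (0, false), (1, true), (0, false), (2, false), (3, false), (0, false), (2, false), (0, true), (2, false), (3, false), (1, false), (1, false), (2, false), (3, false)] K9s1_mm_t27 = true := by decide +kernel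

def K9s1_mm_t28 : Tr := o

def K9s1_mm_h28 : subCheck K9s1 false false K9s1_mm_A K9s1_mm_B [(0, false), (2, false), (2, false), (2, false), (2, false), (2, false), (1, false), (1, false), (1, false), (3, false), (3, false), (3, false), (3, false), (3, false), (0, false), (1, false), (0, false), (1, true), (0, false), (2, false), (3, false), (0, false), (2, false), (0, true), (2, false), (3, false), (1, false), (1, false), (2, false), (3, true), (0, false)] K9s1_mm_t28 = true := by decide +kernel

def K9s1_mm_t29 : Tr := (n3 (n1 (n3 (n2 (n0 (n1 (n3 l o) o) l) (n0 (n1 l o) l)) (n2 o (n0 (n1 (n3 (n0 o l) (n0 o (n2 o l))) o) l))) (n3 (n0 o (n2 (n1 (n2 o l) o) (n1 l o))) (n0 o (n2 o (n1 (n3 (n0 o l) (n0 o l)) o))))) (n1 (n3 (n2 o (n0 (n1 (n3 (n0 o (n1 (n2 o (n3 l o)) (n3 (n2 o (n0 o l)) o))) o) o) (n1 (n3 l o) (n3 (n0 (n1 (n2 o l) (n3 (n2 o l) o)) l) o)))) o) (n3 (n2 o (n0 o (n1 (n3 (n0 o (n1 (n3 l o) (n3 (n0 o l) o))) o) o))) o)))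

def K9s1_mm_h29 : subCheck K9s1 false false K9s1_mm_A K9s1_mm_B [(0, false), (2, false), (2, false), (2, false), (2, false), (2, false), (1, false), (1, false), (1, false), (3, false), (3, false), (3, false), (3, false), (3, false), (0, false), (1, false), (0, false), (1, true), (0, false), (2, false), (3, false), (0, false), (2, false), (0, true), (2, false), (3, false), (1, false), (1, false), (2, false), (3, true), (0, true), (1, false), (2, false)] K9s1_mm_t29 = true := by decide +kernel

def K9s1_mm_t30 : Tr := (n1 (n3 l (n0 (n2 (n1 (n3 l (n0 o l)) o) (n1 l o)) l)) (n3 (n0 o l) (n0 o (n1 l o))))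

def K9s1_mm_h30 : subCheck K9s1 false false K9s1_mm_A K9s1_mm_B [(0, false), (2, false), (2, false), (2, false), (2, false), (2, false), (1, false), (1, false), (1, false), (3, false), (3, false), (3, false), (3, false), (3, false), (0, false), (1, false), (0, false), (1, true), (0, false), (2, false), (3, false), (0, false), (2, false), (0, true), (2, false), (3, false), (1, false), (1, false), (2, false), (3, true), (0, true), (1, false), (2, true), (3, false)] K9s1_mm_t30 = true := by decide +kernel

def K9s1_mm_t31 : Tr := (n0 (n1 (n2 (n3 (n0 o l) (n0 o (n1 (n3 l (n2 (n0 (n1 l o) l) l)) (n3 (n2 (n0 o l) l) (n0 o (n2 (n1 l o) l)))))) (n3 l (n0 o l))) o) (n2 (n1 l (n3 l (n0 (n1 (n3 l (n0 (n2 (n1 l o) l) l)) (n3 (n0 o l) (n0 o l))) l))) l))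

def K9s1_mm_h31 : subCheck K9s1 false false K9s1_mm_A K9s1_mm_B [(0, false), (2, false), (2, false), (2, false), (2, false), (2, false), (1, false), (1, false), (1, false), (3, false), (3, false), (3, false), (3, false), (3, false), (0, false), (1, false), (0, false), (1, true), (0, false), (2, false), (3, false), (0, false), (2, false), (0, true), (2, false), (3, false), (1, false), (1, false), (2, false), (3, true), (0, true), (1, false), (2, true), (3, true), (1, false), (3, false)] K9s1_mm_t31 = true := by decide +kernel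

def K9s1_mm_t32 : Tr := (n0 (n2 (n3 (n0 o (n1 (n3 (n2 o l) (n0 (n2 o (n1 (n2 o l) o)) (n2 o l))) (n3 (n0 o (n2 o l)) (n0 o (n2 o (n1 (n3 l (n2 o l)) o)))))) (n1 (n0 o (n3 (n0 (n2 o (n1 (n3 (n2 o l) o) o)) (n2 o (n1 l (n2 o l)))) o)) (n0 o (n3 (n0 o (n2 o (n1 (n3 (n2 o l) o) o))) o)))) (n3 (n1 (n0 o l) (n0 o (n2 (n3 l (n0 o l)) l))) (n1 (n0 o (n2 (n3 (n0 (n1 l o) l) (n0 (n1 (n2 (n3 l o) l) o) l)) l)) (n0 o (n2 (n3 (n0 o (n1 l o)) (n0 o (n1 (n2 (n3 l o) l) o))) (n3 l (n0 o l))))))) (n2 (n3 (n0 (n1 l (n3 l (n0 (n2 o l) l))) l) (n0 (n1 (n3 (n2 o l) o) (n3 (n0 (n2 o (n1 l (n3 l o))) (n2 o l)) o)) (n1 l (n3 l o)))) l))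

def K9s1_mm_h32 : subCheck K9s1 false false K9s1_mm_A K9s1_mm_B [(0, false), (2, false), (2, false), (2, false), (2, false), (2, false), (1, false), (1, false), (1, false), (3, false), (3, false), (3, false), (3, false), (3, false), (0, false), (1, false), (0, false), (1, true), (0, false), (2, false), (3, false), (0, false), (2, false), (0, true), (2, false), (3, false), (1, false), (1, false), (2, false), (3, true), (0, true), (1, false), (2, true), (3, true), (1, false), (3, true), (1, false)] K9s1_mm_t32 = true := by decide +kernel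

def K9s1_mm_t33 : Tr := (n0 o (n2 (n3 (n0 (n1 (n3 (n0 (n2 o l) l) (n0 (n2 o (n1 (n3 l (n2 o l)) o)) (n2 o l))) (n3 (n0 o (n2 o l)) (n0 o (n2 o (n1 l o))))) (n1 l (n3 l (n0 (n2 o l) l)))) (n0 (n1 (n3 (n0 (n2 o (n1 (n3 (n2 o l) o) o)) (n2 o (n1 l (n3 l o)))) o) (n3 (n0 o (n2 o (n1 (n3 (n2 o l) o) o))) o)) (n1 (n3 (n0 (n2 o l) l) o) (n3 (n0 (n2 o (n1 l (n3 l o))) l) o)))) (n3 (n0 (n1 l (n3 l (n2 (n0 o l) l))) l) (n0 (n1 (n2 (n3 (n0 (n1 l o) l) (n0 (n1 (n2 (n3 l o) l) o) l)) l) (n3 (n2 (n0 o l) l) (n2 (n0 o (n1 (n2 (n3 l o) l) o)) (n0 o l)))) l))))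

def K9s1_mm_h33 : subCheck K9s1 false false K9s1_mm_A K9s1_mm_B [(0, false), (2, false), (2, false), (2, false), (2, false), (2, false), (1, false), (1, false), (1, false), (3, false), (3, false), (3, false), (3, false), (3, false), (0, false), (1, false), (0, false), (1, true), (0, false), (2, false), (3, false), (0, false), (2, false), (0, true), (2, false), (3, false), (1, false), (1, false), (2, false), (3, true), (0, true), (1, false), (2, true), (3, true), (1, false), (3, true), (1, true)] K9s1_mm_t33 = true := by decide +kernel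

def K9s1_mm_t34 : Tr := (n3 (n0 o (n1 (n2 (n3 (n0 o l) (n0 o (n1 l (n3 l (n0 o l))))) (n3 l (n0 o l))) o)) (n1 (n0 o (n2 (n3 (n0 o (n1 (n3 (n0 (n2 o l) l) (n0 (n2 o (n1 l (n3 l (n0 o l)))) (n2 o l))) (n3 (n0 o (n2 o l)) (n0 o (n2 o l))))) (n0 o (n1 (n3 (n0 (n2 o (n1 (n3 (n0 (n2 o l) l) o) (n3 (n0 o (n2 o l)) o))) (n2 o l)) o) (n3 (n0 o (n2 o (n1 (n3 l o) (n3 (n0 o l) o)))) o)))) (n3 (n0 o (n1 l (n3 l (n0 o l)))) (n0 o (n1 (n3 l (n2 (n0 (n1 (n3 l (n2 o l)) (n3 (n2 (n0 o l) l) (n2 o l))) l) l)) (n3 (n0 o l) (n0 o (n2 (n1 l (n3 (n0 o l) (n0 o l))) l)))))))) o))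

def K9s1_mm_h34 : subCheck K9s1 false false K9s1_mm_A K9s1_mm_B [(0, false), (2, false), (2, false), (2, false), (2, false), (2, false), (1, false), (1, false), (1, false), (3, false), (3, false), (3, false), (3, false), (3, false), (0, false), (1, false), (0, false), (1, true), (0, false), (2, false), (3, false), (0, false), (2, false), (0, true), (2, false), (3, false), (1, false), (1, false), (2, false), (3, true), (0, true), (1, false), (2, true), (3, true), (1, true)] K9s1_mm_t34 = true := by decide +kernel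

def K9s1_mm_t35 : Tr := o

def K9s1_mm_h35 : subCheck K9s1 false false K9s1_mm_A K9s1_mm_B [(0, false), (2, false), (2, false), (2, false), (2, false), (2, false), (1, false), (1, false), (1, false), (3, false), (3, false), (3, false), (3, false), (3, false), (0, false), (1, false), (0, false), (1, true), (0, false), (2, false), (3, false), (0, false), (2, false), (0, true), (2, false), (3, false), (1, false), (1, false), (2, false), (3, true), (0, true), (1, true)] K9s1_mm_t35 = true := by decide +kernel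

def K9s1_mm_t36 : Tr := (n0 o (n3 (n1 l o) (n1 (n2 (n3 (n1 l (n3 l (n0 o l))) (n1 (n3 (n0 (n1 l o) l) (n1 (n0 (n2 (n3 l (n1 l (n0 o l))) l) l) (n0 o l))) (n3 (n1 (n0 o l) o) (n1 (n0 o (n2 (n3 l (n0 o l)) l)) o)))) (n1 l (n3 l (n1 l o)))) o)))

def K9s1_mm_h36 : subCheck K9s1 false false K9s1_mm_A K9s1_mm_B [(0, false), (2, false), (2, false), (2, false), (2, false), (2, false), (1, false), (1, false), (1, false), (3, false), (3, false), (3, false), (3, false), (3, false), (0, false), (1, false), (0, false), (1, true), (0, false), (2, false), (3, false), (0, false), (2, false), (0, true), (2, false), (3, false), (1, false), (1, false), (2, true)] K9s1_mm_t36 = true := by decide +kernel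

def K9s1_mm_t37 : Tr := o

def K9s1_mm_h37 : subCheck K9s1 false false K9s1_mm_A K9s1_mm_B [(0, false), (2, false), (2, false), (2, false), (2, false), (2, false), (1, false), (1, false), (1, false), (3, false), (3, false), (3, false), (3, false), (3, false), (0, false), (1, false), (0, false), (1, true), (0, false), (2, false), (3, false), (0, false), (2, false), (0, true), (2, false), (3, false), (1, false), (1, true)] K9s1_mm_t37 = true := by decide +kernel

def K9s1_mm_t38 : Tr := o

def K9s1_mm_h38 : subCheck K9s1 false false K9s1_mm_A K9s1_mm_B [(0, false), (2, false), (2, false), (2, false), (2, false), (2, false), (1, false), (1, false), (1, false), (3, false), (3, false), (3, false), (3, false), (3, false), (0, false), (1, false), (0, false), (1, true), (0, false), (2, false), (3, false), (0, false), (2, false), (0, true), (2, false), (3, false), (1, true)] K9s1_mm_t38 = true := by decide +kernel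

def K9s1_mm_t39 : Tr := o

def K9s1_mm_h39 : subCheck K9s1 false false K9s1_mm_A K9s1_mm_B [(0, false), (2, false), (2, false), (2, false), (2, false), (2, false), (1, false), (1, false), (1, false), (3, false), (3, false), (3, false), (3, false), (3, false), (0, false), (1, false), (0, false), (1, true), (0, false), (2, false), (3, false), (0, false), (2, false), (0, true), (2, false), (3, true), (1, false), (2, false), (1, false), (3, false), (0, false)] K9s1_mm_t39 = true := by decide +kernel

def K9s1_mm_t40 : Tr := o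

def K9s1_mm_h40 : subCheck K9s1 false false K9s1_mm_A K9s1_mm_B [(0, false), (2, false), (2, false), (2, false), (2, false), (2, false), (1, false), (1, false), (1, false), (3, false), (3, false), (3, false), (3, false), (3, false), (0, false), (1, false), (0, false), (1, true), (0, false), (2, false), (3, false), (0, false), (2, false), (0, true), (2, false), (3, true), (1, false), (2, false), (1, false), (3, false), (0, true), (1, false), (2, false)] K9s1_mm_t40 = true := by decide +kernel

def K9s1_mm_t41 : Tr := (n2 o (n0 (n3 (n1 (n0 o (n2 (n3 (n0 (n1 (n2 o (n3 l (n0 o l))) o) (n1 l (n2 o l))) o) (n3 (n0 (n1 l o) l) (n0 (n1 (n2 (n3 l (n0 o l)) l) o) l)))) (n0 o (n3 (n2 (n0 o (n1 (n2 o (n3 l (n0 o l))) o)) (n0 o (n1 l o))) (n2 o (n1 (n0 o (n2 (n3 l (n0 o l)) l)) o))))) (n1 (n0 o (n2 o (n3 (n1 (n0 (n2 o (n3 l (n1 l o))) l) (n0 o (n2 o l))) o))) (n0 o (n3 (n2 o (n1 (n0 o (n2 o (n3 l (n0 o l)))) o)) o)))) (n3 (n0 (n1 (n2 (n3 l o) l) (n2 (n3 (n0 (n1 l (n2 o l)) l) o) l)) l) (n0 (n1 (n2 o (n3 l o)) (n3 (n2 o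 (n0 (n1 (n2 o l) (n2 o l)) l)) o)) (n1 l (n2 o l))))))

def K9s1_mm_h41 : subCheck K9s1 false false K9s1_mm_A K9s1_mm_B [(0, false), (2, false), (2, false), (2, false), (2, false), (2, false), (1, false), (1, false), (1, false), (3, false), (3, false), (3, false), (3, false), (3, false), (0, false), (1, false), (0, false), (1, true), (0, false), (2, false), (3, false), (0, false), (2, false), (0, true), (2, false), (3, true), (1, false), (2, false), (1, false), (3, false), (0, true), (1, false), (2, true), (3, false), (1, false), (3, false), (1, false)] K9s1_mm_t41 = true := by decide +kernel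

def K9s1_mm_t42 : Tr := (n2 o (n0 o (n3 (n0 (n1 (n3 (n2 (n0 (n1 (n2 o (n3 l (n0 o l))) o) (n1 l (n2 o l))) (n0 (n1 l o) l)) (n2 o (n0 (n1 (n2 (n3 (n0 o l) (n0 o l)) l) o) l))) (n3 (n2 (n0 o (n1 (n3 (n2 o l) (n2 o (n0 o l))) o)) (n0 o (n1 l o))) (n2 o (n0 o (n1 (n2 (n3 (n0 o l) (n0 o l)) l) o))))) (n1 (n2 (n3 l o) l) (n3 (n2 (n0 (n1 l (n3 l (n2 o l))) l) l) (n2 o l)))) (n0 (n1 (n3 (n2 o (n0 (n1 (n2 o (n3 (n0 o l) (n0 o l))) o) (n1 (n2 o l) (n2 o l)))) o) (n3 (n2 o (n0 o (n1 (n2 o (n3 (n0 o l) (n0 o l))) o))) o)) (n1 (n3 (n2 o l) o) (n3 (n2 o (n0 (n1 (n2 o l) (n2 o l)) l)) o))))))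

def K9s1_mm_h42 : subCheck K9s1 false false K9s1_mm_A K9s1_mm_B [(0, false), (2, false), (2, false), (2, false), (2, false), (2, false), (1, false), (1, false), (1, false), (3, false), (3, false), (3, false), (3, false), (3, false), (0, false), (1, false), (0, false), (1, true), (0, false), (2, false), (3, false), (0, false), (2, false), (0, true), (2, false), (3, true), (1, false), (2, false), (1, false), (3, false), (0, true), (1, false), (2, true), (3, false), (1, false), (3, false), (1, true)] K9s1_mm_t42 = true := by decide +kernel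

def K9s1_mm_t43 : Tr := o

def K9s1_mm_h43 : subCheck K9s1 false false K9s1_mm_A K9s1_mm_B [(0, false), (2, false), (2, false), (2, false), (2, false), (2, false), (1, false), (1, false), (1, false), (3, false), (3, false), (3, false), (3, false), (3, false), (0, false), (1, false), (0, false), (1, true), (0, false), (2, false), (3, false), (0, false), (2, false), (0, true), (2, false), (3, true), (1, false), (2, false), (1, false), (3, false), (0, true), (1, false), (2, true), (3, false), (1, false), (3, true)] K9s1_mm_t43 = true := by decide +kernel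

def K9s1_mm_t44 : Tr := (n3 (n1 (n0 o (n2 o (n3 (n0 o (n1 (n3 (n0 (n2 (n1 (n3 (n2 o l) (n2 o (n0 (n1 l o) l))) (n3 (n2 o (n0 o l)) (n0 o (n2 o (n1 l o))))) (n1 l (n2 (n3 l (n0 o l)) l))) (n2 (n1 l (n3 l (n2 o l))) l)) (n0 (n2 o (n1 (n2 (n3 l (n0 (n1 (n2 o l) o) l)) l) (n3 (n2 (n0 o l) l) (n2 (n0 o (n1 (n2 o l) o)) (n0 o l))))) (n2 o l))) (n3 (n0 o (n2 (n1 (n3 (n0 (n2 o l) l) (n0 (n2 o (n1 l o)) (n2 o l))) (n3 (n0 o (n2 o l)) (n0 o (n2 o (n1 l o))))) l)) (n0 o (n2 o (n1 (n2 (n3 l (n0 (n1 l o) l)) l) (n3 (n2 (n0 o l) l) (n2 (n0 o (n1 l o)) (n0 o l))))))))) (n0 o (n1 (n3 (n0 (n2 o (n1 (n2 o (n3 (n0 (n1 l o) l) (n0 (n1 (n2 o l) o) l))) (n3 (n2 o (n0 o (n1 l o))) (n2 o (n0 o (n1 (n2 o l) o)))))) (n2 o (n1 l (n2 o l)))) o) (n3 (n0 o (n2 o (n1 (n3 (n2 o l) (n2 o (n0 (n1 (n2 o l) o) l))) (n3 (n2 o (n0 o l)) (n2 o (n0 o (n1 (n2 o l) o))))))) o)))))) o) o)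

def K9s1_mm_h44 : subCheck K9s1 false false K9s1_mm_A K9s1_mm_B [(0, false), (2, false), (2, false), (2, false), (2, false), (2, false), (1, false), (1, false), (1, false), (3, false), (3, false), (3, false), (3, false), (3, false), (0, false), (1, false), (0, false), (1, true), (0, false), (2, false), (3, false), (0, false), (2, false), (0, true), (2, false), (3, true), (1, false), (2, false), (1, false), (3, false), (0, true), (1, false), (2, true), (3, false), (1, true)] K9s1_mm_t44 = true := by decide +kernel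

def K9s1_mm_t45 : Tr := o

def K9s1_mm_h45 : subCheck K9s1 false false K9s1_mm_A K9s1_mm_B [(0, false), (2, false), (2, false), (2, false), (2, false), (2, false), (1, false), (1, false), (1, false), (3, false), (3, false), (3, false), (3, false), (3, false), (0, false), (1, false), (0, false), (1, true), (0, false), (2, false), (3, false), (0, false), (2, false), (0, true), (2, false), (3, true), (1, false), (2, false), (1, false), (3, false), (0, true), (1, false), (2, true), (3, true)] K9s1_mm_t45 = true := by decide +kernel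

def K9s1_mm_t46 : Tr := o

def K9s1_mm_h46 : subCheck K9s1 false false K9s1_mm_A K9s1_mm_B [(0, false), (2, false), (2, false), (2, false), (2, false), (2, false), (1, false), (1, false), (1, false), (3, false), (3, false), (3, false), (3, false), (3, false), (0, false), (1, false), (0, false), (1, true), (0, false), (2, false), (3, false), (0, false), (2, false), (0, true), (2, false), (3, true), (1, false), (2, false), (1, false), (3, false), (0, true), (1, true)] K9s1_mm_t46 = true := by decide +kernel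

def K9s1_mm_t47 : Tr := o

def K9s1_mm_h47 : subCheck K9s1 false false K9s1_mm_A K9s1_mm_B [(0, false), (2, false), (2, false), (2, false), (2, false), (2, false), (1, false), (1, false), (1, false), (3, false), (3, false), (3, false), (3, false), (3, false), (0, false), (1, false), (0, false), (1, true), (0, false), (2, false), (3, false), (0, false), (2, false), (0, true), (2, false), (3, true), (1, false), (2, false), (1, false), (3, true)] K9s1_mm_t47 = true := by decide +kernel

def K9s1_mm_t48 : Tr := o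

def K9s1_mm_h48 : subCheck K9s1 false false K9s1_mm_A K9s1_mm_B [(0, false), (2, false), (2, false), (2, false), (2, false), (2, false), (1, false), (1, false), (1, false), (3, false), (3, false), (3, false), (3, false), (3, false), (0, false), (1, false), (0, false), (1, true), (0, false), (2, false), (3, false), (0, false), (2, false), (0, true), (2, false), (3, true), (1, false), (2, false), (1, true)] K9s1_mm_t48 = true := by decide +kernel

def K9s1_mm_t49 : Tr := o

def K9s1_mm_h49 : subCheck K9s1 false false K9s1_mm_A K9s1_mm_B [(0, false), (2, false), (2, false), (2, false), (2, false), (2, false), (1, false), (1, false), (1, false), (3, false), (3, false), (3, false), (3, false), (3, false), (0, false), (1, false), (0, false), (1, true), (0, false), (2, false), (3, false), (0, false), (2, false), (0, true), (2, false), (3, true), (1, false), (2, true), (1, false), (0, false)] K9s1_mm_t49 = true := by decide +kernel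

def K9s1_mm_t50 : Tr := (n1 (n2 (n0 (n3 (n1 (n2 (n0 o l) l) (n0 o (n2 (n3 l (n1 l o)) l))) (n1 (n2 (n0 o (n3 l (n1 l (n0 o l)))) (n0 o l)) (n0 o (n2 (n3 (n1 (n0 o l) o) (n1 (n0 o (n2 (n3 l (n1 l o)) l)) o)) l)))) l) l) (n0 o (n2 (n3 (n0 (n1 l (n2 (n3 l (n0 o l)) l)) l) (n0 (n1 (n2 (n3 (n0 (n1 l o) l) (n0 (n1 (n2 (n3 l (n0 o l)) l) o) l)) l) (n2 (n3 (n0 o (n1 l o)) (n0 o (n1 (n2 (n3 (n0 o l) (n0 o l)) l) o))) (n3 l (n0 o l)))) l)) l)))

def K9s1_mm_h50 : subCheck K9s1 false false K9s1_mm_A K9s1_mm_B [(0, false), (2, false), (2, false), (2, false), (2, false), (2, false), (1, false), (1, false), (1, false), (3, false), (3, false), (3, false), (3, false), (3, false), (0, false), (1, false), (0, false), (1, true), (0, false), (2, false), (3, false), (0, false), (2, false), (0, true), (2, false), (3, true), (1, false), (2, true), (1, false), (0, true), (1, false), (2, false), (3, false), (3, false), (1, false), (3, false)] K9s1_mm_t50 = true := by decide +kernel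

def K9s1_mm_t51 : Tr := (n0 (n2 (n3 (n1 (n2 (n0 o (n3 (n1 (n0 (n2 o l) l) (n0 o (n2 o l))) o)) (n0 o (n3 l (n1 l (n2 (n0 o l) l))))) (n2 (n0 o (n3 (n1 (n0 o (n2 o (n3 l (n1 l o)))) o) o)) (n0 o (n3 (n1 (n2 (n0 o l) l) o) (n1 (n2 (n0 o l) l) o))))) (n1 (n2 o (n0 o (n3 (n1 (n2 o l) (n2 o l)) o))) (n2 o (n0 o (n3 (n1 (n2 o (n0 o l)) o) o))))) (n1 (n2 (n3 l (n0 o l)) l) (n3 (n2 (n0 o l) l) (n2 (n0 o (n3 (n1 l o) (n1 (n2 (n0 o l) l) o))) l)))) (n2 (n3 (n0 (n1 (n2 (n3 l o) l) (n2 (n3 (n0 (n1 l (n2 o l)) l) o) l)) l) (n1 (n0 (n2 o l) l) (n0 (n2 o (n3 (n1 l (n0 (n2 o l) l)) o)) (n2 o l)))) l))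

def K9s1_mm_h51 : subCheck K9s1 false false K9s1_mm_A K9s1_mm_B [(0, false), (2, false), (2, false), (2, false), (2, false), (2, false), (1, false), (1, false), (1, false), (3, false), (3, false), (3, false), (3, false), (3, false), (0, false), (1, false), (0, false), (1, true), (0, false), (2, false), (3, false), (0, false), (2, false), (0, true), (2, false), (3, true), (1, false), (2, true), (1, false), (0, true), (1, false), (2, false), (3, false), (3, false), (1, false), (3, true), (1, false)] K9s1_mm_t51 = true := by decide +kernel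

def K9s1_mm_t52 : Tr := (n0 o (n2 (n3 (n1 (n0 (n2 (n3 (n0 (n1 (n2 o (n3 l (n0 o l))) o) (n1 (n2 o l) (n2 o l))) o) (n3 l (n1 (n0 (n2 (n3 l (n1 l (n0 o l))) l) l) (n0 o l)))) (n2 (n3 l o) l)) (n0 (n2 (n3 (n0 o (n1 (n2 o (n3 l (n0 o l))) o)) o) (n3 (n1 (n0 o l) o) (n1 (n0 o (n2 (n3 l (n0 o l)) l)) o))) (n2 (n3 (n0 (n1 (n2 o l) (n2 o l)) l) o) l))) (n1 (n0 (n2 o (n3 (n1 (n0 (n2 o l) l) (n0 o (n2 o l))) o)) (n2 o (n3 l o))) (n0 (n2 o (n3 (n1 (n0 o (n2 o (n3 l (n1 l (n0 o l))))) o) o)) (n2 o (n3 (n0 (n1 l (n2 o l)) l) o))))) (n3 (n1 l (n0 (n2 (n3 l (n1 l o)) l) l)) (n1 (n2 (n0 (n3 l (n1 l (n2 (n0 o l) l))) l) l) (n0 (n2 (n3 (n1 (n0 o l) o) (n1 (n2 (n0 o l) l) o)) l) l)))))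

def K9s1_mm_h52 : subCheck K9s1 false false K9s1_mm_A K9s1_mm_B [(0, false), (2, false), (2, false), (2, false), (2, false), (2, false), (1, false), (1, false), (1, false), (3, false), (3, false), (3, false), (3, false), (3, false), (0, false), (1, false), (0, false), (1, true), (0, false), (2, false), (3, false), (0, false), (2, false), (0, true), (2, false), (3, true), (1, false), (2, true), (1, false), (0, true), (1, false), (2, false), (3, false), (3, false), (1, false), (3, true), (1, true)] K9s1_mm_t52 = true := by decide +kernel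

def K9s1_mm_t53 : Tr := (n1 (n0 o (n2 (n3 (n0 o (n1 l (n2 (n3 l (n0 o l)) l))) (n0 o (n1 (n2 (n3 (n0 (n1 l (n2 (n3 l (n0 o l)) l)) l) (n0 (n1 (n2 (n3 (n0 (n1 l o) l) (n0 (n1 (n2 o l) o) l)) l) (n2 (n3 (n0 o (n1 l o)) (n0 o (n1 (n2 o l) o))) (n3 l (n0 o l)))) l)) l) (n2 (n3 (n0 o (n1 l (n2 (n3 l (n0 o l)) l))) (n0 o (n1 (n2 (n3 (n0 (n1 l o) l) (n0 (n1 (n2 o l) o) l)) l) (n2 (n3 (n0 o (n1 l o)) (n0 o (n1 (n2 o l) o))) (n3 l (n0 o l)))))) (n3 l (n0 o l)))))) (n3 l (n1 l (n0 o l))))) o)

def K9s1_mm_h53 : subCheck K9s1 false false K9s1_mm_A K9s1_mm_B [(0, false), (2, false), (2, false), (2, false), (2, false), (2, false), (1, false), (1, false), (1, false), (3, false), (3, false), (3, false), (3, false), (3, false), (0, false), (1, false), (0, false), (1, true), (0, false), (2, false), (3, false), (0, false), (2, false), (0, true), (2, false), (3, true), (1, false), (2, true), (1, false), (0, true), (1, false), (2, false), (3, false), (3, false), (1, true), (3, false)] K9s1_mm_t53 = true := by decide +kernel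

def K9s1_mm_t54 : Tr := o

def K9s1_mm_h54 : subCheck K9s1 false false K9s1_mm_A K9s1_mm_B [(0, false), (2, false), (2, false), (2, false), (2, false), (2, false), (1, false), (1, false), (1, false), (3, false), (3, false), (3, false), (3, false), (3, false), (0, false), (1, false), (0, false), (1, true), (0, false), (2, false), (3, false), (0, false), (2, false), (0, true), (2, false), (3, true), (1, false), (2, true), (1, false), (0, true), (1, false), (2, false), (3, false), (3, false), (1, true), (3, true), (1, false), (0, false)] K9s1_mm_t54 = true := by decide +kernel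

def K9s1_mm_t55 : Tr := (n3 (n1 (n0 o (n2 (n3 (n0 (n1 (n2 o (n3 (n0 (n1 l o) l) (n0 (n1 (n2 o l) o) l))) (n2 o (n3 (n0 o (n1 l o)) (n0 o (n1 (n2 o l) o))))) (n1 (n2 o l) (n2 o l))) o) (n3 (n0 (n1 l (n2 (n3 l (n0 o l)) l)) l) (n0 (n1 (n2 (n3 (n0 (n1 l o) l) (n0 (n1 (n2 o l) o) l)) l) (n2 (n3 (n0 o (n1 l o)) (n0 o (n1 (n2 o l) o))) (n3 l (n0 o l)))) l)))) (n0 o (n2 (n3 (n0 o (n1 (n2 o (n3 (n0 (n1 l o) l) (n0 (n1 (n2 o l) o) l))) (n2 o (n3 (n0 o (n1 l o)) (n0 o (n1 (n2 o l) o)))))) o) (n3 (n0 o (n1 l (n2 (n3 l (n0 o l)) l))) (n0 o (n1 (n2 (n3 (n0 (n1 l o) l) (n0 (n1 (n2 o l) o) l)) l) (n2 (n3 (n0 o (n1 l o)) (n0 o (n1 (n2 o l) o))) (n3 l (n0 o l))))))))) (n1 (n0 o (n2 o (n3 (n0 (n1 (n2 o (n3 l (n0 (n1 l o) l))) (n2 o (n3 (n0 o l) (n0 o (n1 (n2 o l) o))))) (n1 (n2 o l) (n2 o l))) o))) (n0 o (n2 o (n3 (n0 o (n1 (n2 o (n3 (n0 (n1 l o) l) (n0 (n1 (n2 o l) o) l))) (n2 o (n3 (n0 o (n1 l o)) (n0 o (n1 (n2 o l) o)))))) o)))))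

def K9s1_mm_h55 : subCheck K9s1 false false K9s1_mm_A K9s1_mm_B [(0, false), (2, false), (2, false), (2, false), (2, false), (2, false), (1, false), (1, false), (1, false), (3, false), (3, false), (3, false), (3, false), (3, false), (0, false), (1, false), (0, false), (1, true), (0, false), (2, false), (3, false), (0, false), (2, false), (0, true), (2, false), (3, true), (1, false), (2, true), (1, false), (0, true), (1, false), (2, false), (3, false), (3, false), (1, true), (3, true), (1, false), (0, true), (2, false)] K9s1_mm_t55 = true := by decide +kernel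

def K9s1_mm_t56 : Tr := (n3 (n1 (n0 o l) (n0 o (n2 (n3 l (n0 o l)) l))) (n1 (n0 o (n2 (n3 (n0 (n1 l (n2 (n3 l (n0 o l)) l)) l) (n0 (n1 (n2 (n3 l (n0 (n1 l o) l)) l) (n2 (n3 (n0 o l) (n0 o (n1 l o))) l)) l)) l)) (n0 o (n2 (n3 (n0 o (n1 l (n2 (n3 l (n0 o l)) l))) (n1 (n0 o (n2 (n3 l (n0 (n1 l o) l)) l)) (n0 o (n2 (n3 (n0 o l) (n0 o (n1 (n2 o l) o))) (n3 l (n0 o l)))))) (n3 l (n1 l (n0 o l)))))))

def K9s1_mm_h56 : subCheck K9s1 false false K9s1_mm_A K9s1_mm_B [(0, false), (2, false), (2, false), (2, false), (2, false), (2, false), (1, false), (1, false), (1, false), (3, false), (3, false), (3, false), (3, false), (3, false), (0, false), (1, false), (0, false), (1, true), (0, false), (2, false), (3, false), (0, false), (2, false), (0, true), (2, false), (3, true), (1, false), (2, true), (1, false), (0, true), (1, false), (2, false), (3, false), (3, false), (1, true), (3, true), (1, false), (0, true), (2, true)] K9s1_mm_t56 = true := by decide +kernel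

def K9s1_mm_t57 : Tr := o

def K9s1_mm_h57 : subCheck K9s1 false false K9s1_mm_A K9s1_mm_B [(0, false), (2, false), (2, false), (2, false), (2, false), (2, false), (1, false), (1, false), (1, false), (3, false), (3, false), (3, false), (3, false), (3, false), (0, false), (1, false), (0, false), (1, true), (0, false), (2, false), (3, false), (0, false), (2, false), (0, true), (2, false), (3, true), (1, false), (2, true), (1, false), (0, true), (1, false), (2, false), (3, false), (3, false), (1, true), (3, true), (1, true)] K9s1_mm_t57 = true := by decide +kernel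

def K9s1_mm_t58 : Tr := (n1 (n1 (n3 (n0 (n2 o (n1 (n3 (n2 (n0 o (n1 (n2 o l) (n3 (n2 o l) o))) l) (n2 o (n2 o l))) (n3 (n2 (n0 o (n1 (n3 (n2 o l) o) o)) (n2 (n0 o l) l)) (n2 o (n1 (n2 o (n0 o l)) o))))) (n2 o (n3 (n1 l (n2 (n0 (n3 l o) l) l)) (n1 (n2 o l) (n2 o l))))) o) (n3 (n0 o (n2 o (n3 (n1 (n2 (n0 (n3 (n1 (n2 o l) (n2 o l)) o) l) l) (n2 (n0 (n3 (n1 (n2 o (n0 o l)) o) o) (n3 (n1 l (n0 (n2 o l) l)) o)) (n0 (n1 (n3 l (n2 (n0 o l) l)) o) l))) (n1 (n2 o (n0 (n1 (n2 o l) (n3 (n2 o l) o)) l)) (n2 o (n0 (n1 (n3 (n2 o l) o) o) (n3 l o))))))) o)) (n3 (n1 (n0 o (n2 o (n3 (n1 (n0 o (n2 (n3 (n1 (n0 (n2 o l) l) (n0 (n2 o (n3 (n1 l o) (n1 (n0 o l) o))) (n2 o l))) o) (n3 l (n1 l (n0 (n2 (n3 l (n1 l o)) l) l))))) (n0 o (n2 (n3 (n1 (n0 o (n2 o (n3 l (n0 (n1 l o) l)))) (n0 o (n2 o (n3 (n0 o l) (n0 o (n1 l o)))))) o) (n3 (n1 (n0 o l) (n0 o l)) (n1 (n0 o l) (n0 o (n2 (n3 (n0 o l) (n1 (n0 o l) o)) l))))))) (n1 (n2 o (n0 o (n3 (n1 (n2 o l) (n2 o l)) o))) (n2 o (n0 o (n3 (n1 (n0 o (n2 o l)) (n0 o (n2 o (n3 l (n1 l o))))) o)))))))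 o) o))

def K9s1_mm_h58 : subCheck K9s1 false false K9s1_mm_A K9s1_mm_B [(0, false), (2, false), (2, false), (2, false), (2, false), (2, false), (1, false), (1, false), (1, false), (3, false), (3, false), (3, false), (3, false), (3, false), (0, false), (1, false), (0, false), (1, true), (0, false), (2, false), (3, false), (0, false), (2, false), (0, true), (2, false), (3, true), (1, false), (2, true), (1, false), (0, true), (1, false), (2, false), (3, false), (3, true)] K9s1_mm_t58 = true := by decide +kernel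

def K9s1_mm_t59 : Tr := o

def K9s1_mm_h59 : subCheck K9s1 false false K9s1_mm_A K9s1_mm_B [(0, false), (2, false), (2, false), (2, false), (2, false), (2, false), (1, false), (1, false), (1, false), (3, false), (3, false), (3, false), (3, false), (3, false), (0, false), (1, false), (0, false), (1, true), (0, false), (2, false), (3, false), (0, false), (2, false), (0, true), (2, false), (3, true), (1, false), (2, true), (1, false), (0, true), (1, false), (2, false), (3, true)] K9s1_mm_t59 = true := by decide +kernel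

def K9s1_mm_t60 : Tr := (n3 (n1 (n3 (n2 (n1 l (n3 l (n2 (n1 l (n0 o l)) l))) l) (n2 (n1 (n0 (n3 l (n2 (n1 (n3 l o) (n3 (n2 o l) o)) l)) l) (n3 (n0 o l) (n0 o (n1 (n2 (n3 l o) l) (n2 (n3 (n0 (n1 (n2 o l) o) l) o) l))))) l)) (n3 (n1 (n2 (n3 (n0 o l) (n0 o (n1 l (n3 l (n2 (n0 o l) l))))) l) o) (n1 (n3 (n2 (n0 o (n1 (n3 (n2 (n0 o l) l) (n2 (n0 o l) l)) (n3 (n2 (n0 o l) l) (n2 (n0 o (n1 (n3 l (n2 (n0 o l) l)) (n3 (n2 (n0 o l) l) (n2 (n0 o l) l)))) (n0 o l))))) (n2 (n1 l (n3 l (n2 (n0 o l) l))) l)) (n2 (n0 o (n1 (n3 (n2 (n0 o (n1 (n2 o l) (n3 (n2 o l) o))) (n0 o l)) (n2 o (n0 o l))) (n3 (n2 (n0 o (n1 (n3 (n2 o l) o) (n3 (n2 o (n0 o l)) o))) (n0 o (n1 l (n2 (n3 l (n0 o l)) l)))) (n2 o (n0 o (n1 (n2 o l) (n2 o (n3 l o)))))))) (n0 o (n2 (n1 l (n3 l (n2 (n0 o l) l))) l)))) o))) (n1 (n3 (n1 (n2 o l) (n2 o (n0 o (n3 l o)))) o) (n3 (n1 (n0 o (n2 o (n3 (n2 o l) o))) o) o)))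

def K9s1_mm_h60 : subCheck K9s1 false false K9s1_mm_A K9s1_mm_B [(0, false), (2, false), (2, false), (2, false), (2, false), (2, false), (1, false), (1, false), (1, false), (3, false), (3, false), (3, false), (3, false), (3, false), (0, false), (1, false), (0, false), (1, true), (0, false), (2, false), (3, false), (0, false), (2, false), (0, true), (2, false), (3, true), (1, false), (2, true), (1, false), (0, true), (1, false), (2, true)] K9s1_mm_t60 = true := by decide +kernel

def K9s1_mm_t61 : Tr := o

def K9s1_mm_h61 : subCheck K9s1 false false K9s1_mm_A K9s1_mm_B [(0, false), (2, false), (2, false), (2, false), (2, false), (2, false), (1, false), (1, false), (1, false), (3, false), (3, false), (3, false), (3, false), (3, false), (0, false), (1, false), (0, false), (1, true), (0, false), (2, false), (3, false), (0, false), (2, false), (0, true), (2, false), (3, true), (1, false), (2, true), (1, false), (0, true), (1, true)] K9s1_mm_t61 = true := by decide +kernel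

def K9s1_mm_t62 : Tr := o

def K9s1_mm_h62 : subCheck K9s1 false false K9s1_mm_A K9s1_mm_B [(0, false), (2, false), (2, false), (2, false), (2, false), (2, false), (1, false), (1, false), (1, false), (3, false), (3, false), (3, false), (3, false), (3, false), (0, false), (1, false), (0, false), (1, true), (0, false), (2, false), (3, false), (0, false), (2, false), (0, true), (2, false), (3, true), (1, false), (2, true), (1, true)] K9s1_mm_t62 = true := by decide +kernel

def K9s1_mm_t63 : Tr := o

def K9s1_mm_h63 : subCheck K9s1 false false K9s1_mm_A K9s1_mm_B [(0, false), (2, false), (2, false), (2, false), (2, false), (2, false), (1, false), (1, false), (1, false), (3, false), (3, false), (3, false), (3, false), (3, false), (0, false), (1, false), (0, false), (1, true), (0, false), (2, false), (3, false), (0, false), (2, false), (0, true), (2, false), (3, true), (1, true)] K9s1_mm_t63 = true := by decide +kernel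

def K9s1_mm_t64 : Tr := (n3 (n1 (n1 (n2 (n0 o (n1 l o)) l) o) o) (n1 (n1 (n2 (n0 o (n1 (n3 l (n2 (n1 l (n2 (n3 (n1 l o) o) l)) l)) o)) l) o) o))

def K9s1_mm_h64 : subCheck K9s1 false false K9s1_mm_A K9s1_mm_B [(0, false), (2, false), (2, false), (2, false), (2, false), (2, false), (1, false), (1, false), (1, false), (3, false), (3, false), (3, false), (3, false), (3, false), (0, false), (1, false), (0, false), (1, true), (0, false), (2, false), (3, false), (0, false), (2, false), (0, true), (2, true)] K9s1_mm_t64 = true := by decide +kernel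

def K9s1_mm_t65 : Tr := (n3 (n0 o (n1 l o)) (n0 o (n2 (n1 l o) o)))

def K9s1_mm_h65 : subCheck K9s1 false false K9s1_mm_A K9s1_mm_B [(0, false), (2, false), (2, false), (2, false), (2, false), (2, false), (1, false), (1, false), (1, false), (3, false), (3, false), (3, false), (3, false), (3, false), (0, false), (1, false), (0, false), (1, true), (0, false), (2, false), (3, false), (0, false), (2, true)] K9s1_mm_t65 = true := by decide +kernel

def K9s1_mm_t66 : Tr := l

def K9s1_mm_h66 : subCheck K9s1 false false K9s1_mm_A K9s1_mm_B [(0, false), (2, false), (2, false), (2, false), (2, false), (2, false), (1, false), (1, false), (1, false), (3, false), (3, false), (3, false), (3, false), (3, false), (0, false), (1, false), (0, false), (1, true), (0, false), (2, false), (3, false), (0, true), (2, false), (0, false), (3, false), (1, false), (2, false), (1, false), (2, false), (3, false)] K9s1_mm_t66 = true := by decide +kernel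

def K9s1_mm_t67 : Tr := (n2 (n3 (n2 (n0 (n2 o l) l) l) (n0 (n1 (n3 (n2 o l) o) (n3 (n0 (n2 o (n1 (n3 l o) (n3 (n0 (n3 l o) l) o))) l) o)) l)) (n3 l (n0 (n1 l (n3 l (n0 (n1 (n2 (n3 l (n0 (n1 (n3 l o) (n3 (n0 (n2 o l) l) o)) l)) l) (n2 (n3 (n0 (n1 (n3 l (n0 (n2 o l) l)) (n3 (n0 o l) (n0 o (n2 o l)))) l) (n0 (n1 (n3 (n0 (n2 o (n1 (n3 l o) (n3 (n0 o l) o))) (n2 o l)) o) (n3 (n0 o (n2 o (n1 l (n3 l o)))) o)) (n1 l (n3 l o)))) (n3 l (n0 (n1 (n3 l (n0 (n2 (n1 l (n3 l (n0 o l))) l) l)) (n3 (n0 o l) (n0 o l))) l)))) l))) l)))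

def K9s1_mm_h67 : subCheck K9s1 false false K9s1_mm_A K9s1_mm_B [(0, false), (2, false), (2, false), (2, false), (2, false), (2, false), (1, false), (1, false), (1, false), (3, false), (3, false), (3, false), (3, false), (3, false), (0, false), (1, false), (0, false), (1, true), (0, false), (2, false), (3, false), (0, true), (2, false), (0, false), (3, false), (1, false), (2, false), (1, false), (2, false), (3, true), (1, false)] K9s1_mm_t67 = true := by decide +kernel

def K9s1_mm_t68 : Tr := (n3 (n0 (n2 (n3 (n0 (n1 l o) l) (n0 (n1 (n2 o (n1 (n3 l (n0 o l)) o)) o) (n2 o l))) (n1 (n3 l (n0 (n1 l o) l)) (n0 o l))) l) (n0 (n2 (n3 (n1 (n0 (n2 o (n3 (n1 (n0 o l) o) o)) (n2 o l)) (n0 o (n2 o (n3 (n0 o l) o)))) o) (n1 (n3 (n0 (n1 (n2 (n3 (n0 o l) (n0 o l)) l) o) l) (n0 (n1 (n3 (n0 o (n2 (n1 l (n3 l (n0 o l))) l)) (n0 o (n2 (n1 (n3 (n0 (n2 o l) l) o) (n3 (n0 o (n2 o l)) o)) (n1 l (n3 l (n0 o l)))))) o) (n1 l (n3 l (n2 (n0 (n1 (n3 l o) (n3 (n0 o l) o)) l) l))))) (n3 (n0 o (n3 l (n0 o l))) (n0 o (n1 (n3 (n0 o l) (n0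 o (n2 (n3 l o) l))) o))))) (n2 (n3 l o) l)))

def K9s1_mm_h68 : subCheck K9s1 false false K9s1_mm_A K9s1_mm_B [(0, false), (2, false), (2, false), (2, false), (2, false), (2, false), (1, false), (1, false), (1, false), (3, false), (3, false), (3, false), (3, false), (3, false), (0, false), (1, false), (0, false), (1, true), (0, false), (2, false), (3, false), (0, true), (2, false), (0, false), (3, false), (1, false), (2, false), (1, false), (2, false), (3, true), (1, true)] K9s1_mm_t68 = true := by decide +kernel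

def K9s1_mm_t69 : Tr := (n3 l (n1 l (n0 (n3 (n1 l (n0 o l)) (n1 (n2 (n3 l (n0 (n1 (n3 l (n0 o l)) o) l)) l) (n2 (n3 (n0 o l) (n0 o (n1 l o))) (n3 l (n0 o l))))) l)))

def K9s1_mm_h69 : subCheck K9s1 false false K9s1_mm_A K9s1_mm_B [(0, false), (2, false), (2, false), (2, false), (2, false), (2, false), (1, false), (1, false), (1, false), (3, false), (3, false), (3, false), (3, false), (3, false), (0, false), (1, false), (0, false), (1, true), (0, false), (2, false), (3, false), (0, true), (2, false), (0, false), (3, false), (1, false), (2, false), (1, false), (2, true)] K9s1_mm_t69 = true := by decide +kernel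

def K9s1_mm_t70 : Tr := (n3 (n0 o l) (n2 (n3 (n0 o (n1 l o)) (n0 o (n1 (n2 (n3 (n0 (n1 (n2 o l) o) l) o) (n0 (n3 (n1 l o) (n1 (n0 o l) o)) l)) o))) (n0 o (n1 (n3 l (n0 (n2 (n3 l (n1 l o)) l) l)) o))))

def K9s1_mm_h70 : subCheck K9s1 false false K9s1_mm_A K9s1_mm_B [(0, false), (2, false), (2, false), (2, false), (2, false), (2, false), (1, false), (1, false), (1, false), (3, false), (3, false), (3, false), (3, false), (3, false), (0, false), (1, false), (0, false), (1, true), (0, false), (2, false), (3, false), (0, true), (2, false), (0, false), (3, false), (1, false), (2, false), (1, true)] K9s1_mm_t70 = true := by decide +kernel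

def K9s1_mm_t71 : Tr := (n1 l (n3 (n0 o l) (n2 (n1 (n0 o l) o) (n1 l o))))

def K9s1_mm_h71 : subCheck K9s1 false false K9s1_mm_A K9s1_mm_B [(0, false), (2, false), (2, false), (2, false), (2, false), (2, false), (1, false), (1, false), (1, false), (3, false), (3, false), (3, false), (3, false), (3, false), (0, false), (1, false), (0, false), (1, true), (0, false), (2, false), (3, false), (0, true), (2, false), (0, false), (3, false), (1, false), (2, true)] K9s1_mm_t71 = true := by decide +kernel

def K9s1_mm_t72 : Tr := o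

def K9s1_mm_h72 : subCheck K9s1 false false K9s1_mm_A K9s1_mm_B [(0, false), (2, false), (2, false), (2, false), (2, false), (2, false), (1, false), (1, false), (1, false), (3, false), (3, false), (3, false), (3, false), (3, false), (0, false), (1, false), (0, false), (1, true), (0, false), (2, false), (3, false), (0, true), (2, false), (0, false), (3, false), (1, true)] K9s1_mm_t72 = true := by decide +kernel

def K9s1_mm_t73 : Tr := (n2 o (n3 (n0 (n1 (n3 (n0 (n1 (n2 o l) (n2 o (n3 l (n0 (n1 l (n3 l o)) l)))) l) o) (n3 (n0 (n1 (n2 o (n3 (n0 (n1 l (n3 (n0 (n2 (n1 l (n3 l (n0 (n2 o l) l))) l) l) (n0 (n2 o l) l))) l) (n0 (n1 (n3 (n2 o l) o) (n3 (n0 (n2 o (n1 l (n3 l (n2 o l)))) (n2 o l)) o)) (n1 l (n3 l o))))) (n2 o (n3 (n0 (n1 (n3 (n0 (n2 (n1 (n3 (n0 (n2 o l) l) (n0 (n2 o l) l)) (n3 (n0 o l) (n0 o (n2 o l)))) l) l) (n0 (n2 o (n1 (n3 l (n2 (n0 (n1 l o) l) l)) (n3 (n2 (n0 o l) l) (n2 (n0 o l) l)))) (n2 o l))) (n3 (n0 o (n2 (n1 (n3 l (n0 (n2 o l) l)) (n3 (n0 o l) (n0 o (n2 o l)))) l)) (n0 o (n2 o (n1 l (n3 l (n0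 o l))))))) (n1 l (n3 l (n0 (n2 o l) l)))) (n0 (n1 (n3 (n0 (n2 o (n1 (n3 (n2 o l) (n2 o (n0 (n1 l o) l))) (n3 (n2 o (n0 o l)) (n0 o (n2 o (n1 l (n3 l (n2 o l)))))))) (n2 o (n1 l (n3 l (n2 o l))))) o) (n3 (n0 o (n2 o (n1 (n3 (n0 (n2 o l) l) (n0 (n2 o (n1 l (n3 l (n2 o l)))) (n2 o l))) (n3 (n0 o (n2 o l)) (n0 o (n2 o l)))))) o)) (n1 (n3 (n0 (n2 o l) l) o) (n3 (n0 (n2 o l) l) o)))))) (n2 o l)) o)) l) o))

def K9s1_mm_h73 : subCheck K9s1 false false K9s1_mm_A K9s1_mm_B [(0, false), (2, false), (2, false), (2, false), (2, false), (2, false), (1, false), (1, false), (1, false), (3, false), (3, false), (3, false), (3, false), (3, false), (0, false), (1, false), (0, false), (1, true), (0, false), (2, false), (3, false), (0, true), (2, false), (0, false), (3, true), (2, false), (1, false), (2, false), (3, false), (1, false), (1, false)] K9s1_mm_t73 = true := by decide +kernel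

def K9s1_mm_t74 : Tr := (n3 (n2 o (n0 (n1 (n3 (n0 (n1 (n3 (n2 o (n0 o (n1 (n3 (n0 (n2 (n1 l (n3 (n0 o l) (n0 o l))) l) l) (n0 (n2 o (n1 l (n3 l (n0 o l)))) l)) (n3 (n0 o (n2 (n1 l (n3 l (n0 o l))) l)) (n0 o (n2 o l)))))) (n2 o (n0 o (n1 (n3 (n0 (n2 o (n1 (n3 (n0 (n2 o l) l) (n0 (n2 o l) l)) (n3 (n0 o l) (n0 o (n2 o l))))) (n2 o l)) o) (n3 (n0 o (n2 o (n1 (n3 l (n0 (n2 o l) l)) (n3 (n0 o l) (n0 o l))))) o))))) o) (n1 (n2 o (n3 l (n0 (n1 (n3 l o) (n3 (n0 (n2 o l) l) o)) l))) (n3 (n0 (n2 o (n1 (n3 l (n0 (n2 o l) l)) (n3 (n0 o l) (n0 o (n2 o l))))) (n2 o l)) (n0 (n2 o (n1 (n3 (n0 (n2 o (n1 l (n3 l (n0 o l)))) l) o) (n3 (n0 o (n2 o l)) o))) (n2 o (n1 l (n3 l o))))))) o) (n3 (n0 o (n1 (n3 (n0 o (n2 o (n3 l (n0 (n1 l o) l)))) (n0 o (n2 o (n1 (n3 (n0 (n2 o l) l) o) (n3 (n0 o l) o))))) o)) o)) (n3 (n0 (n1 l (n3 (n2 o l) (n0 (n1 (n2 o l) (n2 o (n3 l o))) l))) l) o))) o)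

def K9s1_mm_h74 : subCheck K9s1 false false K9s1_mm_A K9s1_mm_B [(0, false), (2, false), (2, false), (2, false), (2, false), (2, false), (1, false), (1, false), (1, false), (3, false), (3, false), (3, false), (3, false), (3, false), (0, false), (1, false), (0, false), (1, true), (0, false), (2, false), (3, false), (0, true), (2, false), (0, false), (3, true), (2, false), (1, false), (2, false), (3, false), (1, false), (1, true)] K9s1_mm_t74 = true := by decide +kernel

def K9s1_mm_t75 : Tr := (n3 (n0 o (n1 (n2 o (n0 (n3 (n1 (n0 o (n3 (n2 o l) (n1 (n2 o l) o))) o) o) (n3 (n1 l (n0 o l)) o))) o)) o)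

def K9s1_mm_h75 : subCheck K9s1 false false K9s1_mm_A K9s1_mm_B [(0, false), (2, false), (2, false), (2, false), (2, false), (2, false), (1, false), (1, false), (1, false), (3, false), (3, false), (3, false), (3, false), (3, false), (0, false), (1, false), (0, false), (1, true), (0, false), (2, false), (3, false), (0, true), (2, false), (0, false), (3, true), (2, false), (1, false), (2, false), (3, false), (1, true)] K9s1_mm_t75 = true := by decide +kernel

def K9s1_mm_t76 : Tr := o

def K9s1_mm_h76 : subCheck K9s1 false false K9s1_mm_A K9s1_mm_B [(0, false), (2, false), (2, false), (2, false), (2, false), (2, false), (1, false), (1, false), (1, false), (3, false), (3, false), (3, false), (3, false), (3, false), (0, false), (1, false), (0, false), (1, true), (0, false), (2, false), (3, false), (0, true), (2, false), (0, false), (3, true), (2, false), (1, false), (2, false), (3, true)] K9s1_mm_t76 = true := by decide +kernel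

def K9s1_mm_t77 : Tr := (n3 l (n0 (n1 l (n2 (n3 l (n0 (n1 l (n2 o l)) l)) l)) l))

def K9s1_mm_h77 : subCheck K9s1 false false K9s1_mm_A K9s1_mm_B [(0, false), (2, false), (2, false), (2, false), (2, false), (2, false), (1, false), (1, false), (1, false), (3, false), (3, false), (3, false), (3, false), (3, false), (0, false), (1, false), (0, false), (1, true), (0, false), (2, false), (3, false), (0, true), (2, false), (0, false), (3, true), (2, false), (1, false), (2, true), (1, false), (3, false), (1, false), (0, false), (2, false), (3, false), (1, false)] K9s1_mm_t77 = true := by decide +kernel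

def K9s1_mm_t78 : Tr := (n0 (n1 l (n2 (n3 (n0 (n1 l (n3 l (n2 (n0 o l) l))) l) (n0 (n1 (n2 (n3 (n0 (n1 l (n2 (n3 l (n0 o l)) l)) l) (n0 (n1 (n2 (n3 l (n0 (n1 (n2 o l) o) l)) l) (n2 (n3 (n0 o l) (n0 o (n1 (n2 o l) (n2 o l)))) (n3 l (n0 o l)))) l)) l) (n3 (n2 (n0 o l) l) (n2 (n0 o (n1 (n2 (n3 l (n0 (n1 l (n2 o l)) l)) l) (n3 (n2 (n0 o l) l) (n2 (n0 o (n1 l (n3 l (n2 o l)))) (n0 o l))))) (n0 o l)))) l)) l)) l)

def K9s1_mm_h78 : subCheck K9s1 false false K9s1_mm_A K9s1_mm_B [(0, false), (2, false), (2, false), (2, false), (2, false), (2, false), (1, false), (1, false), (1, false), (3, false), (3, false), (3, false), (3, false), (3, false), (0, false), (1, false), (0, false), (1, true), (0, false), (2, false), (3, false), (0, true), (2, false), (0, false), (3, true), (2, false), (1, false), (2, true), (1, false), (3, false), (1, false), (0, false), (2, false), (3, false), (1, true), (3, false)] K9s1_mm_t78 = true := by decide +kernel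

def K9s1_mm_t79 : Tr := (n2 (n3 (n0 (n1 (n2 (n3 l o) l) (n2 (n3 (n0 (n1 (n2 o l) (n2 o l)) l) o) l)) l) (n0 (n1 (n2 o (n3 l o)) (n2 o (n3 (n0 (n1 (n2 o l) (n2 o l)) l) o))) (n1 l (n2 o l)))) l)

def K9s1_mm_h79 : subCheck K9s1 false false K9s1_mm_A K9s1_mm_B [(0, false), (2, false), (2, false), (2, false), (2, false), (2, false), (1, false), (1, false), (1, false), (3, false), (3, false), (3, false), (3, false), (3, false), (0, false), (1, false), (0, false), (1, true), (0, false), (2, false), (3, false), (0, true), (2, false), (0, false), (3, true), (2, false), (1, false), (2, true), (1, false), (3, false), (1, false), (0, false), (2, false), (3, false), (1, true), (3, true), (0, false), (1, false)] K9s1_mm_t79 = true := by decide +kernel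

def K9s1_mm_t80 : Tr := (n0 (n1 (n3 (n2 (n0 (n1 (n2 o (n3 (n0 (n1 l o) l) (n0 (n1 (n2 o l) o) l))) (n2 o (n3 (n0 o l) (n0 o (n1 (n2 o l) (n2 o l)))))) (n1 l (n2 o l))) (n0 (n1 l (n2 (n3 l (n0 o l)) l)) l)) (n2 o (n0 (n1 (n2 (n3 (n0 (n1 l o) l) (n0 (n1 (n2 o l) o) l)) l) (n2 (n3 (n0 o (n1 l (n2 (n3 l (n0 o l)) l))) (n0 o (n1 (n2 o l) (n2 o (n3 l (n0 o l)))))) (n3 l (n0 o l)))) l))) (n3 (n2 (n0 o (n1 (n3 (n2 o l) (n2 o (n0 (n1 (n2 o l) (n2 o l)) l))) (n3 (n2 o (n0 o l)) (n2 o (n0 o (n1 l (n2 o l))))))) (n0 o (n1 l (n2 (n3 l (n0 o l)) l)))) (n2 o (n0 o (n1 (n2 (n3 l (n0 (n1 (n2 o l) (n2 o l)) l)) l) (n2 (n3 (n0 o l) (n0 o (n1 (n2 o l) (n2 o l)))) (n3 l (n0 o l)))))))) (n1 (n2 (n3 l o) l) (n3 (n2 (n0 (n1 l (n3 l (n2 o l))) l) l) (n2 o l))))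

def K9s1_mm_h80 : subCheck K9s1 false false K9s1_mm_A K9s1_mm_B [(0, false), (2, false), (2, false), (2, false), (2, false), (2, false), (1, false), (1, false), (1, false), (3, false), (3, false), (3, false), (3, false), (3, false), (0, false), (1, false), (0, false), (1, true), (0, false), (2, false), (3, false), (0, true), (2, false), (0, false), (3, true), (2, false), (1, false), (2, true), (1, false), (3, false), (1, false), (0, false), (2, false), (3, false), (1, true), (3, true), (0, false), (1, true), (2, false), (3, false)] K9s1_mm_t80 = true := by decide +kernel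

def K9s1_mm_t81 : Tr := (n0 (n1 (n3 (n2 o (n0 (n1 (n2 o (n3 (n0 (n1 l o) l) (n0 (n1 (n2 o l) o) l))) (n2 o (n3 (n0 o (n1 l (n2 (n3 l (n0 o l)) l))) (n0 o (n1 (n2 o l) (n2 o (n3 l (n0 o l)))))))) (n1 (n2 o l) (n2 o l)))) o) (n3 (n2 o (n0 o (n1 (n2 o (n3 l (n0 (n1 (n2 o l) (n2 o l)) l))) (n2 o (n3 (n0 o l) (n0 o (n1 (n2 o l) (n2 o l)))))))) o)) (n1 (n2 o (n3 l o)) (n3 (n2 o (n0 (n1 l (n2 o l)) l)) o)))

def K9s1_mm_h81 : subCheck K9s1 false false K9s1_mm_A K9s1_mm_B [(0, false), (2, false), (2, false), (2, false), (2, false), (2, false), (1, false), (1, false), (1, false), (3, false), (3, false), (3, false), (3, false), (3, false), (0, false), (1, false), (0, false), (1, true), (0, false), (2, false), (3, false), (0, true), (2, false), (0, false), (3, true), (2, false), (1, false), (2, true), (1, false), (3, false), (1, false), (0, false), (2, false), (3, false), (1, true), (3, true), (0, false), (1, true), (2, false), (3, true)] K9s1_mm_t81 = true := by decide +kernel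

def K9s1_mm_t82 : Tr := (n3 (n0 (n1 l (n2 (n3 l (n0 o l)) l)) l) (n0 (n1 (n2 (n3 (n0 (n1 l (n2 (n3 l (n0 o l)) l)) l) (n0 (n1 (n2 (n3 l (n0 (n1 (n2 o l) o) l)) l) (n2 (n3 (n0 o l) (n0 o (n1 (n2 o l) (n2 o l)))) (n3 l (n0 o l)))) l)) l) (n2 (n3 (n0 o (n1 l (n2 (n3 l (n0 o l)) l))) (n0 o (n1 (n2 (n3 l (n0 (n1 (n2 o l) (n2 o l)) l)) l) (n2 (n3 (n0 o l) (n0 o (n1 (n2 o l) (n2 o l)))) (n3 l (n0 o l)))))) (n3 l (n0 o l)))) l))

def K9s1_mm_h82 : subCheck K9s1 false false K9s1_mm_A K9s1_mm_B [(0, false), (2, false), (2, false), (2, false), (2, false), (2, false), (1, false), (1, false), (1, false), (3, false), (3, false), (3, false), (3, false), (3, false), (0, false), (1, false), (0, false), (1, true), (0, false), (2, false), (3, false), (0, true), (2, false), (0, false), (3, true), (2, false), (1, false), (2, true), (1, false), (3, false), (1, false), (0, false), (2, false), (3, false), (1, true), (3, true), (0, false), (1, true), (2, true)] K9s1_mm_t82 = true := by decide +kernel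

def K9s1_mm_t83 : Tr := (n1 l (n3 l (n2 (n0 (n1 l (n3 l o)) l) l)))

def K9s1_mm_h83 : subCheck K9s1 false false K9s1_mm_A K9s1_mm_B [(0, false), (2, false), (2, false), (2, false), (2, false), (2, false), (1, false), (1, false), (1, false), (3, false), (3, false), (3, false), (3, false), (3, false), (0, false), (1, false), (0, false), (1, true), (0, false), (2, false), (3, false), (0, true), (2, false), (0, false), (3, true), (2, false), (1, false), (2, true), (1, false), (3, false), (1, false), (0, false), (2, false), (3, false), (1, true), (3, true), (0, true)] K9s1_mm_t83 = true := by decide +kernel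

def K9s1_mm_t84 : Tr := (n3 (n0 (n1 (n2 o l) (n2 o (n3 l (n0 (n1 l (n2 o l)) l)))) l) o)

def K9s1_mm_h84 : subCheck K9s1 false false K9s1_mm_A K9s1_mm_B [(0, false), (2, false), (2, false), (2, false), (2, false), (2, false), (1, false), (1, false), (1, false), (3, false), (3, false), (3, false), (3, false), (3, false), (0, false), (1, false), (0, false), (1, true), (0, false), (2, false), (3, false), (0, true), (2, false), (0, false), (3, true), (2, false), (1, false), (2, true), (1, false), (3, false), (1, false), (0, false), (2, false), (3, true), (1, false)] K9s1_mm_t84 = true := by decide +kernel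

def K9s1_mm_t85 : Tr := (n3 (n0 (n1 (n2 o (n3 (n0 (n1 (n2 (n3 l o) l) (n2 (n3 (n0 (n1 l (n2 o l)) l) o) l)) l) (n0 (n1 (n2 o l) (n2 o (n3 (n0 (n1 l (n2 o l)) l) o))) (n1 l (n2 o l))))) (n2 o (n3 (n0 (n1 (n2 (n3 (n0 (n1 (n2 o (n3 l (n0 (n1 l o) l))) (n2 o (n3 (n0 o l) (n0 o (n1 l (n2 o l)))))) (n1 l (n2 o l))) o) (n3 l (n0 (n1 (n2 (n3 l (n0 (n1 l o) l)) l) (n2 (n3 (n0 o l) (n0 o (n1 l (n2 o l)))) l)) l))) (n2 (n3 (n0 o (n1 (n2 o (n3 l (n0 (n1 (n2 o l) (n2 o l)) l))) (n2 o (n3 (n0 o l) (n0 o (n1 (n2 o l) (n2 o l))))))) o) (n3 (n0 o (n1 l (n2 (n3 l (n0 o l)) l))) (n0 o (n1 (n2 (n3 l (n0 (n1 l (n2 o l)) l)) l) (n2 (n3 (n0 o l) (n0 o (n1 l (n2 o l)))) l)))))) (n1 (n2 (n3 l o) l) (n2 (n3 (n0 (n1 l (n2 o l)) l) o) l))) (n0 (n1 (n2 o (n3 (n0 (n1 (n2 o l) (n2 o (n3 (n0 o l) (n0 o l)))) (n1 l (n2 o l))) o)) (n2 o (n3 (n0 o (n1 (n2 o (n3 l (n0 (n1 l (n2 o l)) l))) (n2 o (n3 (n0 o l) (n0 o (n1 l (n2 o l))))))) o))) (n1 (n2 o l) (n2 o (n3 (n0 (n1 l (n2 o l)) l) o))))))) (n1 (n2 o l) (n2 o (n3 l (n0 (n1 l (n2 o l)) l)))))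 o)

def K9s1_mm_h85 : subCheck K9s1 false false K9s1_mm_A K9s1_mm_B [(0, false), (2, false), (2, false), (2, false), (2, false), (2, false), (1, false), (1, false), (1, false), (3, false), (3, false), (3, false), (3, false), (3, false), (0, false), (1, false), (0, false), (1, true), (0, false), (2, false), (3, false), (0, true), (2, false), (0, false), (3, true), (2, false), (1, false), (2, true), (1, false), (3, false), (1, false), (0, false), (2, false), (3, true), (1, true)] K9s1_mm_t85 = true := by decide +kernel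

def K9s1_mm_t86 : Tr := (n3 l (n1 l (n3 (n1 l (n0 (n2 (n3 (n0 (n1 l (n2 (n3 l (n0 o l)) l)) l) (n1 (n0 (n2 (n3 l (n1 l (n0 (n2 (n3 l (n1 l (n0 o l))) l) l))) l) l) (n0 (n2 (n3 (n0 o l) (n1 (n0 o l) (n0 o (n2 (n3 (n0 o l) (n0 o l)) l)))) l) l))) l) l)) (n1 (n2 (n0 (n3 (n1 l (n2 (n0 (n3 l o) l) l)) (n1 (n2 o l) (n2 o l))) l) l) (n0 (n2 (n3 (n1 (n0 (n2 (n3 (n1 (n0 (n2 o l) l) (n0 (n2 o l) l)) o) l) l) (n0 (n2 (n3 (n1 (n0 o (n2 o l)) (n0 o (n2 o (n3 l o)))) o) (n3 (n1 l (n2 (n0 o l) l)) (n1 (n2 (n0 o l) l) (n2 (n0 o l) l)))) (n2 (n3 (n0 (n1 l (n2 o l)) l) o) l))) (n1 (n2 o (n0 (n1 (n2 o l) (n2 o l)) l)) (n0 (n2 o (n1 (n3 (n2 o l) o) (n3 (n2 o (n0 o l)) o))) (n2 o (n3 l o))))) l) l)))))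

def K9s1_mm_h86 : subCheck K9s1 false false K9s1_mm_A K9s1_mm_B [(0, false), (2, false), (2, false), (2, false), (2, false), (2, false), (1, false), (1, false), (1, false), (3, false), (3, false), (3, false), (3, false), (3, false), (0, false), (1, false), (0, false), (1, true), (0, false), (2, false), (3, false), (0, true), (2, false), (0, false), (3, true), (2, false), (1, false), (2, true), (1, false), (3, false), (1, false), (0, false), (2, true)] K9s1_mm_t86 = true := by decide +kernel

def K9s1_mm_t87 : Tr := (n3 l (n1 l (n2 (n3 l o) l)))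

def K9s1_mm_h87 : subCheck K9s1 false false K9s1_mm_A K9s1_mm_B [(0, false), (2, false), (2, false), (2, false), (2, false), (2, false), (1, false), (1, false), (1, false), (3, false), (3, false), (3, false), (3, false), (3, false), (0, false), (1, false), (0, false), (1, true), (0, false), (2, false), (3, false), (0, true), (2, false), (0, false), (3, true), (2, false), (1, false), (2, true), (1, false), (3, false), (1, false), (0, true)] K9s1_mm_t87 = true := by decide +kernel

def K9s1_mm_t88 : Tr := (n0 (n1 (n3 (n0 o l) (n0 o (n2 (n1 (n3 l (n2 (n0 (n1 l (n3 (n2 (n0 o l) l) (n2 (n0 o l) l))) l) l)) (n3 (n0 o l) (n0 o (n2 (n1 l (n3 l (n0 o l))) l)))) l))) o) (n1 l (n3 l (n0 (n2 (n1 l (n3 (n0 o l) (n0 o l))) l) l))))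

def K9s1_mm_h88 : subCheck K9s1 false false K9s1_mm_A K9s1_mm_B [(0, false), (2, false), (2, false), (2, false), (2, false), (2, false), (1, false), (1, false), (1, false), (3, false), (3, false), (3, false), (3, false), (3, false), (0, false), (1, false), (0, false), (1, true), (0, false), (2, false), (3, false), (0, true), (2, false), (0, false), (3, true), (2, false), (1, false), (2, true), (1, false), (3, false), (1, true), (0, false), (3, false), (1, false), (2, false), (3, false)] K9s1_mm_t88 = true := by decide +kernel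

def K9s1_mm_t89 : Tr := (n0 o (n2 (n1 (n3 (n0 (n2 (n1 (n3 (n2 o l) (n2 o (n0 (n1 l (n2 o l)) l))) (n3 (n0 o (n2 o l)) (n0 o (n2 o (n1 l (n3 l (n2 o l))))))) l) (n2 (n1 l (n3 l (n2 o l))) l)) (n0 (n2 o (n1 (n2 (n3 l (n0 (n1 l (n2 o l)) l)) l) (n2 (n3 (n0 o l) (n0 o (n1 l (n2 o l)))) (n3 l (n0 o l))))) (n2 o l))) (n3 (n0 o (n2 (n1 (n3 (n0 (n2 o l) l) (n0 (n2 o l) l)) (n3 (n0 o l) (n0 o (n2 o l)))) l)) (n0 o (n2 o (n1 (n2 (n3 l (n0 (n1 l (n2 o l)) l)) l) (n2 (n3 (n0 o l) (n0 o l)) l)))))) (n1 l (n2 (n3 l (n0 o l)) l))))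

def K9s1_mm_h89 : subCheck K9s1 false false K9s1_mm_A K9s1_mm_B [(0, false), (2, false), (2, false), (2, false), (2, false), (2, false), (1, false), (1, false), (1, false), (3, false), (3, false), (3, false), (3, false), (3, false), (0, false), (1, false), (0, false), (1, true), (0, false), (2, false), (3, false), (0, true), (2, false), (0, false), (3, true), (2, false), (1, false), (2, true), (1, false), (3, false), (1, true), (0, false), (3, false), (1, false), (2, false), (3, true), (0, false), (1, false), (3, false)] K9s1_mm_t89 = true := by decide +kernel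

def K9s1_mm_t90 : Tr := (n2 (n0 o (n1 (n3 (n0 (n2 o (n1 (n2 o (n3 l (n0 (n1 (n2 o l) (n2 o l)) l))) (n2 o (n3 (n0 o l) (n0 o (n1 l (n2 o l))))))) (n2 o (n1 l (n2 o l)))) o) (n3 (n0 o (n2 o (n1 (n2 o (n3 l (n0 (n1 l (n2 o l)) l))) (n3 (n2 o (n0 o l)) (n2 o (n0 o (n1 l (n2 o l)))))))) o))) (n0 o (n1 (n2 (n3 (n0 (n1 l (n2 (n3 l (n0 o l)) l)) l) (n0 (n1 (n2 (n3 l (n0 (n1 (n2 o l) (n2 o l)) l)) l) (n2 (n3 (n0 o l) (n0 o (n1 l (n2 o l)))) (n3 l (n0 o l)))) l)) l) (n2 (n3 (n0 o l) (n0 o (n1 (n2 (n3 l (n0 (n1 l (n2 o l)) l)) l) (n2 (n3 (n0 o l) (n0 o (n1 l (n2 o l)))) l)))) (n3 l (n0 o l))))))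

def K9s1_mm_h90 : subCheck K9s1 false false K9s1_mm_A K9s1_mm_B [(0, false), (2, false), (2, false), (2, false), (2, false), (2, false), (1, false), (1, false), (1, false), (3, false), (3, false), (3, false), (3, false), (3, false), (0, false), (1, false), (0, false), (1, true), (0, false), (2, false), (3, false), (0, true), (2, false), (0, false), (3, true), (2, false), (1, false), (2, true), (1, false), (3, false), (1, true), (0, false), (3, false), (1, false), (2, false), (3, true), (0, false), (1, false), (3, true)] K9s1_mm_t90 = true := by decide +kernel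

def K9s1_mm_t91 : Tr := o

def K9s1_mm_h91 : subCheck K9s1 false false K9s1_mm_A K9s1_mm_B [(0, false), (2, false), (2, false), (2, false), (2, false), (2, false), (1, false), (1, false), (1, false), (3, false), (3, false), (3, false), (3, false), (3, false), (0, false), (1, false), (0, false), (1, true), (0, false), (2, false), (3, false), (0, true), (2, false), (0, false), (3, true), (2, false), (1, false), (2, true), (1, false), (3, false), (1, true), (0, false), (3, false), (1, false), (2, false), (3, true), (0, false), (1, true)] K9s1_mm_t91 = true := by decide +kernel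

def K9s1_mm_t92 : Tr := (n1 (n3 (n0 (n2 (n1 l (n3 l (n0 (n2 o l) l))) l) l) (n0 (n2 (n1 (n3 (n2 o l) o) (n3 (n0 (n2 o (n1 l (n2 o l))) (n2 o l)) o)) l) l)) (n3 (n0 (n2 (n1 (n3 (n0 (n2 (n1 (n3 l (n0 (n2 o l) l)) (n3 (n0 o l) (n0 o (n2 o l)))) l) l) (n0 (n2 o (n1 l (n3 l (n0 o l)))) (n2 o l))) (n3 (n0 o (n2 (n1 l (n3 l (n0 o l))) l)) (n0 o (n2 o l)))) l) l) (n0 (n2 (n1 (n3 (n0 (n2 o (n1 (n3 (n2 o l) (n2 o l)) (n3 (n0 o (n2 o l)) (n0 o (n2 o l))))) (n2 o l)) o) (n3 (n0 o (n2 o (n1 (n3 l (n0 (n2 o l) l)) (n3 (n0 o l) (n0 o (n2 o l)))))) o)) (n1 (n2 (n3 l (n0 (n1 l (n2 (n3 (n0 o l) (n0 o l)) l)) l)) l) (n2 (n0 o (n3 l (n1 l (n2 (n3 l (n0 o l)) l)))) (n0 o l)))) (n2 (n1 (n3 l o) (n3 (n0 (n2 o l) l) o)) l))))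

def K9s1_mm_h92 : subCheck K9s1 false false K9s1_mm_A K9s1_mm_B [(0, false), (2, false), (2, false), (2, false), (2, false), (2, false), (1, false), (1, false), (1, false), (3, false), (3, false), (3, false), (3, false), (3, false), (0, false), (1, false), (0, false), (1, true), (0, false), (2, false), (3, false), (0, true), (2, false), (0, false), (3, true), (2, false), (1, false), (2, true), (1, false), (3, false), (1, true), (0, false), (3, false), (1, false), (2, false), (3, true), (0, true)] K9s1_mm_t92 = true := by decide +kernel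

def K9s1_mm_t93 : Tr := (n3 (n0 (n1 l o) l) (n0 (n1 (n2 (n3 l (n0 o l)) l) o) l))

def K9s1_mm_h93 : subCheck K9s1 false false K9s1_mm_A K9s1_mm_B [(0, false), (2, false), (2, false), (2, false), (2, false), (2, false), (1, false), (1, false), (1, false), (3, false), (3, false), (3, false), (3, false), (3, false), (0, false), (1, false), (0, false), (1, true), (0, false), (2, false), (3, false), (0, true), (2, false), (0, false), (3, true), (2, false), (1, false), (2, true), (1, false), (3, false), (1, true), (0, false), (3, false), (1, false), (2, true)] K9s1_mm_t93 = true := by decide +kernel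

def K9s1_mm_t94 : Tr := (n2 (n3 (n0 o (n1 (n3 (n0 o l) (n0 o l)) o)) (n0 o (n1 (n0 o (n3 (n2 (n1 (n3 l (n0 (n2 o l) l)) (n0 o (n3 l (n2 o l)))) l) (n2 (n1 (n3 (n0 (n2 o (n1 l (n3 l (n0 o l)))) (n2 o l)) o) (n0 o (n3 (n2 o l) o))) (n1 l (n0 o l))))) o))) (n3 (n0 o l) (n0 o (n1 (n2 (n0 o l) l) o))))

def K9s1_mm_h94 : subCheck K9s1 false false K9s1_mm_A K9s1_mm_B [(0, false), (2, false), (2, false), (2, false), (2, false), (2, false), (1, false), (1, false), (1, false), (3, false), (3, false), (3, false), (3, false), (3, false), (0, false), (1, false), (0, false), (1, true), (0, false), (2, false), (3, false), (0, true), (2, false), (0, false), (3, true), (2, false), (1, false), (2, true), (1, false), (3, false), (1, true), (0, false), (3, false), (1, true)] K9s1_mm_t94 = true := by decide +kernel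

def K9s1_mm_t95 : Tr := (n1 (n3 (n2 o (n0 o (n1 (n2 (n3 (n0 (n1 (n2 o (n3 l (n0 (n1 l (n2 o l)) l))) (n2 o (n3 (n0 o l) (n0 o (n1 l (n2 o l)))))) (n1 l (n2 o l))) o) (n3 (n0 (n1 l (n2 (n3 l (n0 o l)) l)) l) (n0 (n1 (n2 (n3 l (n0 (n1 l (n2 o l)) l)) l) (n2 (n3 (n0 o l) (n0 o (n1 l (n2 o l)))) l)) l))) (n2 (n3 (n0 o (n1 (n2 o (n3 l (n0 (n1 l (n2 o l)) l))) (n2 o (n3 (n0 o l) (n0 o (n1 l (n2 o l))))))) o) (n3 (n0 o l) (n0 o (n1 (n2 (n3 l (n0 (n1 l (n2 o l)) l)) l) (n2 (n3 (n0 o l) (n0 o (n1 l (n2 o l)))) l)))))))) (n2 o (n0 o (n1 (n2 o (n3 (n0 (n1 (n2 o (n3 l (n0 (n1 l (n2 o l)) l))) (n2 o (n3 (n0 o l) (n0 o (n1 l (n2 o l)))))) (n1 l (n2 o l))) o)) (n2 o (n3 (n0 o (n1 (n2 o (n3 l (n0 (n1 l (n2 o l)) l))) (n2 o (n3 (n0 o l) (n0 o (n1 l (n2 o l))))))) o)))))) o)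

def K9s1_mm_h95 : subCheck K9s1 false false K9s1_mm_A K9s1_mm_B [(0, false), (2, false), (2, false), (2, false), (2, false), (2, false), (1, false), (1, false), (1, false), (3, false), (3, false), (3, false), (3, false), (3, false), (0, false), (1, false), (0, false), (1, true), (0, false), (2, false), (3, false), (0, true), (2, false), (0, false), (3, true), (2, false), (1, false), (2, true), (1, false), (3, false), (1, true), (0, false), (3, true), (2, false), (1, false), (3, false), (0, false)] K9s1_mm_t95 = true := by decide +kernel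

def K9s1_mm_t96 : Tr := (n1 (n3 (n0 (n2 o (n1 l (n2 (n3 (n0 (n1 l (n2 o l)) l) o) l))) (n2 o l)) (n0 (n2 o (n1 (n2 o l) (n2 o (n3 (n0 (n1 l (n2 o l)) l) o)))) (n2 o (n1 l (n2 o l))))) (n3 (n0 (n2 o (n1 (n2 (n3 (n0 (n1 (n2 o (n3 l (n0 (n1 l (n2 o l)) l))) (n2 o (n3 (n0 o l) (n0 o l)))) l) o) (n3 l (n0 (n1 (n2 (n3 l (n0 (n1 l (n2 o l)) l)) l) (n2 (n3 (n0 o l) (n0 o l)) l)) l))) (n2 (n3 (n0 o (n1 (n2 o l) (n2 o (n0 o l)))) o) (n0 o (n3 l (n1 l (n2 (n0 o l) l))))))) (n2 o (n1 l (n2 (n3 l o) l)))) (n0 (n2 o (n1 (n2 o (n3 (n0 (n1 (n2 o l) (n2 o (n3 (n0 o l) (n0 o l)))) (n1 l (n2 o l))) o)) (n2 o (n3 (n0 o (n1 (n2 o l) (n2 o (n0 o l)))) o)))) (n2 o (n1 (n2 o l) (n2 o (n0 (n3 l o) l)))))))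

def K9s1_mm_h96 : subCheck K9s1 false false K9s1_mm_A K9s1_mm_B [(0, false), (2, false), (2, false), (2, false), (2, false), (2, false), (1, false), (1, false), (1, false), (3, false), (3, false), (3, false), (3, false), (3, false), (0, false), (1, false), (0, false), (1, true), (0, false), (2, false), (3, false), (0, true), (2, false), (0, false), (3, true), (2, false), (1, false), (2, true), (1, false), (3, false), (1, true), (0, false), (3, true), (2, false), (1, false), (3, false), (0, true)] K9s1_mm_t96 = true := by decide +kernel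

def K9s1_mm_t97 : Tr := o

def K9s1_mm_h97 : subCheck K9s1 false false K9s1_mm_A K9s1_mm_B [(0, false), (2, false), (2, false), (2, false), (2, false), (2, false), (1, false), (1, false), (1, false), (3, false), (3, false), (3, false), (3, false), (3, false), (0, false), (1, false), (0, false), (1, true), (0, false), (2, false), (3, false), (0, true), (2, false), (0, false), (3, true), (2, false), (1, false), (2, true), (1, false), (3, false), (1, true), (0, false), (3, true), (2, false), (1, false), (3, true)] K9s1_mm_t97 = true := by decide +kernel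

def K9s1_mm_t98 : Tr := (n3 (n0 o (n1 (n3 (n0 o (n2 o (n1 (n0 (n3 (n2 (n1 (n2 o l) (n0 o l)) l) (n2 o (n1 l (n2 (n0 o l) l)))) (n2 (n3 l o) l)) (n0 o (n3 (n2 (n1 l (n0 o l)) l) (n2 o l)))))) (n0 o (n2 o (n1 (n0 (n3 (n2 o (n1 (n2 o l) (n2 o (n0 o l)))) o) (n2 o (n3 l o))) (n0 o (n3 (n2 o (n1 (n2 o l) (n2 o l))) o)))))) o)) o)

def K9s1_mm_h98 : subCheck K9s1 false false K9s1_mm_A K9s1_mm_B [(0, false), (2, false), (2, false), (2, false), (2, false), (2, false), (1, false), (1, false), (1, false), (3, false), (3, false), (3, false), (3, false), (3, false), (0, false), (1, false), (0, false), (1, true), (0, false), (2, false), (3, false), (0, true), (2, false), (0, false), (3, true), (2, false), (1, false), (2, true), (1, false), (3, false), (1, true), (0, false), (3, true), (2, false), (1, true)] K9s1_mm_t98 = true := by decide +kernel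

def K9s1_mm_t99 : Tr := (n1 (n0 (n2 (n3 (n0 o (n1 l (n2 (n3 l (n0 o l)) l))) (n1 (n0 o (n2 (n3 l (n0 (n1 l (n2 (n3 (n0 o l) (n0 o l)) l)) l)) l)) (n0 o (n2 (n3 (n0 o l) (n0 o (n1 l (n2 (n3 (n0 o l) (n0 o l)) l)))) l)))) (n1 l (n3 l (n2 (n0 o l) l)))) l) (n0 o (n2 (n0 (n3 (n1 l (n2 (n0 o l) l)) (n1 (n2 (n0 (n3 l (n1 l (n2 (n0 o l) l))) l) l) (n2 (n0 o (n3 l (n1 l (n2 (n0 o l) l)))) l))) l) l)))

def K9s1_mm_h99 : subCheck K9s1 false false K9s1_mm_A K9s1_mm_B [(0, false), (2, false), (2, false), (2, false), (2, false), (2, false), (1, false), (1, false), (1, false), (3, false), (3, false), (3, false), (3, false), (3, false), (0, false), (1, false), (0, false), (1, true), (0, false), (2, false), (3, false), (0, true), (2, false), (0, false), (3, true), (2, false), (1, false), (2, true), (1, false), (3, false), (1, true), (0, false), (3, true), (2, true), (1, false), (3, false)] K9s1_mm_t99 = true := by decide +kernel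

def K9s1_mm_t100 : Tr := (n1 (n0 (n2 (n3 (n1 (n0 o (n2 (n3 (n0 (n1 (n2 o l) (n2 o (n3 l o))) (n1 l (n2 o l))) o) (n3 l (n0 (n1 l (n2 (n3 l o) l)) l)))) (n0 o (n2 (n3 (n0 o (n1 (n2 o l) (n2 o (n3 l o)))) o) (n3 (n0 o l) (n0 o (n1 l (n2 (n3 l o) l))))))) (n1 (n0 o (n2 o (n3 (n0 (n1 (n2 o l) (n2 o l)) l) o))) (n0 o (n2 o (n3 (n0 o (n1 (n2 o l) (n2 o l))) o))))) (n1 (n2 (n3 (n0 o l) (n0 o l)) l) (n3 (n2 (n0 o l) l) (n2 (n0 o (n1 l (n3 l (n0 o l)))) (n0 o l))))) (n2 (n3 (n0 (n1 l (n2 (n3 (n0 (n1 l (n2 o l)) l) o) l)) l) (n0 (n1 (n2 o l) (n2 o (n3 l o))) l)) l)) (n0 o (n2 (n3 (n0 (n1 (n2 (n3 (n0 (n1 (n2 o l) (n2 o (n0 o l))) l) o) (n0 (n3 l (n1 l (n2 (n0 o l) l))) l)) (n2 (n3 (n0 o (n1 (n2 o l) (n2 o (n0 o l)))) o) (n0 o (n3 l (n1 l (n2 (n0 o l) l)))))) (n1 l (n2 (n0 (n3 l o) l) l))) (n0 (n1 (n2 o (n3 (n0 (n1 (n2 o l) (n2 o l)) l) o)) (n2 o (n3 (n0 o (n1 (n2 o l) (n2 o l))) o))) (n1 (n2 o l) (n2 o (n0 (n3 l o) l))))) (n0 (n3 l (n1 l (n2 (n0 o l) l))) l))))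

def K9s1_mm_h100 : subCheck K9s1 false false K9s1_mm_A K9s1_mm_B [(0, false), (2, false), (2, false), (2, false), (2, false), (2, false), (1, false), (1, false), (1, false), (3, false), (3, false), (3, false), (3, false), (3, false), (0, false), (1, false), (0, false), (1, true), (0, false), (2, false), (3, false), (0, true), (2, false), (0, false), (3, true), (2, false), (1, false), (2, true), (1, false), (3, false), (1, true), (0, false), (3, true), (2, true), (1, false), (3, true)] K9s1_mm_t100 = true := by decide +kernel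

def K9s1_mm_t101 : Tr := (n3 (n1 (n0 o (n2 (n0 o (n3 l (n1 (n2 (n0 (n3 l (n1 l (n2 (n0 o l) l))) l) l) (n2 (n0 o l) l)))) (n0 o l))) o) (n1 (n0 o (n2 (n3 (n0 o (n1 (n2 (n0 (n3 (n1 (n2 o l) (n2 o (n0 o l))) o) (n3 l o)) l) (n2 (n0 o (n3 (n1 (n2 o l) (n2 o l)) o)) (n0 o l)))) (n0 o (n1 (n2 o (n0 (n3 (n1 (n2 o l) (n2 o l)) o) (n3 l o))) (n2 o (n0 o (n3 (n1 l (n2 o l)) o)))))) (n0 o (n3 l (n1 l (n2 (n0 o l) l)))))) o))

def K9s1_mm_h101 : subCheck K9s1 false false K9s1_mm_A K9s1_mm_B [(0, false), (2, false), (2, false), (2, false), (2, false), (2, false), (1, false), (1, false), (1, false), (3, false), (3, false), (3, false), (3, false), (3, false), (0, false), (1, false), (0, false), (1, true), (0, false), (2, false), (3, false), (0, true), (2, false), (0, false), (3, true), (2, false), (1, false), (2, true), (1, false), (3, false), (1, true), (0, false), (3, true), (2, true), (1, true)] K9s1_mm_t101 = true := by decide +kernel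

def K9s1_mm_t102 : Tr := (n3 (n2 (n1 l (n0 (n3 l (n1 (n3 l (n0 (n2 (n1 l (n3 l o)) l) l)) (n0 (n3 (n2 (n0 (n1 l o) l) l) (n2 (n1 (n0 (n3 (n2 o l) o) l) (n0 o (n3 l o))) l)) l))) l)) l) (n2 (n1 (n0 (n3 (n1 (n3 l (n0 (n2 o l) l)) (n3 (n0 (n2 o l) l) (n0 (n2 o l) l))) o) (n3 l o)) (n0 (n3 (n1 (n0 (n3 (n2 o l) (n2 o (n1 (n2 o l) (n0 (n3 (n2 o l) o) l)))) (n3 l (n2 o l))) (n0 (n3 (n2 o (n1 (n0 (n3 l (n2 o l)) l) (n0 o (n3 l (n2 o l))))) (n2 o (n1 (n0 (n3 (n2 o (n1 l (n0 o l))) o) (n3 (n2 o l) o)) (n0 o (n3 (n2 o l) o))))) (n3 (n2 o l) (n2 o (n1 l (n0 (n3 l o) l)))))) o) (n3 l o))) (n1 l (n0 (n3 (n1 l (n2 (n0 (n3 l (n1 l (n2 (n0 o l) l))) l) l)) (n1 (n2 (n0 (n3 (n1 l (n2 (n0 (n3 l o) l) l)) (n1 (n2 o l) (n2 o l))) l) l) (n2 (n0 (n3 (n1 (n2 (n0 (n3 (n1 l (n2 o l)) o) l) l) (n2 (n0 o (n3 l o)) (n0 o l))) (n1 (n2 o (n0 (n3 (n1 l (n2 o l)) o) l)) (n2 o (n0 o (n3 l o))))) (n3 l (n1 l (n2 o l)))) (n0 (n3 l (n1 l (n2 (n0 o l) l))) l)))) l))))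

def K9s1_mm_h102 : subCheck K9s1 false false K9s1_mm_A K9s1_mm_B [(0, false), (2, false), (2, false), (2, false), (2, false), (2, false), (1, false), (1, false), (1, false), (3, false), (3, false), (3, false), (3, false), (3, false), (0, false), (1, false), (0, false), (1, true), (0, false), (2, false), (3, false), (0, true), (2, false), (0, false), (3, true), (2, false), (1, false), (2, true), (1, false), (3, false), (1, true), (0, true)] K9s1_mm_t102 = true := by decide +kernel

def K9s1_mm_t103 : Tr := (n1 (n0 (n2 o (n1 (n3 (n1 (n2 o l) (n2 o l)) o) (n3 (n1 (n3 (n2 o l) o) (n3 (n2 o (n0 (n2 o l) l)) o)) o))) (n2 o (n3 (n1 l (n3 l o)) o))) (n0 (n2 o (n1 (n3 (n1 (n3 (n2 o (n0 (n1 (n2 o (n3 (n0 o l) o)) (n2 o (n3 (n0 o l) o))) (n3 l o))) o) (n3 (n0 o (n2 o (n0 (n3 (n1 (n2 o l) (n2 o (n0 o l))) o) (n3 l o)))) o)) o) (n3 (n3 (n1 (n0 o (n2 o (n3 (n0 o (n1 (n2 o l) (n2 o (n0 o l)))) o))) o) o) o))) (n2 o (n3 (n1 (n0 (n3 (n1 (n2 o l) (n2 o l)) o) (n3 l o)) (n0 (n3 (n1 (n2 o (n0 (n3 l o) l)) (n2 o (n0 (n3 (n1 (n2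 o l) (n2 o l)) o) (n3 l o)))) o) (n3 (n2 o l) o))) o))))

def K9s1_mm_h103 : subCheck K9s1 false false K9s1_mm_A K9s1_mm_B [(0, false), (2, false), (2, false), (2, false), (2, false), (2, false), (1, false), (1, false), (1, false), (3, false), (3, false), (3, false), (3, false), (3, false), (0, false), (1, false), (0, false), (1, true), (0, false), (2, false), (3, false), (0, true), (2, false), (0, false), (3, true), (2, false), (1, false), (2, true), (1, false), (3, true)] K9s1_mm_t103 = true := by decide +kernel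

def K9s1_mm_t104 : Tr := (n3 (n0 o (n1 (n3 (n0 (n1 (n2 (n3 (n0 o l) (n1 (n0 o (n3 l (n2 (n0 (n3 (n1 l o) o) l) l))) o)) (n3 l (n1 l o))) o) (n2 (n3 l (n1 l (n0 o l))) l)) (n2 (n0 (n1 (n3 (n1 (n0 o (n3 (n2 o (n0 (n1 l o) l)) (n2 o (n1 (n0 (n3 (n2 o l) o) l) (n0 o (n3 l o)))))) o) o) o) (n3 (n1 (n0 (n3 (n1 l (n2 o l)) (n1 (n2 o l) (n2 o (n0 (n3 l o) l)))) l) (n0 o (n3 (n1 l o) (n1 (n2 o l) o)))) o)) (n1 (n0 (n3 (n1 (n0 o l) o) (n1 (n0 o (n2 (n3 (n1 (n0 (n2 (n3 l o) l) l) (n0 o l)) (n1 (n2 o (n0 (n3 l o) l)) (n0 o (n2 o l)))) l)) o)) (n3 l (n0 (n1 l (n2 (n3 l (n0 (n1 (n2 o l) o) l)) l)) l))) (n0 o (n3 (n0 o l) (n0 o (n3 l (n1 l o)))))))) o)) (n0 o (n1 (n3 (n2 o (n1 (n0 (n3 (n1 (n2 o (n0 o (n3 (n1 (n2 o l) (n2 o l)) o))) o) o) (n3 (n1 (n0 (n2 o l) l) (n0 (n2 o (n3 (n2 o l) o)) (n2 o l))) o)) (n0 o (n3 (n0 o (n1 (n2 o (n3 l o)) o)) o)))) o) o)))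

def K9s1_mm_h104 : subCheck K9s1 false false K9s1_mm_A K9s1_mm_B [(0, false), (2, false), (2, false), (2, false), (2, false), (2, false), (1, false), (1, false), (1, false), (3, false), (3, false), (3, false), (3, false), (3, false), (0, false), (1, false), (0, false), (1, true), (0, false), (2, false), (3, false), (0, true), (2, false), (0, false), (3, true), (2, false), (1, false), (2, true), (1, true)] K9s1_mm_t104 = true := by decide +kernel

def K9s1_mm_t105 : Tr := o

def K9s1_mm_h105 : subCheck K9s1 false false K9s1_mm_A K9s1_mm_B [(0, false), (2, false), (2, false), (2, false), (2, false), (2, false), (1, false), (1, false), (1, false), (3, false), (3, false), (3, false), (3, false), (3, false), (0, false), (1, false), (0, false), (1, true), (0, false), (2, false), (3, false), (0, true), (2, false), (0, false), (3, true), (2, false), (1, true)] K9s1_mm_t105 = true := by decide +kernel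

def K9s1_mm_t106 : Tr := (n1 (n1 (n2 (n1 (n0 (n3 l (n2 (n1 l (n3 l o)) l)) l) (n3 (n0 (n1 (n2 (n3 l (n2 (n1 l (n3 l (n0 o l))) l)) l) (n2 (n3 (n0 o l) (n1 (n2 (n3 (n0 o l) (n0 o l)) l) o)) l)) l) (n0 (n2 (n1 (n3 (n2 (n1 (n3 (n0 (n2 (n1 l (n3 l (n0 o l))) l) l) (n0 (n2 o l) l)) (n3 (n0 o l) (n0 o (n2 o l)))) l) o) (n3 (n1 (n2 (n3 (n0 o (n0 o l)) (n0 o (n2 o (n1 (n0 o l) (n0 o l))))) (n0 o l)) o) o)) (n1 l (n2 (n1 l o) l))) (n2 (n1 (n3 l o) (n3 (n0 (n2 (n3 l (n1 l (n0 (n2 o l) l))) l) l) o)) l)))) l) (n2 (n3 (n0 o (n1 (n3 l (n1 (n2 (n0 (n3 l (n1 l o)) l) l) (n2 (n0 o l) l))) o)) (n0 o (n1 (n2 (n3 (n1 (n0 (n3 (n1 (n2 (n0 o l) l) o) (n1 (n2 (n0 o (n3 (n2 o l) o)) l) o)) (n3 l (n2 (n1 l (n0 (n3 l o) l)) l))) (n0 o (n3 (n2 (n1 (n0 o l) o) l) (n2 (n1 (n0 o l) o) (n1 l o))))) o) (n1 (n3 l (n2 (n0 (n1 l o) l) l)) (n3 (n0 o l) (n2 (n0 o (n1 l o)) (n1 l o))))) o))) (n3 (n1 l o) (n0 o (n1 l o))))) o)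

def K9s1_mm_h106 : subCheck K9s1 false false K9s1_mm_A K9s1_mm_B [(0, false), (2, false), (2, false), (2, false), (2, false), (2, false), (1, false), (1, false), (1, false), (3, false), (3, false), (3, false), (3, false), (3, false), (0, false), (1, false), (0, false), (1, true), (0, false), (2, false), (3, false), (0, true), (2, false), (0, false), (3, true), (2, true)] K9s1_mm_t106 = true := by decide +kernel

def K9s1_mm_t107 : Tr := (n2 (n3 (n1 l (n3 l (n0 o l))) (n1 (n2 (n3 (n1 (n2 o (n3 l o)) (n0 (n3 (n0 (n1 (n2 o l) (n2 o (n3 l o))) l) o) (n2 o l))) o) (n1 (n3 l (n1 (n2 o l) (n0 (n3 (n2 o l) o) l))) (n3 (n0 (n3 (n0 (n1 l (n3 l (n0 o l))) l) (n1 (n2 (n0 (n3 l o) l) l) (n0 (n2 (n3 (n1 (n0 o l) o) o) (n3 (n1 l o) (n1 (n0 o l) o))) (n3 l (n2 o l))))) l) (n0 (n1 (n3 (n2 o (n0 (n1 (n3 l o) (n3 (n0 (n3 l o) l) o)) l)) o) (n3 (n0 (n2 o (n3 (n1 (n0 o (n3 l o)) o) o)) (n2 o (n3 l o))) o)) (n3 (n0 (n3 l o) l) o))))) (n2 (n3 (n0 o (n1 (n3 l o) o)) o) (n3 (n0 o l) (n0 o (n1 (n3 (n0 o l) o) o)))))) (n1 (n3 l (n2 (n1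 l (n3 l (n0 (n1 (n3 l (n2 o l)) (n3 (n0 (n2 (n1 (n3 l (n0 o l)) o) l) l) (n0 (n2 o (n1 l o)) (n2 o l)))) l))) l)) (n3 l (n0 o (n2 (n1 (n3 l (n3 l (n0 o l))) o) l)))))

def K9s1_mm_h107 : subCheck K9s1 false false K9s1_mm_A K9s1_mm_B [(0, false), (2, false), (2, false), (2, false), (2, false), (2, false), (1, false), (1, false), (1, false), (3, false), (3, false), (3, false), (3, false), (3, false), (0, false), (1, false), (0, false), (1, true), (0, false), (2, false), (3, false), (0, true), (2, false), (0, true)] K9s1_mm_t107 = true := by decide +kernel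

def K9s1_mm_t108 : Tr := (n3 (n0 (n1 l o) l) (n0 (n2 (n1 l o) o) l))

def K9s1_mm_h108 : subCheck K9s1 false false K9s1_mm_A K9s1_mm_B [(0, false), (2, false), (2, false), (2, false), (2, false), (2, false), (1, false), (1, false), (1, false), (3, false), (3, false), (3, false), (3, false), (3, false), (0, false), (1, false), (0, false), (1, true), (0, false), (2, false), (3, false), (0, true), (2, true)] K9s1_mm_t108 = true := by decide +kernel

def K9s1_mm_t109 : Tr := (n2 (n0 (n2 o (n0 o (n3 (n1 (n2 o (n1 l o)) o) o))) (n2 o (n0 (n3 (n1 (n2 o (n1 l (n3 (n0 o (n1 l o)) o))) o) o) (n1 (n2 o (n3 (n1 l (n3 l o)) o)) (n3 (n2 o (n3 (n0 o l) o)) o))))) (n0 (n0 o (n2 (n3 (n1 l o) o) o)) (n3 (n0 (n2 (n1 l o) o) (n2 (n1 l (n2 (n3 (n0 o l) o) o)) o)) (n0 (n2 o o) l))))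

def K9s1_mm_h109 : subCheck K9s1 false false K9s1_mm_A K9s1_mm_B [(0, false), (2, false), (2, false), (2, false), (2, false), (2, false), (1, false), (1, false), (1, false), (3, false), (3, false), (3, false), (3, false), (3, false), (0, false), (1, false), (0, false), (1, true), (0, false), (2, false), (3, true)] K9s1_mm_t109 = true := by decide +kernel

def K9s1_mm_t110 : Tr := o

def K9s1_mm_h110 : subCheck K9s1 false false K9s1_mm_A K9s1_mm_B [(0, false), (2, false), (2, false), (2, false), (2, false), (2, false), (1, false), (1, false), (1, false), (3, false), (3, false), (3, false), (3, false), (3, false), (0, false), (1, false), (0, false), (1, true), (0, false), (2, true)] K9s1_mm_t110 = true := by decide +kernel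

def K9s1_mm_t111 : Tr := (n3 (n0 (n2 (n2 (n2 (n3 l (n1 (n2 (n0 (n3 l o) l) l) (n2 (n0 (n3 l o) l) l))) l) l) o) o) (n2 (n1 (n2 (n0 (n2 o (n2 o l)) o) (n0 l o)) (n2 (n2 o (n0 (n2 o l) o)) l)) o))

def K9s1_mm_h111 : subCheck K9s1 false false K9s1_mm_A K9s1_mm_B [(0, false), (2, false), (2, false), (2, false), (2, false), (2, false), (1, false), (1, false), (1, false), (3, false), (3, false), (3, false), (3, false), (3, false), (0, false), (1, false), (0, false), (1, true), (0, true)] K9s1_mm_t111 = true := by decide +kernel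

def K9s1_mm_t112 : Tr := o

def K9s1_mm_h112 : subCheck K9s1 false false K9s1_mm_A K9s1_mm_B [(0, false), (2, false), (2, false), (2, false), (2, false), (2, false), (1, false), (1, false), (1, false), (3, false), (3, false), (3, false), (3, false), (3, false), (0, false), (1, false), (0, true)] K9s1_mm_t112 = true := by decide +kernel

def K9s1_mm_t113 : Tr := (n0 (n0 o (n2 (n3 l (n2 (n1 (n2 o (n0 o o)) o) l)) o)) o)

def K9s1_mm_h113 : subCheck K9s1 false false K9s1_mm_A K9s1_mm_B [(0, false), (2, false), (2, false), (2, false), (2, false), (2, false), (1, false), (1, false), (1, false), (3, false), (3, false), (3, false), (3, false), (3, false), (0, false), (1, true)] K9s1_mm_t113 = true := by decide +kernel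

def K9s1_mm_t114 : Tr := o

def K9s1_mm_h114 : subCheck K9s1 false false K9s1_mm_A K9s1_mm_B [(0, false), (2, false), (2, false), (2, false), (2, false), (2, false), (1, false), (1, false), (1, false), (3, false), (3, false), (3, false), (3, false), (3, false), (0, true)] K9s1_mm_t114 = true := by decide +kernel

def K9s1_mm_t115 : Tr := (n1 (n0 (n0 (n2 o o) o) o) (n0 (n1 (n0 (n2 o o) o) (n0 o o)) o))

def K9s1_mm_h115 : subCheck K9s1 false false K9s1_mm_A K9s1_mm_B [(0, false), (2, false), (2, false), (2, false), (2, false), (2, false), (1, false), (1, false), (1, false), (3, false), (3, false), (3, false), (3, false), (3, true)] K9s1_mm_t115 = true := by decide +kernel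

def K9s1_mm_t116 : Tr := o

def K9s1_mm_h116 : subCheck K9s1 false false K9s1_mm_A K9s1_mm_B [(0, false), (2, false), (2, false), (2, false), (2, false), (2, false), (1, false), (1, false), (1, false), (3, false), (3, false), (3, false), (3, true)] K9s1_mm_t116 = true := by decide +kernel

def K9s1_mm_t117 : Tr := o

def K9s1_mm_h117 : subCheck K9s1 false false K9s1_mm_A K9s1_mm_B [(0, false), (2, false), (2, false), (2, false), (2, false), (2, false), (1, false), (1, false), (1, false), (3, false), (3, false), (3, true)] K9s1_mm_t117 = true := by decide +kernel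

def K9s1_mm_t118 : Tr := o

def K9s1_mm_h118 : subCheck K9s1 false false K9s1_mm_A K9s1_mm_B [(0, false), (2, false), (2, false), (2, false), (2, false), (2, false), (1, false), (1, false), (1, false), (3, false), (3, true)] K9s1_mm_t118 = true := by decide +kernel

def K9s1_mm_t119 : Tr := o

def K9s1_mm_h119 : subCheck K9s1 false false K9s1_mm_A K9s1_mm_B [(0, false), (2, false), (2, false), (2, false), (2, false), (2, false), (1, false), (1, false), (1, false), (3, true)] K9s1_mm_t119 = true := by decide +kernel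

def K9s1_mm_t120 : Tr := (n3 (n3 (n3 (n3 (n3 (n0 o o) (n0 o o)) o) o) o) o)

def K9s1_mm_h120 : subCheck K9s1 false false K9s1_mm_A K9s1_mm_B [(0, false), (2, false), (2, false), (2, false), (2, false), (2, false), (1, false), (1, false), (1, true)] K9s1_mm_t120 = true := by decide +kernel

def K9s1_mm_t121 : Tr := o

def K9s1_mm_h121 : subCheck K9s1 false false K9s1_mm_A K9s1_mm_B [(0, false), (2, false), (2, false), (2, false), (2, false), (2, false), (1, false), (1, true)] K9s1_mm_t121 = true := by decide +kernel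

def K9s1_mm_t122 : Tr := o

def K9s1_mm_h122 : subCheck K9s1 false false K9s1_mm_A K9s1_mm_B [(0, false), (2, false), (2, false), (2, false), (2, false), (2, false), (1, true)] K9s1_mm_t122 = true := by decide +kernel

def K9s1_mm_t123 : Tr := o

def K9s1_mm_h123 : subCheck K9s1 false false K9s1_mm_A K9s1_mm_B [(0, false), (2, false), (2, false), (2, false), (2, false), (2, true)] K9s1_mm_t123 = true := by decide +kernel

def K9s1_mm_t124 : Tr := o

def K9s1_mm_h124 : subCheck K9s1 false false K9s1_mm_A K9s1_mm_B [(0, false), (2, false), (2, false), (2, false), (2, true)] K9s1_mm_t124 = true := by decide +kernel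

def K9s1_mm_t125 : Tr := o

def K9s1_mm_h125 : subCheck K9s1 false false K9s1_mm_A K9s1_mm_B [(0, false), (2, false), (2, false), (2, true)] K9s1_mm_t125 = true := by decide +kernel

def K9s1_mm_t126 : Tr := o

def K9s1_mm_h126 : subCheck K9s1 false false K9s1_mm_A K9s1_mm_B [(0, false), (2, false), (2, true)] K9s1_mm_t126 = true := by decide +kernel

def K9s1_mm_t127 : Tr := o

def K9s1_mm_h127 : subCheck K9s1 false false K9s1_mm_A K9s1_mm_B [(0, false), (2, true)] K9s1_mm_t127 = true := by decide +kernel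

def K9s1_mm_t128 : Tr := o

def K9s1_mm_h128 : subCheck K9s1 false false K9s1_mm_A K9s1_mm_B [(0, true)] K9s1_mm_t128 = true := by decide +kernel

def K9s1_mm_L : List (Path × Tr) := [([(0, false), (2, false), (2, false), (2, false), (2, false), (2, false), (1, false), (1, false), (1, false), (3, false), (3, false), (3, false), (3, false), (3, false), (0, false), (1, false), (0, false), (1, false), (3, false), (0, false), (2, false), (2, false), (0, false), (2, false), (3, false), (0, false)], K9s1_mm_t0), ([(0, false), (2, false), (2, false), (2, false), (2, false), (2, false), (1, false), (1, false), (1, false), (3, false), (3, false), (3, false), (3, false), (3, false), (0, false), (1, false), (0, false), (1, false), (3, false), (0, false), (2, false), (2, false), (0, false), (2, false), (3, false), (0, true), (1, false)], K9s1_mm_t1), ([(0, false), (2, false), (2, false), (2, false), (2, false), (2, false), (1, false), (1, false), (1, false), (3, false), (3, false), (3, false), (3, false), (3, false), (0,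 false), (1, false), (0, false), (1, false), (3, false), (0, false), (2, false), (2, false), (0, false), (2, false), (3, false), (0, true), (1, true), (2, false), (1, false)], K9s1_mm_t2), ([(0, false), (2, false), (2, false), (2, false), (2, false), (2, false), (1, false), (1, false), (1, false), (3, false), (3, false), (3, false), (3, false), (3, false), (0, false), (1, false), (0, false), (1, false), (3, false), (0, false), (2, false), (2, false), (0, false), (2, false), (3, false), (0, true), (1, true), (2, false), (1, true), (3, false)], K9s1_mm_t3), ([(0, false), (2, false), (2, false), (2, false), (2, false), (2, false), (1, false), (1, false), (1, false), (3, false), (3, false), (3, false), (3, false), (3, false), (0, false), (1, false), (0, false), (1, false), (3, false), (0, false), (2, false), (2, false), (0, false), (2, false), (3, false), (0, true), (1, true), (2, false), (1, true), (3, true), (0, false), (1, false)], K9s1_mm_t4), ([(0, false), (2, false), (2, false), (2, false), (2, false), (2,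 false), (1, false), (1, false), (1, false), (3, false), (3, false), (3, false), (3, false), (3, false), (0, false), (1, false), (0, false), (1, false), (3, false), (0, false), (2, false), (2, false), (0, false), (2, false), (3, false), (0, true), (1, true), (2, false), (1, true), (3, true), (0, false), (1, true), (2, false)], K9s1_mm_t5), ([(0, false), (2, false), (2, false), (2, false), (2, false), (2, false), (1, false), (1, false), (1, false), (3, false), (3, false), (3, false), (3, false), (3, false), (0, false), (1, false), (0, false), (1, false), (3, false), (0, false), (2, false), (2, false), (0, false), (2, false), (3, false), (0, true), (1, true), (2, false), (1, true), (3, true), (0, false), (1, true), (2, true), (3, false)], K9s1_mm_t6), ([(0, false), (2, false), (2, false), (2, false), (2, false), (2, false), (1, false), (1, false), (1, false), (3, false), (3, false), (3, false), (3, false), (3, false), (0, false), (1, false), (0, false), (1, false), (3, false), (0, false), (2, false), (2, false),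 (0, false), (2, false), (3, false), (0, true), (1, true), (2, false), (1, true), (3, true), (0, false), (1, true), (2, true), (3, true)], K9s1_mm_t7), ([(0, false), (2, false), (2, false), (2, false), (2, false), (2, false), (1, false), (1, false), (1, false), (3, false), (3, false), (3, false), (3, false), (3, false), (0, false), (1, false), (0, false), (1, false), (3, false), (0, false), (2, false), (2, false), (0, false), (2, false), (3, false), (0, true), (1, true), (2, false), (1, true), (3, true), (0, true)], K9s1_mm_t8), ([(0, false), (2, false), (2, false), (2, false), (2, false), (2, false), (1, false), (1, false), (1, false), (3, false), (3, false), (3, false), (3, false), (3, false), (0, false), (1, false), (0, false), (1, false), (3, false), (0, false), (2, false), (2, false), (0, false), (2, false), (3, false), (0, true), (1, true), (2, true)], K9s1_mm_t9), ([(0, false), (2, false), (2, false), (2, false), (2, false), (2, false), (1, false), (1, false), (1, false), (3, false), (3, false), (3, false),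 (3, false), (3, false), (0, false), (1, false), (0, false), (1, false), (3, false), (0, false), (2, false), (2, false), (0, false), (2, false), (3, true), (1, false)], K9s1_mm_t10), ([(0, false), (2, false), (2, false), (2, false), (2, false), (2, false), (1, false), (1, false), (1, false), (3, false), (3, false), (3, false), (3, false), (3, false), (0, false), (1, false), (0, false), (1, false), (3, false), (0, false), (2, false), (2, false), (0, false), (2, false), (3, true), (1, true), (0, false)], K9s1_mm_t11), ([(0, false), (2, false), (2, false), (2, false), (2, false), (2, false), (1, false), (1, false), (1, false), (3, false), (3, false), (3, false), (3, false), (3, false), (0, false), (1, false), (0, false), (1, false), (3, false), (0, false), (2, false), (2, false), (0, false), (2, false), (3, true), (1, true), (0, true), (2, false)], K9s1_mm_t12), ([(0, false), (2, false), (2, false), (2, false), (2, false), (2, false), (1, false), (1, false), (1, false), (3, false), (3, false), (3, false), (3, false),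 (3, false), (0, false), (1, false), (0, false), (1, false), (3, false), (0, false), (2, false), (2, false), (0, false), (2, false), (3, true), (1, true), (0, true), (2, true)], K9s1_mm_t13), ([(0, false), (2, false), (2, false), (2, false), (2, false), (2, false), (1, false), (1, false), (1, false), (3, false), (3, false), (3, false), (3, false), (3, false), (0, false), (1, false), (0, false), (1, false), (3, false), (0, false), (2, false), (2, false), (0, false), (2, true)], K9s1_mm_t14), ([(0, false), (2, false), (2, false), (2, false), (2, false), (2, false), (1, false), (1, false), (1, false), (3, false), (3, false), (3, false), (3, false), (3, false), (0, false), (1, false), (0, false), (1, false), (3, false), (0, false), (2, false), (2, false), (0, true)], K9s1_mm_t15), ([(0, false), (2, false), (2, false), (2, false), (2, false), (2, false), (1, false), (1, false), (1, false), (3, false), (3, false), (3, false), (3, false), (3, false), (0, false), (1, false), (0, false), (1, false), (3, false), (0, false),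 (2, false), (2, true)], K9s1_mm_t16), ([(0, false), (2, false), (2, false), (2, false), (2, false), (2, false), (1, false), (1, false), (1, false), (3, false), (3, false), (3, false), (3, false), (3, false), (0, false), (1, false), (0, false), (1, false), (3, false), (0, false), (2, true)], K9s1_mm_t17), ([(0, false), (2, false), (2, false), (2, false), (2, false), (2, false), (1, false), (1, false), (1, false), (3, false), (3, false), (3, false), (3, false), (3, false), (0, false), (1, false), (0, false), (1, false), (3, false), (0, true), (3, false)], K9s1_mm_t18), ([(0, false), (2, false), (2, false), (2, false), (2, false), (2, false), (1, false), (1, false), (1, false), (3, false), (3, false), (3, false), (3, false), (3, false), (0, false), (1, false), (0, false), (1, false), (3, false), (0, true), (3, true), (1, false), (2, false), (0, false)], K9s1_mm_t19), ([(0, false), (2, false), (2, false), (2, false), (2, false), (2, false), (1, false), (1, false), (1, false), (3, false), (3, false), (3, false),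 (3, false), (3, false), (0, false), (1, false), (0, false), (1, false), (3, false), (0, true), (3, true), (1, false), (2, false), (0, true), (2, false), (0, false)], K9s1_mm_t20), ([(0, false), (2, false), (2, false), (2, false), (2, false), (2, false), (1, false), (1, false), (1, false), (3, false), (3, false), (3, false), (3, false), (3, false), (0, false), (1, false), (0, false), (1, false), (3, false), (0, true), (3, true), (1, false), (2, false), (0, true), (2, false), (0, true)], K9s1_mm_t21), ([(0, false), (2, false), (2, false), (2, false), (2, false), (2, false), (1, false), (1, false), (1, false), (3, false), (3, false), (3, false), (3, false), (3, false), (0, false), (1, false), (0, false), (1, false), (3, false), (0, true), (3, true), (1, false), (2, false), (0, true), (2, true)], K9s1_mm_t22), ([(0, false), (2, false), (2, false), (2, false), (2, false), (2, false), (1, false), (1, false), (1, false), (3, false), (3, false), (3, false), (3, false), (3, false), (0, false), (1, false), (0, false),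 (1, false), (3, false), (0, true), (3, true), (1, false), (2, true)], K9s1_mm_t23), ([(0, false), (2, false), (2, false), (2, false), (2, false), (2, false), (1, false), (1, false), (1, false), (3, false), (3, false), (3, false), (3, false), (3, false), (0, false), (1, false), (0, false), (1, false), (3, false), (0, true), (3, true), (1, true)], K9s1_mm_t24), ([(0, false), (2, false), (2, false), (2, false), (2, false), (2, false), (1, false), (1, false), (1, false), (3, false), (3, false), (3, false), (3, false), (3, false), (0, false), (1, false), (0, false), (1, false), (3, true)], K9s1_mm_t25), ([(0, false), (2, false), (2, false), (2, false), (2, false), (2, false), (1, false), (1, false), (1, false), (3, false), (3, false), (3, false), (3, false), (3, false), (0, false), (1, false), (0, false), (1, true), (0, false), (2, false), (3, false), (0, false), (2, false), (0, false)], K9s1_mm_t26), ([(0, false), (2, false), (2, false), (2, false), (2, false), (2, false), (1, false), (1, false), (1, false), (3,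 false), (3, false), (3, false), (3, false), (3, false), (0, false), (1, false), (0, false), (1, true), (0, false), (2, false), (3, false), (0, false), (2, false), (0, true), (2, false), (3, false), (1, false), (1, false), (2, false), (3, false)], K9s1_mm_t27), ([(0, false), (2, false), (2, false), (2, false), (2, false), (2, false), (1, false), (1, false), (1, false), (3, false), (3, false), (3, false), (3, false), (3, false), (0, false), (1, false), (0, false), (1, true), (0, false), (2, false), (3, false), (0, false), (2, false), (0, true), (2, false), (3, false), (1, false), (1, false), (2, false), (3, true), (0, false)], K9s1_mm_t28), ([(0, false), (2, false), (2, false), (2, false), (2, false), (2, false), (1, false), (1, false), (1, false), (3, false), (3, false), (3, false), (3, false), (3, false), (0, false), (1, false), (0, false), (1, true), (0, false), (2, false), (3, false), (0, false), (2, false), (0, true), (2, false), (3, false), (1, false), (1, false), (2, false), (3, true), (0, true), (1, false),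 (2, false)], K9s1_mm_t29), ([(0, false), (2, false), (2, false), (2, false), (2, false), (2, false), (1, false), (1, false), (1, false), (3, false), (3, false), (3, false), (3, false), (3, false), (0, false), (1, false), (0, false), (1, true), (0, false), (2, false), (3, false), (0, false), (2, false), (0, true), (2, false), (3, false), (1, false), (1, false), (2, false), (3, true), (0, true), (1, false), (2, true), (3, false)], K9s1_mm_t30), ([(0, false), (2, false), (2, false), (2, false), (2, false), (2, false), (1, false), (1, false), (1, false), (3, false), (3, false), (3, false), (3, false), (3, false), (0, false), (1, false), (0, false), (1, true), (0, false), (2, false), (3, false), (0, false), (2, false), (0, true), (2, false), (3, false), (1, false), (1, false), (2, false), (3, true), (0, true), (1, false), (2, true), (3, true), (1, false), (3, false)], K9s1_mm_t31), ([(0, false), (2, false), (2, false), (2, false), (2, false), (2, false), (1, false), (1, false), (1, false), (3, false), (3, false),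 (3, false), (3, false), (3, false), (0, false), (1, false), (0, false), (1, true), (0, false), (2, false), (3, false), (0, false), (2, false), (0, true), (2, false), (3, false), (1, false), (1, false), (2, false), (3, true), (0, true), (1, false), (2, true), (3, true), (1, false), (3, true), (1, false)], K9s1_mm_t32), ([(0, false), (2, false), (2, false), (2, false), (2, false), (2, false), (1, false), (1, false), (1, false), (3, false), (3, false), (3, false), (3, false), (3, false), (0, false), (1, false), (0, false), (1, true), (0, false), (2, false), (3, false), (0, false), (2, false), (0, true), (2, false), (3, false), (1, false), (1, false), (2, false), (3, true), (0, true), (1, false), (2, true), (3, true), (1, false), (3, true), (1, true)], K9s1_mm_t33), ([(0, false), (2, false), (2, false), (2, false), (2, false), (2, false), (1, false), (1, false), (1, false), (3, false), (3, false), (3, false), (3, false), (3, false), (0, false), (1, false), (0, false), (1, true), (0, false), (2, false), (3, false),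 (0, false), (2, false), (0, true), (2, false), (3, false), (1, false), (1, false), (2, false), (3, true), (0, true), (1, false), (2, true), (3, true), (1, true)], K9s1_mm_t34), ([(0, false), (2, false), (2, false), (2, false), (2, false), (2, false), (1, false), (1, false), (1, false), (3, false), (3, false), (3, false), (3, false), (3, false), (0, false), (1, false), (0, false), (1, true), (0, false), (2, false), (3, false), (0, false), (2, false), (0, true), (2, false), (3, false), (1, false), (1, false), (2, false), (3, true), (0, true), (1, true)], K9s1_mm_t35), ([(0, false), (2, false), (2, false), (2, false), (2, false), (2, false), (1, false), (1, false), (1, false), (3, false), (3, false), (3, false), (3, false), (3, false), (0, false), (1, false), (0, false), (1, true), (0, false), (2, false), (3, false), (0, false), (2, false), (0, true), (2, false), (3, false), (1, false), (1, false), (2, true)], K9s1_mm_t36), ([(0, false), (2, false), (2, false), (2, false), (2, false), (2, false), (1, false), (1,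 false), (1, false), (3, false), (3, false), (3, false), (3, false), (3, false), (0, false), (1, false), (0, false), (1, true), (0, false), (2, false), (3, false), (0, false), (2, false), (0, true), (2, false), (3, false), (1, false), (1, true)], K9s1_mm_t37), ([(0, false), (2, false), (2, false), (2, false), (2, false), (2, false), (1, false), (1, false), (1, false), (3, false), (3, false), (3, false), (3, false), (3, false), (0, false), (1, false), (0, false), (1, true), (0, false), (2, false), (3, false), (0, false), (2, false), (0, true), (2, false), (3, false), (1, true)], K9s1_mm_t38), ([(0, false), (2, false), (2, false), (2, false), (2, false), (2, false), (1, false), (1, false), (1, false), (3, false), (3, false), (3, false), (3, false), (3, false), (0, false), (1, false), (0, false), (1, true), (0, false), (2, false), (3, false), (0, false), (2, false), (0, true), (2, false), (3, true), (1, false), (2, false), (1, false), (3, false), (0, false)], K9s1_mm_t39), ([(0, false), (2, false), (2, false), (2,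 false), (2, false), (2, false), (1, false), (1, false), (1, false), (3, false), (3, false), (3, false), (3, false), (3, false), (0, false), (1, false), (0, false), (1, true), (0, false), (2, false), (3, false), (0, false), (2, false), (0, true), (2, false), (3, true), (1, false), (2, false), (1, false), (3, false), (0, true), (1, false), (2, false)], K9s1_mm_t40), ([(0, false), (2, false), (2, false), (2, false), (2, false), (2, false), (1, false), (1, false), (1, false), (3, false), (3, false), (3, false), (3, false), (3, false), (0, false), (1, false), (0, false), (1, true), (0, false), (2, false), (3, false), (0, false), (2, false), (0, true), (2, false), (3, true), (1, false), (2, false), (1, false), (3, false), (0, true), (1, false), (2, true), (3, false), (1, false), (3, false), (1, false)], K9s1_mm_t41), ([(0, false), (2, false), (2, false), (2, false), (2, false), (2, false), (1, false), (1, false), (1, false), (3, false), (3, false), (3, false), (3, false), (3, false), (0, false), (1, false), (0, false),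 (1, true), (0, false), (2, false), (3, false), (0, false), (2, false), (0, true), (2, false), (3, true), (1, false), (2, false), (1, false), (3, false), (0, true), (1, false), (2, true), (3, false), (1, false), (3, false), (1, true)], K9s1_mm_t42), ([(0, false), (2, false), (2, false), (2, false), (2, false), (2, false), (1, false), (1, false), (1, false), (3, false), (3, false), (3, false), (3, false), (3, false), (0, false), (1, false), (0, false), (1, true), (0, false), (2, false), (3, false), (0, false), (2, false), (0, true), (2, false), (3, true), (1, false), (2, false), (1, false), (3, false), (0, true), (1, false), (2, true), (3, false), (1, false), (3, true)], K9s1_mm_t43), ([(0, false), (2, false), (2, false), (2, false), (2, false), (2, false), (1, false), (1, false), (1, false), (3, false), (3, false), (3, false), (3, false), (3, false), (0, false), (1, false), (0, false), (1, true), (0, false), (2, false), (3, false), (0, false), (2, false), (0, true), (2, false), (3, true), (1, false), (2, false),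 (1, false), (3, false), (0, true), (1, false), (2, true), (3, false), (1, true)], K9s1_mm_t44), ([(0, false), (2, false), (2, false), (2, false), (2, false), (2, false), (1, false), (1, false), (1, false), (3, false), (3, false), (3, false), (3, false), (3, false), (0, false), (1, false), (0, false), (1, true), (0, false), (2, false), (3, false), (0, false), (2, false), (0, true), (2, false), (3, true), (1, false), (2, false), (1, false), (3, false), (0, true), (1, false), (2, true), (3, true)], K9s1_mm_t45), ([(0, false), (2, false), (2, false), (2, false), (2, false), (2, false), (1, false), (1, false), (1, false), (3, false), (3, false), (3, false), (3, false), (3, false), (0, false), (1, false), (0, false), (1, true), (0, false), (2, false), (3, false), (0, false), (2, false), (0, true), (2, false), (3, true), (1, false), (2, false), (1, false), (3, false), (0, true), (1, true)], K9s1_mm_t46), ([(0, false), (2, false), (2, false), (2, false), (2, false), (2, false), (1, false), (1, false), (1, false), (3,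 false), (3, false), (3, false), (3, false), (3, false), (0, false), (1, false), (0, false), (1, true), (0, false), (2, false), (3, false), (0, false), (2, false), (0, true), (2, false), (3, true), (1, false), (2, false), (1, false), (3, true)], K9s1_mm_t47), ([(0, false), (2, false), (2, false), (2, false), (2, false), (2, false), (1, false), (1, false), (1, false), (3, false), (3, false), (3, false), (3, false), (3, false), (0, false), (1, false), (0, false), (1, true), (0, false), (2, false), (3, false), (0, false), (2, false), (0, true), (2, false), (3, true), (1, false), (2, false), (1, true)], K9s1_mm_t48), ([(0, false), (2, false), (2, false), (2, false), (2, false), (2, false), (1, false), (1, false), (1, false), (3, false), (3, false), (3, false), (3, false), (3, false), (0, false), (1, false), (0, false), (1, true), (0, false), (2, false), (3, false), (0, false), (2, false), (0, true), (2, false), (3, true), (1, false), (2, true), (1, false), (0, false)], K9s1_mm_t49), ([(0, false), (2, false), (2,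 false), (2, false), (2, false), (2, false), (1, false), (1, false), (1, false), (3, false), (3, false), (3, false), (3, false), (3, false), (0, false), (1, false), (0, false), (1, true), (0, false), (2, false), (3, false), (0, false), (2, false), (0, true), (2, false), (3, true), (1, false), (2, true), (1, false), (0, true), (1, false), (2, false), (3, false), (3, false), (1, false), (3, false)], K9s1_mm_t50), ([(0, false), (2, false), (2, false), (2, false), (2, false), (2, false), (1, false), (1, false), (1, false), (3, false), (3, false), (3, false), (3, false), (3, false), (0, false), (1, false), (0, false), (1, true), (0, false), (2, false), (3, false), (0, false), (2, false), (0, true), (2, false), (3, true), (1, false), (2, true), (1, false), (0, true), (1, false), (2, false), (3, false), (3, false), (1, false), (3, true), (1, false)], K9s1_mm_t51), ([(0, false), (2, false), (2, false), (2, false), (2, false), (2, false), (1, false), (1, false), (1, false), (3, false), (3, false), (3, false), (3, false),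 (3, false), (0, false), (1, false), (0, false), (1, true), (0, false), (2, false), (3, false), (0, false), (2, false), (0, true), (2, false), (3, true), (1, false), (2, true), (1, false), (0, true), (1, false), (2, false), (3, false), (3, false), (1, false), (3, true), (1, true)], K9s1_mm_t52), ([(0, false), (2, false), (2, false), (2, false), (2, false), (2, false), (1, false), (1, false), (1, false), (3, false), (3, false), (3, false), (3, false), (3, false), (0, false), (1, false), (0, false), (1, true), (0, false), (2, false), (3, false), (0, false), (2, false), (0, true), (2, false), (3, true), (1, false), (2, true), (1, false), (0, true), (1, false), (2, false), (3, false), (3, false), (1, true), (3, false)], K9s1_mm_t53), ([(0, false), (2, false), (2, false), (2, false), (2, false), (2, false), (1, false), (1, false), (1, false), (3, false), (3, false), (3, false), (3, false), (3, false), (0, false), (1, false), (0, false), (1, true), (0, false), (2, false), (3, false), (0, false), (2, false), (0, true),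 (2, false), (3, true), (1, false), (2, true), (1, false), (0, true), (1, false), (2, false), (3, false), (3, false), (1, true), (3, true), (1, false), (0, false)], K9s1_mm_t54), ([(0, false), (2, false), (2, false), (2, false), (2, false), (2, false), (1, false), (1, false), (1, false), (3, false), (3, false), (3, false), (3, false), (3, false), (0, false), (1, false), (0, false), (1, true), (0, false), (2, false), (3, false), (0, false), (2, false), (0, true), (2, false), (3, true), (1, false), (2, true), (1, false), (0, true), (1, false), (2, false), (3, false), (3, false), (1, true), (3, true), (1, false), (0, true), (2, false)], K9s1_mm_t55), ([(0, false), (2, false), (2, false), (2, false), (2, false), (2, false), (1, false), (1, false), (1, false), (3, false), (3, false), (3, false), (3, false), (3, false), (0, false), (1, false), (0, false), (1, true), (0, false), (2, false), (3, false), (0, false), (2, false), (0, true), (2, false), (3, true), (1, false), (2, true), (1, false), (0, true), (1, false),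 (2, false), (3, false), (3, false), (1, true), (3, true), (1, false), (0, true), (2, true)], K9s1_mm_t56), ([(0, false), (2, false), (2, false), (2, false), (2, false), (2, false), (1, false), (1, false), (1, false), (3, false), (3, false), (3, false), (3, false), (3, false), (0, false), (1, false), (0, false), (1, true), (0, false), (2, false), (3, false), (0, false), (2, false), (0, true), (2, false), (3, true), (1, false), (2, true), (1, false), (0, true), (1, false), (2, false), (3, false), (3, false), (1, true), (3, true), (1, true)], K9s1_mm_t57), ([(0, false), (2, false), (2, false), (2, false), (2, false), (2, false), (1, false), (1, false), (1, false), (3, false), (3, false), (3, false), (3, false), (3, false), (0, false), (1, false), (0, false), (1, true), (0, false), (2, false), (3, false), (0, false), (2, false), (0, true), (2, false), (3, true), (1, false), (2, true), (1, false), (0, true), (1, false), (2, false), (3, false), (3, true)], K9s1_mm_t58), ([(0, false), (2, false), (2, false), (2, false),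 (2, false), (2, false), (1, false), (1, false), (1, false), (3, false), (3, false), (3, false), (3, false), (3, false), (0, false), (1, false), (0, false), (1, true), (0, false), (2, false), (3, false), (0, false), (2, false), (0, true), (2, false), (3, true), (1, false), (2, true), (1, false), (0, true), (1, false), (2, false), (3, true)], K9s1_mm_t59), ([(0, false), (2, false), (2, false), (2, false), (2, false), (2, false), (1, false), (1, false), (1, false), (3, false), (3, false), (3, false), (3, false), (3, false), (0, false), (1, false), (0, false), (1, true), (0, false), (2, false), (3, false), (0, false), (2, false), (0, true), (2, false), (3, true), (1, false), (2, true), (1, false), (0, true), (1, false), (2, true)], K9s1_mm_t60), ([(0, false), (2, false), (2, false), (2, false), (2, false), (2, false), (1, false), (1, false), (1, false), (3, false), (3, false), (3, false), (3, false), (3, false), (0, false), (1, false), (0, false), (1, true), (0, false), (2, false), (3, false), (0, false), (2, false),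 (0, true), (2, false), (3, true), (1, false), (2, true), (1, false), (0, true), (1, true)], K9s1_mm_t61), ([(0, false), (2, false), (2, false), (2, false), (2, false), (2, false), (1, false), (1, false), (1, false), (3, false), (3, false), (3, false), (3, false), (3, false), (0, false), (1, false), (0, false), (1, true), (0, false), (2, false), (3, false), (0, false), (2, false), (0, true), (2, false), (3, true), (1, false), (2, true), (1, true)], K9s1_mm_t62), ([(0, false), (2, false), (2, false), (2, false), (2, false), (2, false), (1, false), (1, false), (1, false), (3, false), (3, false), (3, false), (3, false), (3, false), (0, false), (1, false), (0, false), (1, true), (0, false), (2, false), (3, false), (0, false), (2, false), (0, true), (2, false), (3, true), (1, true)], K9s1_mm_t63), ([(0, false), (2, false), (2, false), (2, false), (2, false), (2, false), (1, false), (1, false), (1, false), (3, false), (3, false), (3, false), (3, false), (3, false), (0, false), (1, false), (0, false), (1, true), (0,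 false), (2, false), (3, false), (0, false), (2, false), (0, true), (2, true)], K9s1_mm_t64), ([(0, false), (2, false), (2, false), (2, false), (2, false), (2, false), (1, false), (1, false), (1, false), (3, false), (3, false), (3, false), (3, false), (3, false), (0, false), (1, false), (0, false), (1, true), (0, false), (2, false), (3, false), (0, false), (2, true)], K9s1_mm_t65), ([(0, false), (2, false), (2, false), (2, false), (2, false), (2, false), (1, false), (1, false), (1, false), (3, false), (3, false), (3, false), (3, false), (3, false), (0, false), (1, false), (0, false), (1, true), (0, false), (2, false), (3, false), (0, true), (2, false), (0, false), (3, false), (1, false), (2, false), (1, false), (2, false), (3, false)], K9s1_mm_t66), ([(0, false), (2, false), (2, false), (2, false), (2, false), (2, false), (1, false), (1, false), (1, false), (3, false), (3, false), (3, false), (3, false), (3, false), (0, false), (1, false), (0, false), (1, true), (0, false), (2, false), (3, false), (0, true),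 (2, false), (0, false), (3, false), (1, false), (2, false), (1, false), (2, false), (3, true), (1, false)], K9s1_mm_t67), ([(0, false), (2, false), (2, false), (2, false), (2, false), (2, false), (1, false), (1, false), (1, false), (3, false), (3, false), (3, false), (3, false), (3, false), (0, false), (1, false), (0, false), (1, true), (0, false), (2, false), (3, false), (0, true), (2, false), (0, false), (3, false), (1, false), (2, false), (1, false), (2, false), (3, true), (1, true)], K9s1_mm_t68), ([(0, false), (2, false), (2, false), (2, false), (2, false), (2, false), (1, false), (1, false), (1, false), (3, false), (3, false), (3, false), (3, false), (3, false), (0, false), (1, false), (0, false), (1, true), (0, false), (2, false), (3, false), (0, true), (2, false), (0, false), (3, false), (1, false), (2, false), (1, false), (2, true)], K9s1_mm_t69), ([(0, false), (2, false), (2, false), (2, false), (2, false), (2, false), (1, false), (1, false), (1, false), (3, false), (3, false), (3, false), (3, false),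 (3, false), (0, false), (1, false), (0, false), (1, true), (0, false), (2, false), (3, false), (0, true), (2, false), (0, false), (3, false), (1, false), (2, false), (1, true)], K9s1_mm_t70), ([(0, false), (2, false), (2, false), (2, false), (2, false), (2, false), (1, false), (1, false), (1, false), (3, false), (3, false), (3, false), (3, false), (3, false), (0, false), (1, false), (0, false), (1, true), (0, false), (2, false), (3, false), (0, true), (2, false), (0, false), (3, false), (1, false), (2, true)], K9s1_mm_t71), ([(0, false), (2, false), (2, false), (2, false), (2, false), (2, false), (1, false), (1, false), (1, false), (3, false), (3, false), (3, false), (3, false), (3, false), (0, false), (1, false), (0, false), (1, true), (0, false), (2, false), (3, false), (0, true), (2, false), (0, false), (3, false), (1, true)], K9s1_mm_t72), ([(0, false), (2, false), (2, false), (2, false), (2, false), (2, false), (1, false), (1, false), (1, false), (3, false), (3, false), (3, false), (3, false), (3, false),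 (0, false), (1, false), (0, false), (1, true), (0, false), (2, false), (3, false), (0, true), (2, false), (0, false), (3, true), (2, false), (1, false), (2, false), (3, false), (1, false), (1, false)], K9s1_mm_t73), ([(0, false), (2, false), (2, false), (2, false), (2, false), (2, false), (1, false), (1, false), (1, false), (3, false), (3, false), (3, false), (3, false), (3, false), (0, false), (1, false), (0, false), (1, true), (0, false), (2, false), (3, false), (0, true), (2, false), (0, false), (3, true), (2, false), (1, false), (2, false), (3, false), (1, false), (1, true)], K9s1_mm_t74), ([(0, false), (2, false), (2, false), (2, false), (2, false), (2, false), (1, false), (1, false), (1, false), (3, false), (3, false), (3, false), (3, false), (3, false), (0, false), (1, false), (0, false), (1, true), (0, false), (2, false), (3, false), (0, true), (2, false), (0, false), (3, true), (2, false), (1, false), (2, false), (3, false), (1, true)], K9s1_mm_t75), ([(0, false), (2, false), (2, false), (2, false),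 (2, false), (2, false), (1, false), (1, false), (1, false), (3, false), (3, false), (3, false), (3, false), (3, false), (0, false), (1, false), (0, false), (1, true), (0, false), (2, false), (3, false), (0, true), (2, false), (0, false), (3, true), (2, false), (1, false), (2, false), (3, true)], K9s1_mm_t76), ([(0, false), (2, false), (2, false), (2, false), (2, false), (2, false), (1, false), (1, false), (1, false), (3, false), (3, false), (3, false), (3, false), (3, false), (0, false), (1, false), (0, false), (1, true), (0, false), (2, false), (3, false), (0, true), (2, false), (0, false), (3, true), (2, false), (1, false), (2, true), (1, false), (3, false), (1, false), (0, false), (2, false), (3, false), (1, false)], K9s1_mm_t77), ([(0, false), (2, false), (2, false), (2, false), (2, false), (2, false), (1, false), (1, false), (1, false), (3, false), (3, false), (3, false), (3, false), (3, false), (0, false), (1, false), (0, false), (1, true), (0, false), (2, false), (3, false), (0, true), (2, false), (0,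 false), (3, true), (2, false), (1, false), (2, true), (1, false), (3, false), (1, false), (0, false), (2, false), (3, false), (1, true), (3, false)], K9s1_mm_t78), ([(0, false), (2, false), (2, false), (2, false), (2, false), (2, false), (1, false), (1, false), (1, false), (3, false), (3, false), (3, false), (3, false), (3, false), (0, false), (1, false), (0, false), (1, true), (0, false), (2, false), (3, false), (0, true), (2, false), (0, false), (3, true), (2, false), (1, false), (2, true), (1, false), (3, false), (1, false), (0, false), (2, false), (3, false), (1, true), (3, true), (0, false), (1, false)], K9s1_mm_t79), ([(0, false), (2, false), (2, false), (2, false), (2, false), (2, false), (1, false), (1, false), (1, false), (3, false), (3, false), (3, false), (3, false), (3, false), (0, false), (1, false), (0, false), (1, true), (0, false), (2, false), (3, false), (0, true), (2, false), (0, false), (3, true), (2, false), (1, false), (2, true), (1, false), (3, false), (1, false), (0, false), (2, false),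 (3, false), (1, true), (3, true), (0, false), (1, true), (2, false), (3, false)], K9s1_mm_t80), ([(0, false), (2, false), (2, false), (2, false), (2, false), (2, false), (1, false), (1, false), (1, false), (3, false), (3, false), (3, false), (3, false), (3, false), (0, false), (1, false), (0, false), (1, true), (0, false), (2, false), (3, false), (0, true), (2, false), (0, false), (3, true), (2, false), (1, false), (2, true), (1, false), (3, false), (1, false), (0, false), (2, false), (3, false), (1, true), (3, true), (0, false), (1, true), (2, false), (3, true)], K9s1_mm_t81), ([(0, false), (2, false), (2, false), (2, false), (2, false), (2, false), (1, false), (1, false), (1, false), (3, false), (3, false), (3, false), (3, false), (3, false), (0, false), (1, false), (0, false), (1, true), (0, false), (2, false), (3, false), (0, true), (2, false), (0, false), (3, true), (2, false), (1, false), (2, true), (1, false), (3, false), (1, false), (0, false), (2, false), (3, false), (1, true), (3, true), (0, false),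 (1, true), (2, true)], K9s1_mm_t82), ([(0, false), (2, false), (2, false), (2, false), (2, false), (2, false), (1, false), (1, false), (1, false), (3, false), (3, false), (3, false), (3, false), (3, false), (0, false), (1, false), (0, false), (1, true), (0, false), (2, false), (3, false), (0, true), (2, false), (0, false), (3, true), (2, false), (1, false), (2, true), (1, false), (3, false), (1, false), (0, false), (2, false), (3, false), (1, true), (3, true), (0, true)], K9s1_mm_t83), ([(0, false), (2, false), (2, false), (2, false), (2, false), (2, false), (1, false), (1, false), (1, false), (3, false), (3, false), (3, false), (3, false), (3, false), (0, false), (1, false), (0, false), (1, true), (0, false), (2, false), (3, false), (0, true), (2, false), (0, false), (3, true), (2, false), (1, false), (2, true), (1, false), (3, false), (1, false), (0, false), (2, false), (3, true), (1, false)], K9s1_mm_t84), ([(0, false), (2, false), (2, false), (2, false), (2, false), (2, false), (1, false), (1, false), (1,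 false), (3, false), (3, false), (3, false), (3, false), (3, false), (0, false), (1, false), (0, false), (1, true), (0, false), (2, false), (3, false), (0, true), (2, false), (0, false), (3, true), (2, false), (1, false), (2, true), (1, false), (3, false), (1, false), (0, false), (2, false), (3, true), (1, true)], K9s1_mm_t85), ([(0, false), (2, false), (2, false), (2, false), (2, false), (2, false), (1, false), (1, false), (1, false), (3, false), (3, false), (3, false), (3, false), (3, false), (0, false), (1, false), (0, false), (1, true), (0, false), (2, false), (3, false), (0, true), (2, false), (0, false), (3, true), (2, false), (1, false), (2, true), (1, false), (3, false), (1, false), (0, false), (2, true)], K9s1_mm_t86), ([(0, false), (2, false), (2, false), (2, false), (2, false), (2, false), (1, false), (1, false), (1, false), (3, false), (3, false), (3, false), (3, false), (3, false), (0, false), (1, false), (0, false), (1, true), (0, false), (2, false), (3, false), (0, true), (2, false), (0, false),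 (3, true), (2, false), (1, false), (2, true), (1, false), (3, false), (1, false), (0, true)], K9s1_mm_t87), ([(0, false), (2, false), (2, false), (2, false), (2, false), (2, false), (1, false), (1, false), (1, false), (3, false), (3, false), (3, false), (3, false), (3, false), (0, false), (1, false), (0, false), (1, true), (0, false), (2, false), (3, false), (0, true), (2, false), (0, false), (3, true), (2, false), (1, false), (2, true), (1, false), (3, false), (1, true), (0, false), (3, false), (1, false), (2, false), (3, false)], K9s1_mm_t88), ([(0, false), (2, false), (2, false), (2, false), (2, false), (2, false), (1, false), (1, false), (1, false), (3, false), (3, false), (3, false), (3, false), (3, false), (0, false), (1, false), (0, false), (1, true), (0, false), (2, false), (3, false), (0, true), (2, false), (0, false), (3, true), (2, false), (1, false), (2, true), (1, false), (3, false), (1, true), (0, false), (3, false), (1, false), (2, false), (3, true), (0, false), (1, false), (3, false)], K9s1_mm_t89),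 ([(0, false), (2, false), (2, false), (2, false), (2, false), (2, false), (1, false), (1, false), (1, false), (3, false), (3, false), (3, false), (3, false), (3, false), (0, false), (1, false), (0, false), (1, true), (0, false), (2, false), (3, false), (0, true), (2, false), (0, false), (3, true), (2, false), (1, false), (2, true), (1, false), (3, false), (1, true), (0, false), (3, false), (1, false), (2, false), (3, true), (0, false), (1, false), (3, true)], K9s1_mm_t90), ([(0, false), (2, false), (2, false), (2, false), (2, false), (2, false), (1, false), (1, false), (1, false), (3, false), (3, false), (3, false), (3, false), (3, false), (0, false), (1, false), (0, false), (1, true), (0, false), (2, false), (3, false), (0, true), (2, false), (0, false), (3, true), (2, false), (1, false), (2, true), (1, false), (3, false), (1, true), (0, false), (3, false), (1, false), (2, false), (3, true), (0, false), (1, true)], K9s1_mm_t91), ([(0, false), (2, false), (2, false), (2, false), (2, false), (2, false), (1, false),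 (1, false), (1, false), (3, false), (3, false), (3, false), (3, false), (3, false), (0, false), (1, false), (0, false), (1, true), (0, false), (2, false), (3, false), (0, true), (2, false), (0, false), (3, true), (2, false), (1, false), (2, true), (1, false), (3, false), (1, true), (0, false), (3, false), (1, false), (2, false), (3, true), (0, true)], K9s1_mm_t92), ([(0, false), (2, false), (2, false), (2, false), (2, false), (2, false), (1, false), (1, false), (1, false), (3, false), (3, false), (3, false), (3, false), (3, false), (0, false), (1, false), (0, false), (1, true), (0, false), (2, false), (3, false), (0, true), (2, false), (0, false), (3, true), (2, false), (1, false), (2, true), (1, false), (3, false), (1, true), (0, false), (3, false), (1, false), (2, true)], K9s1_mm_t93), ([(0, false), (2, false), (2, false), (2, false), (2, false), (2, false), (1, false), (1, false), (1, false), (3, false), (3, false), (3, false), (3, false), (3, false), (0, false), (1, false), (0, false), (1, true), (0, false),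 (2, false), (3, false), (0, true), (2, false), (0, false), (3, true), (2, false), (1, false), (2, true), (1, false), (3, false), (1, true), (0, false), (3, false), (1, true)], K9s1_mm_t94), ([(0, false), (2, false), (2, false), (2, false), (2, false), (2, false), (1, false), (1, false), (1, false), (3, false), (3, false), (3, false), (3, false), (3, false), (0, false), (1, false), (0, false), (1, true), (0, false), (2, false), (3, false), (0, true), (2, false), (0, false), (3, true), (2, false), (1, false), (2, true), (1, false), (3, false), (1, true), (0, false), (3, true), (2, false), (1, false), (3, false), (0, false)], K9s1_mm_t95), ([(0, false), (2, false), (2, false), (2, false), (2, false), (2, false), (1, false), (1, false), (1, false), (3, false), (3, false), (3, false), (3, false), (3, false), (0, false), (1, false), (0, false), (1, true), (0, false), (2, false), (3, false), (0, true), (2, false), (0, false), (3, true), (2, false), (1, false), (2, true), (1, false), (3, false), (1, true), (0, false),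 (3, true), (2, false), (1, false), (3, false), (0, true)], K9s1_mm_t96), ([(0, false), (2, false), (2, false), (2, false), (2, false), (2, false), (1, false), (1, false), (1, false), (3, false), (3, false), (3, false), (3, false), (3, false), (0, false), (1, false), (0, false), (1, true), (0, false), (2, false), (3, false), (0, true), (2, false), (0, false), (3, true), (2, false), (1, false), (2, true), (1, false), (3, false), (1, true), (0, false), (3, true), (2, false), (1, false), (3, true)], K9s1_mm_t97), ([(0, false), (2, false), (2, false), (2, false), (2, false), (2, false), (1, false), (1, false), (1, false), (3, false), (3, false), (3, false), (3, false), (3, false), (0, false), (1, false), (0, false), (1, true), (0, false), (2, false), (3, false), (0, true), (2, false), (0, false), (3, true), (2, false), (1, false), (2, true), (1, false), (3, false), (1, true), (0, false), (3, true), (2, false), (1, true)], K9s1_mm_t98), ([(0, false), (2, false), (2, false), (2, false), (2, false), (2, false), (1,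 false), (1, false), (1, false), (3, false), (3, false), (3, false), (3, false), (3, false), (0, false), (1, false), (0, false), (1, true), (0, false), (2, false), (3, false), (0, true), (2, false), (0, false), (3, true), (2, false), (1, false), (2, true), (1, false), (3, false), (1, true), (0, false), (3, true), (2, true), (1, false), (3, false)], K9s1_mm_t99), ([(0, false), (2, false), (2, false), (2, false), (2, false), (2, false), (1, false), (1, false), (1, false), (3, false), (3, false), (3, false), (3, false), (3, false), (0, false), (1, false), (0, false), (1, true), (0, false), (2, false), (3, false), (0, true), (2, false), (0, false), (3, true), (2, false), (1, false), (2, true), (1, false), (3, false), (1, true), (0, false), (3, true), (2, true), (1, false), (3, true)], K9s1_mm_t100), ([(0, false), (2, false), (2, false), (2, false), (2, false), (2, false), (1, false), (1, false), (1, false), (3, false), (3, false), (3, false), (3, false), (3, false), (0, false), (1, false), (0, false), (1, true),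 (0, false), (2, false), (3, false), (0, true), (2, false), (0, false), (3, true), (2, false), (1, false), (2, true), (1, false), (3, false), (1, true), (0, false), (3, true), (2, true), (1, true)], K9s1_mm_t101), ([(0, false), (2, false), (2, false), (2, false), (2, false), (2, false), (1, false), (1, false), (1, false), (3, false), (3, false), (3, false), (3, false), (3, false), (0, false), (1, false), (0, false), (1, true), (0, false), (2, false), (3, false), (0, true), (2, false), (0, false), (3, true), (2, false), (1, false), (2, true), (1, false), (3, false), (1, true), (0, true)], K9s1_mm_t102), ([(0, false), (2, false), (2, false), (2, false), (2, false), (2, false), (1, false), (1, false), (1, false), (3, false), (3, false), (3, false), (3, false), (3, false), (0, false), (1, false), (0, false), (1, true), (0, false), (2, false), (3, false), (0, true), (2, false), (0, false), (3, true), (2, false), (1, false), (2, true), (1, false), (3, true)], K9s1_mm_t103), ([(0, false), (2, false), (2, false), (2,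 false), (2, false), (2, false), (1, false), (1, false), (1, false), (3, false), (3, false), (3, false), (3, false), (3, false), (0, false), (1, false), (0, false), (1, true), (0, false), (2, false), (3, false), (0, true), (2, false), (0, false), (3, true), (2, false), (1, false), (2, true), (1, true)], K9s1_mm_t104), ([(0, false), (2, false), (2, false), (2, false), (2, false), (2, false), (1, false), (1, false), (1, false), (3, false), (3, false), (3, false), (3, false), (3, false), (0, false), (1, false), (0, false), (1, true), (0, false), (2, false), (3, false), (0, true), (2, false), (0, false), (3, true), (2, false), (1, true)], K9s1_mm_t105), ([(0, false), (2, false), (2, false), (2, false), (2, false), (2, false), (1, false), (1, false), (1, false), (3, false), (3, false), (3, false), (3, false), (3, false), (0, false), (1, false), (0, false), (1, true), (0, false), (2, false), (3, false), (0, true), (2, false), (0, false), (3, true), (2, true)], K9s1_mm_t106), ([(0, false), (2, false), (2, false), (2,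 false), (2, false), (2, false), (1, false), (1, false), (1, false), (3, false), (3, false), (3, false), (3, false), (3, false), (0, false), (1, false), (0, false), (1, true), (0, false), (2, false), (3, false), (0, true), (2, false), (0, true)], K9s1_mm_t107), ([(0, false), (2, false), (2, false), (2, false), (2, false), (2, false), (1, false), (1, false), (1, false), (3, false), (3, false), (3, false), (3, false), (3, false), (0, false), (1, false), (0, false), (1, true), (0, false), (2, false), (3, false), (0, true), (2, true)], K9s1_mm_t108), ([(0, false), (2, false), (2, false), (2, false), (2, false), (2, false), (1, false), (1, false), (1, false), (3, false), (3, false), (3, false), (3, false), (3, false), (0, false), (1, false), (0, false), (1, true), (0, false), (2, false), (3, true)], K9s1_mm_t109), ([(0, false), (2, false), (2, false), (2, false), (2, false), (2, false), (1, false), (1, false), (1, false), (3, false), (3, false), (3, false), (3, false), (3, false), (0, false), (1, false), (0, false),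 (1, true), (0, false), (2, true)], K9s1_mm_t110), ([(0, false), (2, false), (2, false), (2, false), (2, false), (2, false), (1, false), (1, false), (1, false), (3, false), (3, false), (3, false), (3, false), (3, false), (0, false), (1, false), (0, false), (1, true), (0, true)], K9s1_mm_t111), ([(0, false), (2, false), (2, false), (2, false), (2, false), (2, false), (1, false), (1, false), (1, false), (3, false), (3, false), (3, false), (3, false), (3, false), (0, false), (1, false), (0, true)], K9s1_mm_t112), ([(0, false), (2, false), (2, false), (2, false), (2, false), (2, false), (1, false), (1, false), (1, false), (3, false), (3, false), (3, false), (3, false), (3, false), (0, false), (1, true)], K9s1_mm_t113), ([(0, false), (2, false), (2, false), (2, false), (2, false), (2, false), (1, false), (1, false), (1, false), (3, false), (3, false), (3, false), (3, false), (3, false), (0, true)], K9s1_mm_t114), ([(0, false), (2, false), (2, false), (2, false), (2, false), (2, false), (1, false), (1, false), (1,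 false), (3, false), (3, false), (3, false), (3, false), (3, true)], K9s1_mm_t115), ([(0, false), (2, false), (2, false), (2, false), (2, false), (2, false), (1, false), (1, false), (1, false), (3, false), (3, false), (3, false), (3, true)], K9s1_mm_t116), ([(0, false), (2, false), (2, false), (2, false), (2, false), (2, false), (1, false), (1, false), (1, false), (3, false), (3, false), (3, true)], K9s1_mm_t117), ([(0, false), (2, false), (2, false), (2, false), (2, false), (2, false), (1, false), (1, false), (1, false), (3, false), (3, true)], K9s1_mm_t118), ([(0, false), (2, false), (2, false), (2, false), (2, false), (2, false), (1, false), (1, false), (1, false), (3, true)], K9s1_mm_t119), ([(0, false), (2, false), (2, false), (2, false), (2, false), (2, false), (1, false), (1, false), (1, true)], K9s1_mm_t120), ([(0, false), (2, false), (2, false), (2, false), (2, false), (2, false), (1, false), (1, true)], K9s1_mm_t121), ([(0, false), (2, false), (2, false), (2, false), (2, false), (2, false), (1, true)],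 K9s1_mm_t122), ([(0, false), (2, false), (2, false), (2, false), (2, false), (2, true)], K9s1_mm_t123), ([(0, false), (2, false), (2, false), (2, false), (2, true)], K9s1_mm_t124), ([(0, false), (2, false), (2, false), (2, true)], K9s1_mm_t125), ([(0, false), (2, false), (2, true)], K9s1_mm_t126), ([(0, false), (2, true)], K9s1_mm_t127), ([(0, true)], K9s1_mm_t128)]

def K9s1_mm_T : Tr := (n0 (n2 (n2 (n2 (n2 (n2 (n1 (n1 (n1 (n3 (n3 (n3 (n3 (n3 (n0 (n1 (n0 (n1 (n3 (n0 (n2 (n2 (n0 (n2 (n3 (n0 l (n1 l (n2 (n1 l (n3 l (n0 (n1 l (n2 l (n3 l l))) l))) l))) (n1 l (n0 l (n2 l l)))) l) l) l) l) (n3 l (n1 (n2 (n0 l (n2 (n0 l l) l)) l) l))) l) (n0 (n2 (n3 (n0 (n2 (n0 l (n2 (n3 (n1 (n1 (n2 (n3 l (n0 l (n1 (n2 l (n3 l (n1 (n3 l (n1 l l)) l))) l))) l) l) l) (n1 (n2 (n1 (n3 (n0 l (n1 (n2 l (n3 (n1 (n3 (n1 l l) l) l) l)) l)) l) l) (n1 (n0 l (n1 (n2 (n3 (n3 (n1 (n3 l (n1 l l)) (n3 l (n1 (n0 l (n2 l l)) l))) l) l) l) l)) l)) l)) l)) l) (n2 (n0 (n3 (n1 (n2 (n1 (n2 (n3 l (n1 l l)) l) l) l) l) (n2 (n1 (n2 (n3 (n1 (n1 l l) l) l)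 (n1 (n3 (n1 (n0 (n2 (n3 (n1 l (n3 l (n0 (n1 l (n2 (n3 l l) l)) l))) (n1 l l)) l) l) (n0 (n3 (n1 (n2 (n3 l (n0 (n1 (n3 l l) l) l)) l) l) (n2 (n1 (n3 (n0 l l) l) l) (n1 (n3 l l) l))) l)) l) l)) l) l)) l) l)) l) l) l)) l) l) l) l) l) l) l) l) l) l) l) l) l) l) l) l) l)

theorem K9s1_mm_cov : covers (K9s1_mm_L.map (fun e => pathBox e.1 root4)) K9s1_mm_T root4 = true := by decide +kernel

theorem K9s1_mm_all : AllSub K9s1 false false K9s1_mm_A K9s1_mm_B K9s1_mm_L := allSub_cons K9s1_mm_h0 (allSub_cons K9s1_mm_h1 (allSub_cons K9s1_mm_h2 (allSub_cons K9s1_mm_h3 (allSub_cons K9s1_mm_h4 (allSub_cons K9s1_mm_h5 (allSub_cons K9s1_mm_h6 (allSub_cons K9s1_mm_h7 (allSub_cons K9s1_mm_h8 (allSub_cons K9s1_mm_h9 (allSub_cons K9s1_mm_h10 (allSub_cons K9s1_mm_h11 (allSub_cons K9s1_mm_h12 (allSub_cons K9s1_mm_h13 (allSub_cons K9s1_mm_h14 (allSub_cons K9s1_mm_h15 (allSub_cons K9s1_mm_h16 (allSub_cons K9s1_mm_h17 (allSub_cons K9s1_mm_h18 (allSub_cons K9s1_mm_h19 (allSub_cons K9s1_mm_h20 (allSub_cons K9s1_mm_h21 (allSub_cons K9s1_mm_h22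 (allSub_cons K9s1_mm_h23 (allSub_cons K9s1_mm_h24 (allSub_cons K9s1_mm_h25 (allSub_cons K9s1_mm_h26 (allSub_cons K9s1_mm_h27 (allSub_cons K9s1_mm_h28 (allSub_cons K9s1_mm_h29 (allSub_cons K9s1_mm_h30 (allSub_cons K9s1_mm_h31 (allSub_cons K9s1_mm_h32 (allSub_cons K9s1_mm_h33 (allSub_cons K9s1_mm_h34 (allSub_cons K9s1_mm_h35 (allSub_cons K9s1_mm_h36 (allSub_cons K9s1_mm_h37 (allSub_cons K9s1_mm_h38 (allSub_cons K9s1_mm_h39 (allSub_cons K9s1_mm_h40 (allSub_cons K9s1_mm_h41 (allSub_cons K9s1_mm_h42 (allSub_cons K9s1_mm_h43 (allSub_cons K9s1_mm_h44 (allSub_cons K9s1_mm_h45 (allSub_cons K9s1_mm_h46 (allSub_cons K9s1_mm_h47 (allSub_cons K9s1_mm_h48 (allSub_cons K9s1_mm_h49 (allSub_cons K9s1_mm_h50 (allSub_cons K9s1_mm_h51 (allSub_cons K9s1_mm_h52 (allSub_cons K9s1_mm_h53 (allSub_cons K9s1_mm_h54 (allSub_cons K9s1_mm_h55 (allSub_cons K9s1_mm_h56 (allSub_cons K9s1_mm_h57 (allSub_cons K9s1_mm_h58 (allSub_cons K9s1_mm_h59 (allSub_cons K9s1_mm_h60 (allSub_cons K9s1_mm_h61 (allSub_cons K9s1_mm_h62 (allSub_cons K9s1_mm_h63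 (allSub_cons K9s1_mm_h64 (allSub_cons K9s1_mm_h65 (allSub_cons K9s1_mm_h66 (allSub_cons K9s1_mm_h67 (allSub_cons K9s1_mm_h68 (allSub_cons K9s1_mm_h69 (allSub_cons K9s1_mm_h70 (allSub_cons K9s1_mm_h71 (allSub_cons K9s1_mm_h72 (allSub_cons K9s1_mm_h73 (allSub_cons K9s1_mm_h74 (allSub_cons K9s1_mm_h75 (allSub_cons K9s1_mm_h76 (allSub_cons K9s1_mm_h77 (allSub_cons K9s1_mm_h78 (allSub_cons K9s1_mm_h79 (allSub_cons K9s1_mm_h80 (allSub_cons K9s1_mm_h81 (allSub_cons K9s1_mm_h82 (allSub_cons K9s1_mm_h83 (allSub_cons K9s1_mm_h84 (allSub_cons K9s1_mm_h85 (allSub_cons K9s1_mm_h86 (allSub_cons K9s1_mm_h87 (allSub_cons K9s1_mm_h88 (allSub_cons K9s1_mm_h89 (allSub_cons K9s1_mm_h90 (allSub_cons K9s1_mm_h91 (allSub_cons K9s1_mm_h92 (allSub_cons K9s1_mm_h93 (allSub_cons K9s1_mm_h94 (allSub_cons K9s1_mm_h95 (allSub_cons K9s1_mm_h96 (allSub_cons K9s1_mm_h97 (allSub_cons K9s1_mm_h98 (allSub_cons K9s1_mm_h99 (allSub_cons K9s1_mm_h100 (allSub_cons K9s1_mm_h101 (allSub_cons K9s1_mm_h102 (allSub_cons K9s1_mm_h103 (allSub_cons K9s1_mm_h104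 (allSub_cons K9s1_mm_h105 (allSub_cons K9s1_mm_h106 (allSub_cons K9s1_mm_h107 (allSub_cons K9s1_mm_h108 (allSub_cons K9s1_mm_h109 (allSub_cons K9s1_mm_h110 (allSub_cons K9s1_mm_h111 (allSub_cons K9s1_mm_h112 (allSub_cons K9s1_mm_h113 (allSub_cons K9s1_mm_h114 (allSub_cons K9s1_mm_h115 (allSub_cons K9s1_mm_h116 (allSub_cons K9s1_mm_h117 (allSub_cons K9s1_mm_h118 (allSub_cons K9s1_mm_h119 (allSub_cons K9s1_mm_h120 (allSub_cons K9s1_mm_h121 (allSub_cons K9s1_mm_h122 (allSub_cons K9s1_mm_h123 (allSub_cons K9s1_mm_h124 (allSub_cons K9s1_mm_h125 (allSub_cons K9s1_mm_h126 (allSub_cons K9s1_mm_h127 (allSub_cons K9s1_mm_h128 (allSub_nil)))))))))))))))))))))))))))))))))))))))))))))))))))))))))))))))))))))))))))))))))))))))))))))))))))))))))))))))))))))))))))))))))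

theorem K9s1_hmm : QuadChecked K9s1 false false := quadChecked_intro K9s1_mm_root K9s1_mm_cov K9s1_mm_all

end Vale.Agent.Lib.P154
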